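import Mathlib

/-!
# Commutative algebra: symmetric bivariate polynomials vanishing at prescribed points
-/

namespace Vale.Agent.P291.H808.Alg

open Polynomial

variable {A : Type} [CommRing A]

/-- A polynomial vanishing at points with regular differences is divisible by the product. -/
theorem prod_dvd {ι : Type} (s : Finset ι) (ρ : ι → A)
    (hρ : ∀ i ∈ s, ∀ j ∈ s, i ≠ j → ρ i - ρ j ∈ nonZeroDivisors A) (g : A[X])
    (hg : ∀ i ∈ s, g.eval (ρ i) = 0) : ∏ i ∈ s, (X - C (ρ i)) ∣ g := by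
  classical
  induction s using Finset.induction_on generalizing g with
  | empty => simp
  | insert i s hi ih =>
    obtain ⟨g', rfl⟩ := Polynomial.dvd_iff_isRoot.mpr (hg i (Finset.mem_insert_self i s))
    rw [Finset.prod_insert hi]
    apply mul_dvd_mul_left
    apply ih
    · intro j hj k hk
      exact hρ j (Finset.mem_insert_of_mem hj) k (Finset.mem_insert_of_mem hk)
    · intro j hj
      have h1 := hg j (Finset.mem_insert_of_mem hj)
      rw [eval_mul, eval_sub, eval_X, eval_C] at h1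
      have h2 : ρ j - ρ i ∈ nonZeroDivisors A :=
        hρ j (Finset.mem_insert_of_mem hj) i (Finset.mem_insert_self i s)
          (fun h => hi (h ▸ hj))
      exact (mul_left_mem_nonZeroDivisors_eq_zero_iff h2).mp h1

/-- The remainder modulo a monic polynomial vanishes under a specialization in which the monic
polynomial splits with regular differences of roots, if the polynomial vanishes at the roots. -/
theorem rem_van {B : Type} [CommRing B] (φ : B →+* A) {κ : Type} [Fintype κ]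
    (y : κ → A) (hy : ∀ i j, i ≠ j → y i - y j ∈ nonZeroDivisors A) (M f : B[X]) (hM : M.Monic)
    (hMφ : M.map φ = ∏ k, (X - C (y k))) (hf : ∀ k, (f.map φ).eval (y k) = 0) :
    (f %ₘ M).map φ = 0 := by
  rcases subsingleton_or_nontrivial A with hA | hA
  · exact Subsingleton.elim _ _
  have hB : Nontrivial B := φ.domain_nontrivial
  have h1 : (f %ₘ M).map φ = f.map φ - (M.map φ) * (f /ₘ M).map φ := by
    rw [Polynomial.modByMonic_eq_sub_mul_div, Polynomial.map_sub, Polynomial.map_mul]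
  have h2 : M.map φ ∣ (f %ₘ M).map φ := by
    rw [hMφ]
    apply prod_dvd _ _ (fun i _ j _ => hy i j)
    intro k _
    rw [h1, eval_sub, eval_mul, hf k, hMφ, eval_prod]
    rw [Finset.prod_eq_zero (Finset.mem_univ k) (by simp)]
    ring
  by_contra hne
  refine (hM.map φ).not_dvd_of_degree_lt hne ?_ h2
  refine lt_of_le_of_lt degree_map_le ?_
  rw [hM.degree_map]
  exact degree_modByMonic_lt f hM

/-- Division of a bivariate polynomial by a polynomial `M` monic in the outer variable. -/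
theorem gen_div {ι κ : Type} [Fintype ι] [Fintype κ] (ρ : ι → A)
    (hρ : ∀ i j, i ≠ j → ρ i - ρ j ∈ nonZeroDivisors A) (y : ι → κ → A)
    (hy : ∀ i k k', k ≠ k' → y i k - y i k' ∈ nonZeroDivisors A) (M : A[X][X]) (hM : M.Monic)
    (hMρ : ∀ i, M.map (evalRingHom (ρ i)) = ∏ k, (X - C (y i k))) (f : A[X][X])
    (hf : ∀ i k, f.evalEval (ρ i) (y i k) = 0) :
    ∃ q h : A[X][X], f = M * q + C (∏ i, (X - C (ρ i))) * h := by
  have h1 : C (∏ i, (X - C (ρ i))) ∣ f %ₘ M := by
    rw [C_dvd_iff_dvd_coeff]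
    intro n
    apply prod_dvd _ _ (fun i _ j _ => hρ i j)
    intro i _
    have h2 := rem_van (evalRingHom (ρ i)) (y i) (hy i) M f hM (hMρ i) (fun k => by
      rw [map_evalRingHom_eval]
      exact hf i k)
    have h3 := congrArg (fun p => p.coeff n) h2
    simpa using h3
  obtain ⟨h, hh⟩ := h1
  refine ⟨f /ₘ M, h, ?_⟩
  rw [← hh]
  rw [add_comm]
  exact (modByMonic_add_div f M).symm

/-- `∏ (u - ρ i)` -/
noncomputable def Pu {ι : Type} [Fintype ι] (ρ : ι → A) : A[X][X] := C (∏ i, (X - C (ρ i)))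

/-- `∏ (v - ρ i)` -/
noncomputable def Pv {ι : Type} [Fintype ι] (ρ : ι → A) : A[X][X] := ∏ i, (X - C (C (ρ i)))

/-- `∏ (v - u - τ k)` -/
noncomputable def om {κ : Type} [Fintype κ] (τ : κ → A) : A[X][X] :=
  ∏ k, (X - C (X + C (τ k)))

theorem Pv_monic {ι : Type} [Fintype ι] (ρ : ι → A) : (Pv ρ).Monic :=
  monic_prod_of_monic _ _ fun _ _ => monic_X_sub_C _

theorem om_monic {κ : Type} [Fintype κ] (τ : κ → A) : (om τ).Monic :=
  monic_prod_of_monic _ _ fun _ _ => monic_X_sub_C _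

theorem evalEval_Pu {ι : Type} [Fintype ι] (ρ : ι → A) (x y : A) :
    (Pu ρ).evalEval x y = ∏ i, (x - ρ i) := by
  unfold Pu
  rw [evalEval_C, eval_prod]
  simp

theorem evalEval_Pv {ι : Type} [Fintype ι] (ρ : ι → A) (x y : A) :
    (Pv ρ).evalEval x y = ∏ i, (y - ρ i) := by
  unfold Pv
  rw [evalEval_prod]
  refine Finset.prod_congr rfl fun i _ => ?_
  rw [evalEval_sub, evalEval_X, evalEval_C, eval_C]

theorem evalEval_om {κ : Type} [Fintype κ] (τ : κ → A) (x y : A) :
    (om τ).evalEval x y = ∏ k, (y - (x + τ k)) := by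
  unfold om
  rw [evalEval_prod]
  refine Finset.prod_congr rfl fun i _ => ?_
  rw [evalEval_sub, evalEval_X, evalEval_C, eval_add, eval_X, eval_C]

theorem swap_Pu {ι : Type} [Fintype ι] (ρ : ι → A) : Bivariate.swap (Pu ρ) = Pv ρ := by
  unfold Pu Pv
  rw [Bivariate.swap_C, Polynomial.map_prod]
  refine Finset.prod_congr rfl fun i _ => ?_
  rw [Polynomial.map_sub, map_X, map_C]

theorem evalEval_swap (x y : A) (p : A[X][X]) :
    (Bivariate.swap p).evalEval x y = p.evalEval y x := by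
  rw [← coe_aevalAeval_eq_evalEval, ← coe_aevalAeval_eq_evalEval, Bivariate.aevalAeval_swap]

/-- A bivariate polynomial vanishing at all `(ρ i, ρ j)`, `i ≠ j`, lies in the ideal of the divided
difference `d` of `P = ∏ (z - ρ i)` and `P(v)`. -/
theorem gr {ι : Type} [Fintype ι] (ρ : ι → A)
    (hρ : ∀ i j, i ≠ j → ρ i - ρ j ∈ nonZeroDivisors A) (G : A[X][X])
    (hG : ∀ i j, i ≠ j → G.evalEval (ρ i) (ρ j) = 0) (d : A[X][X])
    (hd : (C X - X) * d = Pu ρ - Pv ρ) : ∃ α δ : A[X][X], G = α * d + δ * Pv ρ := by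
  obtain ⟨β, α, hF⟩ := gen_div ρ hρ (fun _ k => ρ k) (fun _ k k' => hρ k k') (Pv ρ) (Pv_monic ρ)
    (fun i => by
      unfold Pv
      rw [Polynomial.map_prod]
      refine Finset.prod_congr rfl fun k _ => ?_
      rw [Polynomial.map_sub, map_X, map_C]
      simp) ((C X - X) * G) (fun i k => by
      rw [evalEval_mul, evalEval_sub, evalEval_X, evalEval_C, eval_X]
      by_cases h : i = k
      · subst h; simp
      · rw [hG i k h, mul_zero])
  change (C X - X) * G = Pv ρ * β + Pu ρ * α at hF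
  have hdiag : (Pv ρ).eval X * (β.eval X + α.eval X) = 0 := by
    have h1 := congrArg (fun p => p.eval X) hF
    simp only [eval_mul, eval_sub, eval_add, eval_C, eval_X, sub_self, zero_mul] at h1
    have h2 : (Pu ρ).eval X = (Pv ρ).eval X := by
      unfold Pu Pv
      rw [eval_C, eval_prod]
      simp
    rw [h2] at h1
    rw [mul_add]
    exact h1.symm
  have hmon : ((Pv ρ).eval X).Monic := by
    unfold Pv
    rw [eval_prod]
    apply monic_prod_of_monic
    intro i _
    simpa using monic_X_sub_C (ρ i)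
  have hzero : (α + β).eval X = 0 := by
    rw [eval_add, add_comm]
    exact (mul_left_mem_nonZeroDivisors_eq_zero_iff hmon.mem_nonZeroDivisors).mp hdiag
  obtain ⟨δ, hδ⟩ := Polynomial.dvd_iff_isRoot.mpr hzero
  refine ⟨α, -δ, ?_⟩
  have hreg : (X - C X : A[X][X]) ∈ nonZeroDivisors A[X][X] :=
    (monic_X_sub_C (X : A[X])).mem_nonZeroDivisors
  have hβ : β = -α + (X - C X) * δ := by rw [← hδ]; ring
  have key : (X - C X) * (G - (α * d + -δ * Pv ρ)) = 0 := by
    have h3 : (X - C X) * (G - (α * d + -δ * Pv ρ))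
        = -((C X - X) * G) + α * ((C X - X) * d) + (X - C X) * δ * Pv ρ := by ring
    rw [h3, hF, hd, hβ]
    ring
  exact sub_eq_zero.mp ((mul_left_mem_nonZeroDivisors_eq_zero_iff hreg).mp key)

theorem prod_mem {κ : Type} (s : Finset κ) (x : κ → A)
    (h : ∀ k ∈ s, x k ∈ nonZeroDivisors A) : ∏ k ∈ s, x k ∈ nonZeroDivisors A :=
  Submonoid.prod_mem _ h

theorem neg_mem_nzd {x : A} (hx : x ∈ nonZeroDivisors A) : -x ∈ nonZeroDivisors A := by
  rw [neg_eq_neg_one_mul]
  exact mul_mem (IsUnit.mem_nonZeroDivisors isUnit_one.neg) hx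

/-- The main algebraic lemma (dimension vector two). -/
theorem T2 {ι κ : Type} [Fintype ι] [Fintype κ] (ρ : ι → A) (τ : κ → A)
    (hρ : ∀ i j, i ≠ j → ρ i - ρ j ∈ nonZeroDivisors A)
    (hτ : ∀ k k', k ≠ k' → τ k - τ k' ∈ nonZeroDivisors A)
    (hρτ : ∀ i j k, ρ i + τ k - ρ j ∈ nonZeroDivisors A)
    (hsw : Bivariate.swap (om τ) = om τ) (f : A[X][X])
    (hf1 : ∀ i j, i ≠ j → f.evalEval (ρ i) (ρ j) = 0)
    (hf2 : ∀ i k, f.evalEval (ρ i) (ρ i + τ k) = 0)
    (hf3 : ∀ i k, f.evalEval (ρ i + τ k) (ρ i) = 0) (d : A[X][X])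
    (hd : (C X - X) * d = Pu ρ - Pv ρ) :
    ∃ x y z : A[X][X], f = om τ * (x * d + y * Pv ρ) + Pu ρ * Pv ρ * z := by
  have hom : ∀ i, (om τ).map (evalRingHom (ρ i)) = ∏ k, (X - C (ρ i + τ k)) := by
    intro i
    unfold om
    rw [Polynomial.map_prod]
    refine Finset.prod_congr rfl fun k _ => ?_
    rw [Polynomial.map_sub, map_X, map_C]
    simp
  have hy : ∀ (i : ι) (k k' : κ), k ≠ k' → ρ i + τ k - (ρ i + τ k') ∈ nonZeroDivisors A := by
    intro i k k' h
    rw [add_sub_add_left_eq_sub]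
    exact hτ k k' h
  obtain ⟨q, h, hqh⟩ := gen_div ρ hρ (fun i k => ρ i + τ k) hy (om τ) (om_monic τ) hom f hf2
  change f = om τ * q + Pu ρ * h at hqh
  have homz : ∀ i k, (om τ).evalEval (ρ i + τ k) (ρ i) = 0 := by
    intro i k
    rw [← hsw, evalEval_swap, evalEval_om]
    exact Finset.prod_eq_zero (Finset.mem_univ k) (by ring)
  have hh : ∀ i k, h.evalEval (ρ i + τ k) (ρ i) = 0 := by
    intro i k
    have h1 := hf3 i k
    rw [hqh, evalEval_add, evalEval_mul, evalEval_mul, homz, zero_mul, zero_add,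
      evalEval_Pu] at h1
    have h2 : ∏ j, (ρ i + τ k - ρ j) ∈ nonZeroDivisors A :=
      prod_mem Finset.univ (fun j => ρ i + τ k - ρ j) (fun j _ => hρτ i j k)
    exact (mul_left_mem_nonZeroDivisors_eq_zero_iff h2).mp h1
  obtain ⟨q', h', hqh'⟩ := gen_div ρ hρ (fun i k => ρ i + τ k) hy (om τ) (om_monic τ) hom
    (Bivariate.swap h) (fun i k => by rw [evalEval_swap]; exact hh i k)
  change Bivariate.swap h = om τ * q' + Pu ρ * h' at hqh'
  have hh2 : h = om τ * Bivariate.swap q' + Pv ρ * Bivariate.swap h' := by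
    have h2 := congrArg (fun p => Bivariate.swap p) hqh'
    simp only [map_add, map_mul, hsw, swap_Pu, Bivariate.swap_swap_apply] at h2
    exact h2
  have hf : f = om τ * (q + Pu ρ * Bivariate.swap q') + Pu ρ * Pv ρ * Bivariate.swap h' := by
    rw [hqh, hh2]
    ring
  obtain ⟨α, δ, hgr⟩ := gr ρ hρ (q + Pu ρ * Bivariate.swap q') (fun i j hij => by
    have h1 := hf1 i j hij
    rw [hf, evalEval_add, evalEval_mul, evalEval_mul, evalEval_mul (ρ i) (ρ j) (Pu ρ) (Pv ρ),
      evalEval_Pu] at h1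
    rw [Finset.prod_eq_zero (Finset.mem_univ i) (sub_self _), zero_mul, zero_mul, add_zero] at h1
    refine (mul_left_mem_nonZeroDivisors_eq_zero_iff ?_).mp h1
    rw [evalEval_om]
    refine prod_mem Finset.univ (fun k => ρ j - (ρ i + τ k)) (fun k _ => ?_)
    have h2 : ρ j - (ρ i + τ k) = -(ρ i + τ k - ρ j) := by ring
    change ρ j - (ρ i + τ k) ∈ nonZeroDivisors A
    rw [h2]
    exact neg_mem_nzd (hρτ i j k)) d hd
  refine ⟨α, δ, Bivariate.swap h', ?_⟩
  rw [← hgr]
  exact hf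

end Vale.Agent.P291.H808.Alg
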