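import Vale.Agent.P291.H808.Alg

/-!
# Commutative algebra: the three divisions with a third variable
-/

namespace Vale.Agent.P291.H808.Alg

open Polynomial

variable {A : Type} [CommRing A]

theorem exists_d {ι : Type} [Fintype ι] (ρ : ι → A) :
    ∃ d : A[X][X], (C X - X) * d = Pu ρ - Pv ρ := by
  have h : (Pu ρ - Pv ρ).eval X = 0 := by
    unfold Pu Pv
    rw [eval_sub, eval_C, eval_prod]
    simp
  obtain ⟨d, hd⟩ := Polynomial.dvd_iff_isRoot.mpr h
  refine ⟨-d, ?_⟩
  rw [hd]
  ring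

/-- A polynomial with all coefficients in a finitely generated ideal. -/
theorem mem_three {B : Type} [CommRing B] {g1 g2 g3 : B} (r : B[X])
    (h : ∀ n, ∃ x y z : B, r.coeff n = x * g1 + y * g2 + z * g3) :
    ∃ x y z : B[X], r = x * C g1 + y * C g2 + z * C g3 := by
  have h1 : r ∈ Ideal.map (C : B →+* B[X]) (Ideal.span {g1, g2, g3}) := by
    rw [Ideal.mem_map_C_iff]
    intro n
    obtain ⟨x, y, z, e⟩ := h n
    rw [Ideal.mem_span_insert]
    refine ⟨x, y * g2 + z * g3, ?_, by rw [e]; ring⟩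
    rw [Ideal.mem_span_pair]
    exact ⟨y, z, rfl⟩
  rw [Ideal.map_span] at h1
  simp only [Set.image_insert_eq, Set.image_singleton] at h1
  rw [Ideal.mem_span_insert] at h1
  obtain ⟨x, z', h2, e⟩ := h1
  rw [Ideal.mem_span_pair] at h2
  obtain ⟨y, z, e2⟩ := h2
  exact ⟨x, y, z, by rw [e, ← e2]; ring⟩

theorem mem_two {B : Type} [CommRing B] {g1 g2 : B} (r : B[X])
    (h : ∀ n, ∃ x y : B, r.coeff n = x * g1 + y * g2) :
    ∃ x y : B[X], r = x * C g1 + y * C g2 := by
  obtain ⟨x, y, z, e⟩ := mem_three (g1 := g1) (g2 := g2) (g3 := 0) r (fun n => by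
    obtain ⟨x, y, e⟩ := h n
    exact ⟨x, y, 0, by rw [e]; ring⟩)
  exact ⟨x, y, by rw [e]; simp⟩

theorem map_Pu {B : Type} [CommRing B] (m : A →+* B) {ι : Type} [Fintype ι] (ρ : ι → A) :
    (Pu ρ).map (mapRingHom m) = Pu (fun i => m (ρ i)) := by
  unfold Pu
  rw [map_C]
  congr 1
  rw [coe_mapRingHom, Polynomial.map_prod]
  refine Finset.prod_congr rfl fun i _ => ?_
  rw [Polynomial.map_sub, map_X, map_C]

theorem map_Pv {B : Type} [CommRing B] (m : A →+* B) {ι : Type} [Fintype ι] (ρ : ι → A) :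
    (Pv ρ).map (mapRingHom m) = Pv (fun i => m (ρ i)) := by
  unfold Pv
  rw [Polynomial.map_prod]
  refine Finset.prod_congr rfl fun i _ => ?_
  rw [Polynomial.map_sub, map_X, map_C]
  congr 2
  rw [coe_mapRingHom, map_C]

theorem map_om {B : Type} [CommRing B] (m : A →+* B) {ι : Type} [Fintype ι] (ρ : ι → A) :
    (om ρ).map (mapRingHom m) = om (fun i => m (ρ i)) := by
  unfold om
  rw [Polynomial.map_prod]
  refine Finset.prod_congr rfl fun i _ => ?_
  rw [Polynomial.map_sub, map_X, map_C]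
  congr 2
  rw [coe_mapRingHom, Polynomial.map_add, map_C, map_X]

theorem map_swap {B : Type} [CommRing B] (m : A →+* B) (g : A[X][X]) :
    Bivariate.swap (g.map (mapRingHom m)) = (Bivariate.swap g).map (mapRingHom m) := by
  induction g using Polynomial.induction_on' with
  | add p q hp hq => rw [Polynomial.map_add, map_add, hp, hq, map_add, Polynomial.map_add]
  | monomial k a =>
    induction a using Polynomial.induction_on' with
    | add p q hp hq =>
      rw [map_add, Polynomial.map_add, map_add, hp, hq, map_add, Polynomial.map_add]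
    | monomial j a =>
      rw [map_monomial, coe_mapRingHom, map_monomial, Bivariate.swap_monomial_monomial,
        Bivariate.swap_monomial_monomial, map_monomial, coe_mapRingHom, map_monomial]

theorem stepA_aux {B : Type} [CommRing B] (m : A →+* B) (hm : Function.Surjective m) (β : A)
    (hβ : ∀ g : A, m g = 0 → β ∣ g) {ι κ : Type} [Fintype ι] [Fintype κ]
    (ρ : ι → A) (τ : κ → A)
    (hρ : ∀ i j, i ≠ j → m (ρ i - ρ j) ∈ nonZeroDivisors B)
    (hτ : ∀ i j, i ≠ j → m (τ i - τ j) ∈ nonZeroDivisors B)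
    (hρτ : ∀ i j k, m (ρ i + τ k - ρ j) ∈ nonZeroDivisors B)
    (hsw : Bivariate.swap (om τ) = om τ) (f : A[X][X])
    (hf1 : ∀ i j, i ≠ j → m (f.evalEval (ρ i) (ρ j)) = 0)
    (hf2 : ∀ i k, m (f.evalEval (ρ i) (ρ i + τ k)) = 0)
    (hf3 : ∀ i k, m (f.evalEval (ρ i + τ k) (ρ i)) = 0) (d : A[X][X])
    (hd : (C X - X) * d = Pu ρ - Pv ρ) :
    ∃ x y z h : A[X][X],
      f = om τ * (x * d + y * Pv ρ) + Pu ρ * Pv ρ * z + C (C β) * h := by
  have hMd : (C X - X) * d.map (mapRingHom m)
      = Pu (fun i => m (ρ i)) - Pv (fun i => m (ρ i)) := by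
    rw [← map_Pu, ← map_Pv, ← Polynomial.map_sub, ← hd, Polynomial.map_mul, Polynomial.map_sub]
    congr 2
    · simp
    · simp
  obtain ⟨x, y, z, e⟩ := T2 (fun i => m (ρ i)) (fun k => m (τ k))
    (fun i j h => by rw [← map_sub]; exact hρ i j h)
    (fun i j h => by rw [← map_sub]; exact hτ i j h)
    (fun i j k => by rw [← map_add, ← map_sub]; exact hρτ i j k)
    (by rw [← map_om, map_swap, hsw]) (f.map (mapRingHom m))
    (fun i j h => by rw [map_mapRingHom_evalEval]; exact hf1 i j h)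
    (fun i k => by rw [← map_add, map_mapRingHom_evalEval]; exact hf2 i k)
    (fun i k => by rw [← map_add, map_mapRingHom_evalEval]; exact hf3 i k)
    (d.map (mapRingHom m)) hMd
  have hsurj : Function.Surjective (Polynomial.map (mapRingHom m)) :=
    map_surjective _ (map_surjective _ hm)
  obtain ⟨x, rfl⟩ := hsurj x
  obtain ⟨y, rfl⟩ := hsurj y
  obtain ⟨z, rfl⟩ := hsurj z
  rw [← map_om, ← map_Pu, ← map_Pv] at e
  have h0 : (f - (om τ * (x * d + y * Pv ρ) + Pu ρ * Pv ρ * z)).map (mapRingHom m) = 0 := by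
    rw [Polynomial.map_sub, e]
    simp only [Polynomial.map_add, Polynomial.map_mul]
    ring
  have h1 : C (C β) ∣ f - (om τ * (x * d + y * Pv ρ) + Pu ρ * Pv ρ * z) := by
    rw [C_dvd_iff_dvd_coeff]
    intro i
    rw [C_dvd_iff_dvd_coeff]
    intro j
    have h2 := congrArg (fun p => (p.coeff i).coeff j) h0
    simp only [coe_mapRingHom, coeff_map, coeff_zero] at h2
    exact hβ _ h2
  obtain ⟨h, hh⟩ := h1
  exact ⟨x, y, z, h, by rw [← hh]; ring⟩

section domain

variable {L : Type} [CommRing L] [IsDomain L]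

/-- The polynomial `∏ (b - c' j)`. -/
noncomputable def BB {J : Type} [Fintype J] (c' : J → L) : L[X] := ∏ j, (X - C (c' j))

theorem BB_dvd {J : Type} [Fintype J] {c' : J → L} (hc : Function.Injective c') {g : L[X]}
    (hg : ∀ j, g.eval (c' j) = 0) : BB c' ∣ g := by
  apply prod_dvd
  · intro i _ j _ h
    exact mem_nonZeroDivisors_of_ne_zero (sub_ne_zero.mpr (fun e => h (hc e)))
  · intro j _
    exact hg j

theorem eval_BB {J : Type} [Fintype J] (c' : J → L) (j : J) : (BB c').eval (c' j) = 0 := by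
  unfold BB
  rw [eval_prod]
  exact Finset.prod_eq_zero (Finset.mem_univ j) (by simp)

theorem mk_nzd {J : Type} [Fintype J] {c' : J → L} (hc : Function.Injective c') {g : L[X]}
    (hg : ∀ j, g.eval (c' j) ≠ 0) :
    Ideal.Quotient.mk (Ideal.span {BB c'}) g ∈ nonZeroDivisors (L[X] ⧸ Ideal.span {BB c'}) := by
  rw [mem_nonZeroDivisors_iff_right]
  intro x hx
  obtain ⟨x, rfl⟩ := Ideal.Quotient.mk_surjective x
  rw [← map_mul, Ideal.Quotient.eq_zero_iff_mem, Ideal.mem_span_singleton] at hx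
  rw [Ideal.Quotient.eq_zero_iff_mem, Ideal.mem_span_singleton]
  apply BB_dvd hc
  intro j
  obtain ⟨y, hy⟩ := hx
  have h1 := congrArg (fun p => p.eval (c' j)) hy
  simp only [eval_mul, eval_BB, zero_mul] at h1
  exact (mul_eq_zero.mp h1).resolve_right (hg j)

theorem mk_eq_zero {J : Type} [Fintype J] {c' : J → L} (hc : Function.Injective c') {g : L[X]}
    (hg : ∀ j, g.eval (c' j) = 0) : Ideal.Quotient.mk (Ideal.span {BB c'}) g = 0 := by
  rw [Ideal.Quotient.eq_zero_iff_mem, Ideal.mem_span_singleton]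
  exact BB_dvd hc hg

/-- Step A. Variables: `b` (inner), `u`, `v` (outer). -/
theorem stepA {J ι κ : Type} [Fintype J] [Fintype ι] [Fintype κ] (c' : J → L)
    (hc : Function.Injective c') (ρ : ι → L[X]) (τ : κ → L[X])
    (hρ : ∀ i j, i ≠ j → ∀ k, (ρ i - ρ j).eval (c' k) ≠ 0)
    (hτ : ∀ i j, i ≠ j → ∀ k, (τ i - τ j).eval (c' k) ≠ 0)
    (hρτ : ∀ i j k, ∀ l, (ρ i + τ k - ρ j).eval (c' l) ≠ 0)
    (hsw : Bivariate.swap (om τ) = om τ) (f : L[X][X][X])
    (hf1 : ∀ i j, i ≠ j → ∀ k, (f.evalEval (ρ i) (ρ j)).eval (c' k) = 0)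
    (hf2 : ∀ i k, ∀ l, (f.evalEval (ρ i) (ρ i + τ k)).eval (c' l) = 0)
    (hf3 : ∀ i k, ∀ l, (f.evalEval (ρ i + τ k) (ρ i)).eval (c' l) = 0) (d : L[X][X][X])
    (hd : (C X - X) * d = Pu ρ - Pv ρ) :
    ∃ x y z h : L[X][X][X],
      f = om τ * (x * d + y * Pv ρ) + Pu ρ * Pv ρ * z + C (C (BB c')) * h :=
  stepA_aux (Ideal.Quotient.mk (Ideal.span {BB c'})) Ideal.Quotient.mk_surjective (BB c')
    (fun g hg => by
      rw [← Ideal.mem_span_singleton, ← Ideal.Quotient.eq_zero_iff_mem]
      exact hg) ρ τ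
    (fun i j h => mk_nzd hc (hρ i j h))
    (fun i j h => mk_nzd hc (hτ i j h))
    (fun i j k => mk_nzd hc (hρτ i j k)) hsw f
    (fun i j h => mk_eq_zero hc (hf1 i j h))
    (fun i k => mk_eq_zero hc (hf2 i k))
    (fun i k => mk_eq_zero hc (hf3 i k)) d hd

/-- Step B1. Variables: `u` (inner), `v`, `b` (outer). -/
theorem stepB1 {ι κ P : Type} [Fintype ι] [Fintype κ] [Fintype P] (c : ι → L) (τ : κ → L)
    (n : P → L) (hc : ∀ i j, i ≠ j → c i - c j ≠ 0) (hτ : ∀ i j, i ≠ j → τ i - τ j ≠ 0)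
    (hcτ : ∀ i j k, c i + τ k - c j ≠ 0) (hn : ∀ i j, i ≠ j → n i - n j ≠ 0)
    (hcn : ∀ i j, i ≠ j → ∀ e e', (c i - n e) - (c j - n e') ≠ 0)
    (hτn : ∀ k, ∀ e e', τ k + n e - n e' ≠ 0)
    (hsw : Bivariate.swap (om τ) = om τ) (f : L[X][X][X])
    (hf1 : ∀ i j, i ≠ j → ∀ e,
      (f.map (evalEvalRingHom (c i) (c j))).eval (c i - n e) = 0 ∧
      (f.map (evalEvalRingHom (c i) (c j))).eval (c j - n e) = 0)
    (hf2 : ∀ i k, ∀ e,
      (f.map (evalEvalRingHom (c i) (c i + τ k))).eval (c i - n e) = 0 ∧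
      (f.map (evalEvalRingHom (c i) (c i + τ k))).eval (c i + τ k - n e) = 0)
    (hf3 : ∀ i k, ∀ e,
      (f.map (evalEvalRingHom (c i + τ k) (c i))).eval (c i - n e) = 0 ∧
      (f.map (evalEvalRingHom (c i + τ k) (c i))).eval (c i + τ k - n e) = 0) (d : L[X][X])
    (hd : (C X - X) * d = Pu c - Pv c) :
    ∃ α x y z : L[X][X][X],
      f = (∏ e, (X - C (C X - C (C (n e))))) * (∏ e, (X - C (X - C (C (n e))))) * α
        + C (om τ) * (x * C d + y * C (Pv c)) + C (Pu c) * C (Pv c) * z := by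
  classical
  let M : L[X][X][X] := (∏ e, (X - C (C X - C (C (n e))))) * (∏ e, (X - C (X - C (C (n e)))))
  have hM : M.Monic :=
    (monic_prod_of_monic _ _ fun _ _ => monic_X_sub_C _).mul
      (monic_prod_of_monic _ _ fun _ _ => monic_X_sub_C _)
  have key : ∀ x y : L, (∀ e e', (x - n e) - (y - n e') ≠ 0) →
      (∀ e, (f.map (evalEvalRingHom x y)).eval (x - n e) = 0 ∧
        (f.map (evalEvalRingHom x y)).eval (y - n e) = 0) →
      (f %ₘ M).map (evalEvalRingHom x y) = 0 := by
    intro x y hxy hfxy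
    apply rem_van (evalEvalRingHom x y)
      (fun s : P ⊕ P => Sum.elim (fun e => x - n e) (fun e => y - n e) s)
    · rintro (e | e) (e' | e') h
      · apply mem_nonZeroDivisors_of_ne_zero
        simp only [Sum.elim_inl]
        intro h0
        apply hn e' e (fun h' => h (by rw [h']))
        linear_combination h0
      · exact mem_nonZeroDivisors_of_ne_zero (hxy e e')
      · apply mem_nonZeroDivisors_of_ne_zero
        simp only [Sum.elim_inl, Sum.elim_inr]
        intro h0
        apply hxy e' e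
        linear_combination -h0
      · apply mem_nonZeroDivisors_of_ne_zero
        simp only [Sum.elim_inr]
        intro h0
        apply hn e' e (fun h' => h (by rw [h']))
        linear_combination h0
    · exact hM
    · rw [Fintype.prod_sum_type]
      simp only [Sum.elim_inl, Sum.elim_inr, M]
      rw [Polynomial.map_mul, Polynomial.map_prod, Polynomial.map_prod]
      congr 1
      · refine Finset.prod_congr rfl fun e _ => ?_
        simp
      · refine Finset.prod_congr rfl fun e _ => ?_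
        simp
    · rintro (e | e)
      · exact (hfxy e).1
      · exact (hfxy e).2
  obtain ⟨x, y, z, e⟩ := mem_three (g1 := om τ * d) (g2 := om τ * Pv c) (g3 := Pu c * Pv c)
    (f %ₘ M) (fun i => by
      have hcoef : ∀ x y : L, (f %ₘ M).map (evalEvalRingHom x y) = 0 →
          ((f %ₘ M).coeff i).evalEval x y = 0 := by
        intro x y h
        have h2 := congrArg (fun p => p.coeff i) h
        simpa using h2
      obtain ⟨x, y, z, e⟩ := T2 c τ
        (fun i j h => mem_nonZeroDivisors_of_ne_zero (hc i j h))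
        (fun i j h => mem_nonZeroDivisors_of_ne_zero (hτ i j h))
        (fun i j k => mem_nonZeroDivisors_of_ne_zero (hcτ i j k)) hsw ((f %ₘ M).coeff i)
        (fun i j h => hcoef _ _ (key _ _ (hcn i j h) (hf1 i j h)))
        (fun i k => hcoef _ _ (key _ _ (fun e e' h0 => by
          apply hτn k e e'
          linear_combination -h0) (hf2 i k)))
        (fun i k => hcoef _ _ (key _ _ (fun e e' h0 => by
          apply hτn k e' e
          linear_combination h0) (fun e => ⟨(hf3 i k e).2, (hf3 i k e).1⟩))) d hd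
      exact ⟨x, y, z, by rw [e]; ring⟩)
  refine ⟨f /ₘ M, x, y, z, ?_⟩
  calc f = f %ₘ M + M * (f /ₘ M) := (modByMonic_add_div f M).symm
    _ = _ := by
      rw [e]
      simp only [C_mul]
      ring

/-- Step B3. Variables: `u'` (inner), `v'`, `b` (outer), with `u = u' + b`, `v = v' + b`. -/
theorem stepB3 {ι P : Type} [Fintype ι] [Fintype P] (c : ι → L)
    (n : P → L) (hc : ∀ i j, i ≠ j → c i - c j ≠ 0) (hn : ∀ i j, i ≠ j → n i - n j ≠ 0)
    (f : L[X][X][X])
    (hf : ∀ e e', e ≠ e' → ∀ i,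
      (f.map (evalEvalRingHom (n e') (n e))).eval (c i - n e) = 0) (d : L[X][X])
    (hd : (C X - X) * d = Pu n - Pv n) :
    ∃ α x y : L[X][X][X],
      f = (∏ i, (X - C (C (C (c i)) - X))) * α + x * C d + y * C (Pv n) := by
  classical
  let M : L[X][X][X] := (∏ i, (X - C (C (C (c i)) - X)))
  have hM : M.Monic := monic_prod_of_monic _ _ fun _ _ => monic_X_sub_C _
  have key : ∀ e e', e ≠ e' → (f %ₘ M).map (evalEvalRingHom (n e') (n e)) = 0 := by
    intro e e' hee
    apply rem_van (evalEvalRingHom (n e') (n e)) (fun i => c i - n e)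
    · intro i j h
      apply mem_nonZeroDivisors_of_ne_zero
      rw [sub_sub_sub_cancel_right]
      exact hc i j h
    · exact hM
    · simp only [M]
      rw [Polynomial.map_prod]
      refine Finset.prod_congr rfl fun e _ => ?_
      simp
    · intro i
      exact hf e e' hee i
  obtain ⟨x, y, e⟩ := mem_two (g1 := d) (g2 := Pv n)
    (f %ₘ M) (fun i => by
      obtain ⟨x, y, e⟩ := gr n
        (fun i j h => mem_nonZeroDivisors_of_ne_zero (hn i j h)) ((f %ₘ M).coeff i)
        (fun i' j' h => by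
          have h2 := congrArg (fun p => p.coeff i) (key j' i' (fun h' => h h'.symm))
          simpa using h2) d hd
      exact ⟨x, y, e⟩)
  refine ⟨f /ₘ M, x, y, ?_⟩
  calc f = f %ₘ M + M * (f /ₘ M) := (modByMonic_add_div f M).symm
    _ = _ := by
      rw [e]
      ring

end domain

end Vale.Agent.P291.H808.Alg
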