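import Vale.Agent.P291.H808.Alg2

/-!
# Transfer to multivariate polynomials, and symmetrization
-/

set_option linter.unusedSectionVars false

namespace Vale.Agent.P291.H808.Alg

open Polynomial

variable {L : Type} [CommRing L] [IsDomain L] {σ : Type} [DecidableEq σ]

/-- `u ↦ x`, `v ↦ y`, everything else to `z`. -/
def tri {T : Type} (u v : σ) (x y z : T) : σ → T :=
  fun c => if c = u then x else if c = v then y else z

/-- Evaluation of a polynomial in three variables. -/
noncomputable def at3 (u v : σ) (x y z : L) : MvPolynomial σ L →ₐ[L] L :=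
  MvPolynomial.aeval (tri u v x y z)

/-- Iterated polynomials mapped to multivariate polynomials. -/
noncomputable def fromN (x y z : MvPolynomial σ L) : L[X][X][X] →+* MvPolynomial σ L :=
  eval₂RingHom (eval₂RingHom (eval₂RingHom MvPolynomial.C x) y) z

theorem fromN_CCC (x y z : MvPolynomial σ L) (r : L) :
    fromN x y z (C (C (C r))) = MvPolynomial.C r := by simp [fromN]

theorem fromN_CCX (x y z : MvPolynomial σ L) : fromN x y z (C (C X)) = x := by simp [fromN]

theorem fromN_CX (x y z : MvPolynomial σ L) : fromN x y z (C X) = y := by simp [fromN]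

theorem fromN_X (x y z : MvPolynomial σ L) : fromN x y z X = z := by simp [fromN]

theorem fromN_sub (x y z : MvPolynomial σ L) (p q : L[X][X][X]) :
    fromN x y z (p - q) = fromN x y z p - fromN x y z q :=
  (fromN x y z).map_sub p q

theorem fromN_neg (x y z : MvPolynomial σ L) (p : L[X][X][X]) :
    fromN x y z (-p) = -fromN x y z p :=
  (fromN x y z).map_neg p

theorem fromN_toN {u v b : σ} (hvu : v ≠ u) (hbu : b ≠ u) (hbv : b ≠ v)
    (hall : ∀ c : σ, c = u ∨ c = v ∨ c = b) (x y z : MvPolynomial σ L) (x' y' z' : L[X][X][X])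
    (hx : fromN x y z x' = MvPolynomial.X u) (hy : fromN x y z y' = MvPolynomial.X v)
    (hz : fromN x y z z' = MvPolynomial.X b) (f : MvPolynomial σ L) :
    fromN x y z (MvPolynomial.aeval (tri u v x' y' z') f) = f := by
  have h : (fromN x y z).comp
      ((MvPolynomial.aeval (tri u v x' y' z') : MvPolynomial σ L →ₐ[L] L[X][X][X]) :
        MvPolynomial σ L →+* L[X][X][X]) = RingHom.id _ := by
    apply MvPolynomial.ringHom_ext
    · intro r
      simp only [RingHom.comp_apply, RingHom.coe_coe, MvPolynomial.aeval_C, RingHom.id_apply]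
      exact fromN_CCC x y z r
    · intro i
      simp only [RingHom.comp_apply, RingHom.coe_coe, MvPolynomial.aeval_X, RingHom.id_apply]
      rcases hall i with rfl | rfl | rfl
      · simp [tri, hx]
      · simp [tri, hvu, hy]
      · simp [tri, hbu, hbv, hz]
  exact RingHom.congr_fun h f

section points

variable {u v : σ} (f : MvPolynomial σ L)

theorem at3_of_hom {T : Type} [CommRing T] [Algebra L T] (x' y' z' : T) (φ : T →+* L)
    (hφ : ∀ r : L, φ (algebraMap L T r) = r) :
    φ (MvPolynomial.aeval (tri u v x' y' z') f) = at3 u v (φ x') (φ y') (φ z') f := by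
  have h : φ.comp ((MvPolynomial.aeval (tri u v x' y' z') : MvPolynomial σ L →ₐ[L] T) :
        MvPolynomial σ L →+* T) = (at3 u v (φ x') (φ y') (φ z') : MvPolynomial σ L →+* L) := by
    apply MvPolynomial.ringHom_ext
    · intro r
      simp only [RingHom.comp_apply, RingHom.coe_coe, MvPolynomial.aeval_C, at3]
      exact hφ r
    · intro i
      simp only [RingHom.comp_apply, RingHom.coe_coe, MvPolynomial.aeval_X, at3, tri]
      split_ifs <;> rfl
  exact RingHom.congr_fun h f

theorem evalA (r s : L[X]) (z : L) :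
    ((MvPolynomial.aeval (tri u v (C X) X (C (C X))) f : L[X][X][X]).evalEval r s).eval z
      = at3 u v (r.eval z) (s.eval z) z f := by
  have := at3_of_hom (T := L[X][X][X]) (u := u) (v := v) f (C X) X (C (C X))
    ((evalRingHom z).comp (evalEvalRingHom r s)) (fun a => by
      change eval z (evalEval r s (C (C (C a)))) = a
      simp)
  have e1 : ((evalRingHom z).comp (evalEvalRingHom r s)) (C X) = eval z r := by simp
  have e2 : ((evalRingHom z).comp (evalEvalRingHom r s)) X = eval z s := by simp
  have e3 : ((evalRingHom z).comp (evalEvalRingHom r s)) (C (C X)) = z := by simp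
  rw [e1, e2, e3] at this
  exact this

theorem evalB (x y z : L) :
    ((MvPolynomial.aeval (tri u v (C (C X)) (C X) X) f : L[X][X][X]).map
      (evalEvalRingHom x y)).eval z = at3 u v x y z f := by
  have := at3_of_hom (T := L[X][X][X]) (u := u) (v := v) f (C (C X)) (C X) X
    ((evalRingHom z).comp (mapRingHom (evalEvalRingHom x y))) (fun a => by
      change eval z (map (evalEvalRingHom x y) (C (C (C a)))) = a
      simp)
  have e1 : ((evalRingHom z).comp (mapRingHom (evalEvalRingHom x y))) (C (C X)) = x := by simp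
  have e2 : ((evalRingHom z).comp (mapRingHom (evalEvalRingHom x y))) (C X) = y := by simp
  have e3 : ((evalRingHom z).comp (mapRingHom (evalEvalRingHom x y))) X = z := by simp
  rw [e1, e2, e3] at this
  exact this

theorem evalS (x y z : L) :
    ((MvPolynomial.aeval (tri u v (C (C X) + X) (C X + X) X) f : L[X][X][X]).map
      (evalEvalRingHom x y)).eval z = at3 u v (x + z) (y + z) z f := by
  have := at3_of_hom (T := L[X][X][X]) (u := u) (v := v) f (C (C X) + X) (C X + X) X
    ((evalRingHom z).comp (mapRingHom (evalEvalRingHom x y))) (fun a => by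
      change eval z (map (evalEvalRingHom x y) (C (C (C a)))) = a
      simp)
  have e1 : ((evalRingHom z).comp (mapRingHom (evalEvalRingHom x y))) (C (C X) + X) = x + z := by
    simp
  have e2 : ((evalRingHom z).comp (mapRingHom (evalEvalRingHom x y))) (C X + X) = y + z := by
    simp
  have e3 : ((evalRingHom z).comp (mapRingHom (evalEvalRingHom x y))) X = z := by simp
  rw [e1, e2, e3] at this
  exact this

end points

/-- The values `t k` and `- t k`. -/
def pm {K : Type} (t : K → L) : K ⊕ K → L := Sum.elim t (fun k => -t k)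

theorem swap_om_pm {A : Type} [CommRing A] {K : Type} [Fintype K] (t : K → A) :
    Bivariate.swap (om (Sum.elim t (fun k => -t k))) = om (Sum.elim t (fun k => -t k)) := by
  unfold om
  rw [Fintype.prod_sum_type]
  simp only [Sum.elim_inl, Sum.elim_inr]
  rw [← Finset.prod_mul_distrib, map_prod]
  refine Finset.prod_congr rfl fun k _ => ?_
  simp only [map_mul, map_sub, Bivariate.swap_Y, Bivariate.swap_C, Polynomial.map_add, map_X,
    Polynomial.map_C, map_neg, Polynomial.map_neg]
  simp only [C_add, C_neg]
  ring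

section main

variable (u v b : σ)

/-- `∏ (z - c i)` -/
noncomputable def WW {ι : Type} [Fintype ι] (c : ι → L) (z : MvPolynomial σ L) :
    MvPolynomial σ L := ∏ i, (z - MvPolynomial.C (c i))

/-- `∏ (z - (b + n e))` -/
noncomputable def PP {P : Type} [Fintype P] (n : P → L) (z : MvPolynomial σ L) :
    MvPolynomial σ L := ∏ e, (z - (MvPolynomial.X b + MvPolynomial.C (n e)))

/-- `∏ (v - (u + t k)) (v - (u - t k))` -/
noncomputable def OO {K : Type} [Fintype K] (t : K → L) : MvPolynomial σ L :=
  ∏ k, (MvPolynomial.X v - (MvPolynomial.X u + MvPolynomial.C (t k))) *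
    (MvPolynomial.X v - (MvPolynomial.X u - MvPolynomial.C (t k)))

/-- `∏ (b - c' j)` -/
noncomputable def BM {J : Type} [Fintype J] (c' : J → L) : MvPolynomial σ L :=
  ∏ j, (MvPolynomial.X b - MvPolynomial.C (c' j))

/-- The transposition of `u` and `v`. -/
noncomputable def sw : MvPolynomial σ L →ₐ[L] MvPolynomial σ L :=
  MvPolynomial.rename (Equiv.swap u v)

theorem sw_sw (f : MvPolynomial σ L) : sw u v (sw u v f) = f := by
  unfold sw
  rw [MvPolynomial.rename_rename]
  have : (⇑(Equiv.swap u v) ∘ ⇑(Equiv.swap u v)) = id := by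
    funext c
    simp
  rw [this, MvPolynomial.rename_id_apply]

theorem sw_u : sw u v (MvPolynomial.X u : MvPolynomial σ L) = MvPolynomial.X v := by
  simp [sw]

theorem sw_v : sw u v (MvPolynomial.X v : MvPolynomial σ L) = MvPolynomial.X u := by
  simp [sw]

theorem sw_C (r : L) : sw u v (MvPolynomial.C r : MvPolynomial σ L) = MvPolynomial.C r := by
  simp [sw]

variable {u v b}

theorem sw_b (hbu : b ≠ u) (hbv : b ≠ v) :
    sw u v (MvPolynomial.X b : MvPolynomial σ L) = MvPolynomial.X b := by
  simp [sw, Equiv.swap_apply_of_ne_of_ne hbu hbv]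

theorem sw_WW {ι : Type} [Fintype ι] (c : ι → L) (z : MvPolynomial σ L) :
    sw u v (WW c z) = WW c (sw u v z) := by
  unfold WW
  rw [map_prod]
  refine Finset.prod_congr rfl fun i _ => ?_
  rw [map_sub, sw_C]

theorem sw_PP (hbu : b ≠ u) (hbv : b ≠ v) {ι : Type} [Fintype ι] (c : ι → L)
    (z : MvPolynomial σ L) :
    sw u v (PP b c z) = PP b c (sw u v z) := by
  unfold PP
  rw [map_prod]
  refine Finset.prod_congr rfl fun i _ => ?_
  rw [map_sub, map_add, sw_C, sw_b hbu hbv]

theorem sw_OO {K : Type} [Fintype K] (t : K → L) :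
    sw u v (OO u v t : MvPolynomial σ L) = OO u v t := by
  unfold OO
  rw [map_prod]
  refine Finset.prod_congr rfl fun i _ => ?_
  simp only [map_mul, map_sub, map_add, sw_C, sw_u, sw_v]
  ring

theorem sw_BM (hbu : b ≠ u) (hbv : b ≠ v) {J : Type} [Fintype J] (c' : J → L) :
    sw u v (BM b c' : MvPolynomial σ L) = BM b c' := by
  unfold BM
  rw [map_prod]
  refine Finset.prod_congr rfl fun i _ => ?_
  rw [map_sub, sw_C, sw_b hbu hbv]

theorem at3_sw (hvu : v ≠ u) (x y z : L) (f : MvPolynomial σ L) :
    at3 u v x y z (sw u v f) = at3 u v y x z f := by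
  unfold at3 sw
  rw [MvPolynomial.aeval_rename]
  congr 2
  funext c
  simp only [Function.comp_apply, tri]
  by_cases h1 : c = u
  · subst h1
    simp [hvu]
  · by_cases h2 : c = v
    · subst h2
      simp [hvu]
    · rw [Equiv.swap_apply_of_ne_of_ne h1 h2, if_neg h1, if_neg h2, if_neg h1, if_neg h2]

theorem at3_u (x y z : L) : at3 u v x y z (MvPolynomial.X u) = x := by
  simp [at3, tri]

theorem at3_v (hvu : v ≠ u) (x y z : L) : at3 u v x y z (MvPolynomial.X v) = y := by
  simp [at3, tri, hvu]

theorem at3_b (hbu : b ≠ u) (hbv : b ≠ v) (x y z : L) :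
    at3 u v x y z (MvPolynomial.X b) = z := by
  simp [at3, tri, hbu, hbv]

theorem at3_C (x y z r : L) : at3 u v x y z (MvPolynomial.C r) = r := by
  simp [at3]

/-- Divided differences exist. -/
theorem exists_dd (f : MvPolynomial σ L) :
    ∃ d, (MvPolynomial.X u - MvPolynomial.X v) * d = f - sw u v f := by
  have h : (Ideal.Quotient.mk (Ideal.span {(MvPolynomial.X u - MvPolynomial.X v :
      MvPolynomial σ L)})).comp ((sw u v : MvPolynomial σ L →ₐ[L] MvPolynomial σ L) :
        MvPolynomial σ L →+* MvPolynomial σ L)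
      = Ideal.Quotient.mk (Ideal.span {(MvPolynomial.X u - MvPolynomial.X v :
      MvPolynomial σ L)}) := by
    have huv : Ideal.Quotient.mk (Ideal.span {(MvPolynomial.X u - MvPolynomial.X v :
      MvPolynomial σ L)}) (MvPolynomial.X u) = Ideal.Quotient.mk (Ideal.span
        {(MvPolynomial.X u - MvPolynomial.X v : MvPolynomial σ L)}) (MvPolynomial.X v) := by
      rw [Ideal.Quotient.eq]
      exact Ideal.mem_span_singleton_self _
    apply MvPolynomial.ringHom_ext
    · intro r
      simp only [RingHom.comp_apply, RingHom.coe_coe]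
      rw [sw_C]
    · intro c
      simp only [RingHom.comp_apply, RingHom.coe_coe]
      by_cases h1 : c = u
      · rw [h1, sw_u, huv]
      · by_cases h2 : c = v
        · rw [h2, sw_v, huv]
        · rw [sw_b h1 h2]
  have h2 := RingHom.congr_fun h f
  simp only [RingHom.comp_apply, RingHom.coe_coe] at h2
  have h3 := (Ideal.Quotient.eq.mp h2.symm)
  obtain ⟨d, hd⟩ := Ideal.mem_span_singleton.mp h3
  exact ⟨d, hd.symm⟩

/-- The divided difference. -/
noncomputable def dd (u v : σ) (f : MvPolynomial σ L) : MvPolynomial σ L :=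
  Classical.choose (exists_dd (u := u) (v := v) f)

theorem dd_spec (f : MvPolynomial σ L) :
    (MvPolynomial.X u - MvPolynomial.X v) * dd u v f = f - sw u v f :=
  Classical.choose_spec (exists_dd (u := u) (v := v) f)

theorem uv_ne_zero (hvu : v ≠ u) :
    (MvPolynomial.X u - MvPolynomial.X v : MvPolynomial σ L) ≠ 0 := by
  rw [sub_ne_zero]
  intro h
  exact hvu (MvPolynomial.X_injective h).symm

theorem dd_unique (hvu : v ≠ u) {f d : MvPolynomial σ L}
    (h : (MvPolynomial.X u - MvPolynomial.X v) * d = f - sw u v f) : dd u v f = d := by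
  apply mul_left_cancel₀ (uv_ne_zero (L := L) hvu)
  rw [dd_spec, h]

theorem dd_add (hvu : v ≠ u) (f g : MvPolynomial σ L) :
    dd u v (f + g) = dd u v f + dd u v g := by
  apply dd_unique hvu
  rw [mul_add, dd_spec, dd_spec, map_add]
  ring

theorem dd_mul_sym (hvu : v ≠ u) {s : MvPolynomial σ L} (hs : sw u v s = s)
    (f : MvPolynomial σ L) : dd u v (s * f) = s * dd u v f := by
  apply dd_unique hvu
  rw [mul_left_comm, dd_spec, map_mul, hs]
  ring

theorem sw_dd (hvu : v ≠ u) (f : MvPolynomial σ L) : sw u v (dd u v f) = dd u v f := by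
  symm
  apply dd_unique hvu
  have h1 := congrArg (fun p => sw u v p) (dd_spec (u := u) (v := v) f)
  simp only [map_mul, map_sub, sw_u, sw_v, sw_sw] at h1
  linear_combination -h1

theorem symm_form (hvu : v ≠ u) {w PU PV d : MvPolynomial σ L} (hw : sw u v w = w)
    (hPU : sw u v PU = PV) (hPV : sw u v PV = PU)
    (hd : (MvPolynomial.X u - MvPolynomial.X v) * d = PU - PV) (x y : MvPolynomial σ L) :
    w * (x * d + y * PV) + sw u v (w * (x * d + y * PV))
      = w * dd u v (((x + sw u v x) + (MvPolynomial.X u - MvPolynomial.X v) * sw u v y) * PU) := by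
  have hds : sw u v d = d := by
    have : dd u v PU = d := dd_unique hvu (by rw [hPU, hd])
    rw [← this, sw_dd hvu]
  have h1 : dd u v (((x + sw u v x) + (MvPolynomial.X u - MvPolynomial.X v) * sw u v y) * PU)
      = (x + sw u v x) * d + (y * PV + sw u v y * PU) := by
    apply dd_unique hvu
    simp only [map_mul, map_sub, map_add, sw_u, sw_v, sw_sw, hPU]
    linear_combination (x + sw u v x) * hd
  rw [h1]
  simp only [map_mul, map_add, hw, hds, hPV]
  ring

end main

end Vale.Agent.P291.H808.Alg
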