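import Vale.Agent.P291.H808.Alg3

/-!
# The algebraic theorem for dimension vector `(2, 1)`
-/

set_option linter.unusedSectionVars false
set_option linter.unusedSimpArgs false

namespace Vale.Agent.P291.H808.Alg

open Polynomial

variable {L : Type} [CommRing L] [IsDomain L] {σ : Type} [DecidableEq σ]

section steps

variable {u v b : σ} (hvu : v ≠ u) (hbu : b ≠ u) (hbv : b ≠ v)
  (hall : ∀ c : σ, c = u ∨ c = v ∨ c = b)
  {Lf P J K : Type} [Fintype Lf] [Fintype P] [Fintype J] [Fintype K]
  (c : Lf → L) (n : P → L) (c' : J → L) (t : K → L)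

/-- The roots of the combined polynomial, as polynomials in `b`. -/
noncomputable def rho (c : Lf → L) (n : P → L) : Lf ⊕ P → L[X] :=
  Sum.elim (fun i => C (c i)) (fun e => X + C (n e))

/-- The loop masses with both signs, as polynomials in `b`. -/
noncomputable def tauN (t : K → L) : K ⊕ K → L[X] :=
  Sum.elim (fun k => C (t k)) (fun k => -C (t k))

theorem fromN_Pu_rho (x y z : MvPolynomial σ L) (hx : x = MvPolynomial.X b) :
    fromN x y z (Pu (rho c n)) = WW c y * PP b n y := by
  subst hx
  unfold Pu rho WW PP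
  rw [Fintype.prod_sum_type]
  simp only [Sum.elim_inl, Sum.elim_inr, map_mul, map_prod, map_sub, map_add, fromN_CCC, fromN_sub,
    fromN_CCX, fromN_CX]

theorem fromN_Pv_rho (x y z : MvPolynomial σ L) (hx : x = MvPolynomial.X b) :
    fromN x y z (Pv (rho c n)) = WW c z * PP b n z := by
  subst hx
  unfold Pv rho WW PP
  rw [Fintype.prod_sum_type]
  simp only [Sum.elim_inl, Sum.elim_inr, map_mul, map_prod, map_sub, map_add, fromN_CCC, fromN_sub,
    fromN_CCX, fromN_X]

theorem fromN_om_tauN (x : MvPolynomial σ L) :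
    fromN x (MvPolynomial.X u) (MvPolynomial.X v) (om (tauN t)) = OO u v t := by
  unfold om tauN OO
  rw [Fintype.prod_sum_type, ← Finset.prod_mul_distrib]
  simp only [Sum.elim_inl, Sum.elim_inr, map_mul, map_prod, map_sub, map_add, fromN_CCC, fromN_sub, fromN_neg,
    fromN_CX, fromN_X, map_neg]
  refine Finset.prod_congr rfl fun k _ => ?_
  ring

theorem fromN_BB (y z : MvPolynomial σ L) :
    fromN (MvPolynomial.X b) y z (C (C (BB c'))) = BM b c' := by
  unfold BB BM
  simp only [map_prod, map_sub, fromN_CCC, fromN_CCX, fromN_sub]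

include hvu hbu hbv hall in
theorem SA (h1 : ∀ i j, i ≠ j → c i ≠ c j) (h2 : ∀ i j, i ≠ j → n i ≠ n j)
    (h3 : Function.Injective c') (h4 : ∀ i j, i ≠ j → pm t i ≠ pm t j)
    (h6 : ∀ i j k, c i + pm t k - c j ≠ 0) (h7 : ∀ i j k, n i + pm t k - n j ≠ 0)
    (h9 : ∀ i j e, c i - c' j - n e ≠ 0) (h10 : ∀ i j e k, c i + pm t k - n e - c' j ≠ 0)
    (h10' : ∀ i j e k, c i - pm t k - n e - c' j ≠ 0)
    (f : MvPolynomial σ L)
    (v1 : ∀ i j k, i ≠ j → at3 u v (c i) (c j) (c' k) f = 0)
    (v2 : ∀ i e k, at3 u v (c i) (c' k + n e) (c' k) f = 0)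
    (v2' : ∀ i e k, at3 u v (c' k + n e) (c i) (c' k) f = 0)
    (v3 : ∀ i j k, i ≠ j → at3 u v (c' k + n i) (c' k + n j) (c' k) f = 0)
    (v4 : ∀ i k j, at3 u v (c i) (c i + pm t k) (c' j) f = 0)
    (v4' : ∀ i k j, at3 u v (c i + pm t k) (c i) (c' j) f = 0)
    (v5 : ∀ i k j, at3 u v (c' j + n i) (c' j + n i + pm t k) (c' j) f = 0)
    (v5' : ∀ i k j, at3 u v (c' j + n i + pm t k) (c' j + n i) (c' j) f = 0)
    (d : MvPolynomial σ L)
    (hd : (MvPolynomial.X u - MvPolynomial.X v) * d
      = WW c (MvPolynomial.X u) * PP b n (MvPolynomial.X u)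
        - WW c (MvPolynomial.X v) * PP b n (MvPolynomial.X v)) :
    ∃ x y z h : MvPolynomial σ L, f = OO u v t * (x * d + y * (WW c (MvPolynomial.X v) *
      PP b n (MvPolynomial.X v))) + (WW c (MvPolynomial.X u) * PP b n (MvPolynomial.X u)) *
      (WW c (MvPolynomial.X v) * PP b n (MvPolynomial.X v)) * z + BM b c' * h := by
  obtain ⟨dN, hdN⟩ := exists_d (rho c n)
  have e0 : ∀ g : L[X], ∀ z : L, g.eval z = g.eval z := fun _ _ => rfl
  obtain ⟨x, y, z, h, e⟩ := stepA c' h3 (rho c n) (tauN t)
    (by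
      rintro (i | i) (j | j) hij k
      · simp only [rho, Sum.elim_inl, eval_sub, eval_C]
        exact sub_ne_zero.mpr (h1 i j (fun h => hij (by rw [h])))
      · simp only [rho, Sum.elim_inl, Sum.elim_inr, eval_sub, eval_C, eval_add, eval_X]
        intro h0
        apply h9 i k j
        linear_combination h0
      · simp only [rho, Sum.elim_inl, Sum.elim_inr, eval_sub, eval_C, eval_add, eval_X]
        intro h0
        apply h9 j k i
        linear_combination -h0
      · simp only [rho, Sum.elim_inr, eval_sub, eval_C, eval_add, eval_X]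
        intro h0
        apply h2 i j (fun h => hij (by rw [h]))
        linear_combination h0)
    (by
      intro i j hij k
      have h := h4 i j hij
      rcases i with i | i <;> rcases j with j | j <;>
        simp only [tauN, Sum.elim_inl, Sum.elim_inr, eval_sub, eval_C, eval_neg, pm] at h ⊢ <;>
        exact sub_ne_zero.mpr h)
    (by
      intro i j k l
      have ht : (tauN t k).eval (c' l) = pm t k := by
        rcases k with k | k <;> simp [tauN, pm]
      rw [eval_sub, eval_add, ht]
      rcases i with i | i <;> rcases j with j | j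
      · simp only [rho, Sum.elim_inl, eval_C]
        exact h6 i j k
      · simp only [rho, Sum.elim_inl, Sum.elim_inr, eval_C, eval_add, eval_X]
        intro h0
        apply h10 i l j k
        linear_combination h0
      · simp only [rho, Sum.elim_inl, Sum.elim_inr, eval_C, eval_add, eval_X]
        intro h0
        apply h10' j l i k
        linear_combination -h0
      · simp only [rho, Sum.elim_inr, eval_C, eval_add, eval_X]
        intro h0
        apply h7 i j k
        linear_combination h0)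
    (swap_om_pm (fun k => C (t k)))
    (MvPolynomial.aeval (tri u v (C X) X (C (C X))) f)
    (by
      intro i j hij k
      rw [evalA]
      rcases i with i | i <;> rcases j with j | j <;>
        simp only [rho, Sum.elim_inl, Sum.elim_inr, eval_C, eval_add, eval_X]
      · exact v1 i j k (fun h => hij (by rw [h]))
      · exact v2 i j k
      · exact v2' j i k
      · exact v3 i j k (fun h => hij (by rw [h])))
    (by
      intro i k l
      have ht : (tauN t k).eval (c' l) = pm t k := by
        rcases k with k | k <;> simp [tauN, pm]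
      rw [evalA, eval_add, ht]
      rcases i with i | i <;>
        simp only [rho, Sum.elim_inl, Sum.elim_inr, eval_C, eval_add, eval_X]
      · exact v4 i k l
      · exact v5 i k l)
    (by
      intro i k l
      have ht : (tauN t k).eval (c' l) = pm t k := by
        rcases k with k | k <;> simp [tauN, pm]
      rw [evalA, eval_add, ht]
      rcases i with i | i <;>
        simp only [rho, Sum.elim_inl, Sum.elim_inr, eval_C, eval_add, eval_X]
      · exact v4' i k l
      · exact v5' i k l) dN hdN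
  let φ := fromN (MvPolynomial.X b : MvPolynomial σ L) (MvPolynomial.X u) (MvPolynomial.X v)
  have hf : φ (MvPolynomial.aeval (tri u v (C X) X (C (C X))) f) = f :=
    fromN_toN hvu hbu hbv hall _ _ _ _ _ _ (fromN_CX _ _ _) (fromN_X _ _ _) (fromN_CCX _ _ _) f
  have e' := congrArg (fun p => φ p) e
  simp only [map_add, map_mul] at e'
  rw [hf] at e'
  have hdN' := congrArg (fun p => φ p) hdN
  simp only [map_mul, fromN_sub, φ] at hdN'
  rw [fromN_CX, fromN_X, fromN_Pu_rho c n _ _ _ rfl, fromN_Pv_rho c n _ _ _ rfl, ← hd] at hdN'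
  have hdd : φ dN = d := mul_left_cancel₀ (uv_ne_zero hvu) hdN'
  rw [hdd] at e'
  simp only [φ] at e'
  rw [fromN_om_tauN, fromN_Pu_rho c n _ _ _ rfl, fromN_Pv_rho c n _ _ _ rfl, fromN_BB] at e'
  exact ⟨_, _, _, _, e'⟩

theorem fromN_B_om :
    fromN (MvPolynomial.X u) (MvPolynomial.X v) (MvPolynomial.X b) (C (om (pm t)))
      = (OO u v t : MvPolynomial σ L) := by
  unfold om pm OO
  rw [Fintype.prod_sum_type, ← Finset.prod_mul_distrib]
  simp only [Sum.elim_inl, Sum.elim_inr, map_mul, map_prod, map_sub, map_add, fromN_CCC,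
    fromN_CX, fromN_CCX, map_neg]
  refine Finset.prod_congr rfl fun k _ => ?_
  ring

theorem fromN_C_Pu (x y z : MvPolynomial σ L) :
    fromN x y z (C (Pu c)) = WW c x := by
  unfold Pu WW
  simp only [map_prod, map_sub, fromN_CCC, fromN_CCX, fromN_sub]

theorem fromN_C_Pv (x y z : MvPolynomial σ L) :
    fromN x y z (C (Pv c)) = WW c y := by
  unfold Pv WW
  simp only [map_prod, map_sub, fromN_CCC, fromN_CX]

include hvu hbu hbv hall in
theorem SB1 (h1 : ∀ i j, i ≠ j → c i ≠ c j) (h2 : ∀ i j, i ≠ j → n i ≠ n j)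
    (h4 : ∀ i j, i ≠ j → pm t i ≠ pm t j)
    (h6 : ∀ i j k, c i + pm t k - c j ≠ 0) (h7 : ∀ i j k, n i + pm t k - n j ≠ 0)
    (h8 : ∀ i j, i ≠ j → ∀ e e', (c i - n e) - (c j - n e') ≠ 0)
    (f : MvPolynomial σ L)
    (v1 : ∀ i j e, i ≠ j → at3 u v (c i) (c j) (c i - n e) f = 0)
    (v1' : ∀ i j e, i ≠ j → at3 u v (c i) (c j) (c j - n e) f = 0)
    (v2 : ∀ i k e, at3 u v (c i) (c i + pm t k) (c i - n e) f = 0)
    (v2' : ∀ i k e, at3 u v (c i) (c i + pm t k) (c i + pm t k - n e) f = 0)
    (v3 : ∀ i k e, at3 u v (c i + pm t k) (c i) (c i - n e) f = 0)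
    (v3' : ∀ i k e, at3 u v (c i + pm t k) (c i) (c i + pm t k - n e) f = 0)
    (d : MvPolynomial σ L)
    (hd : (MvPolynomial.X u - MvPolynomial.X v) * d
      = WW c (MvPolynomial.X u) - WW c (MvPolynomial.X v)) :
    ∃ α x y z : MvPolynomial σ L, f = PP b n (MvPolynomial.X u) * PP b n (MvPolynomial.X v) * α
      + OO u v t * (x * d + y * WW c (MvPolynomial.X v))
      + WW c (MvPolynomial.X u) * WW c (MvPolynomial.X v) * z := by
  obtain ⟨dN, hdN⟩ := exists_d c
  obtain ⟨α, x, y, z, e⟩ := stepB1 c (pm t) n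
    (fun i j h => sub_ne_zero.mpr (h1 i j h)) (fun i j h => sub_ne_zero.mpr (h4 i j h))
    h6 (fun i j h => sub_ne_zero.mpr (h2 i j h)) h8
    (fun k e e' h0 => h7 e e' k (by linear_combination h0)) (swap_om_pm t)
    (MvPolynomial.aeval (tri u v (C (C X)) (C X) X) f)
    (fun i j h e => by
      rw [evalB, evalB]
      exact ⟨v1 i j e h, v1' i j e h⟩)
    (fun i k e => by
      rw [evalB, evalB]
      exact ⟨v2 i k e, v2' i k e⟩)
    (fun i k e => by
      rw [evalB, evalB]
      exact ⟨v3 i k e, v3' i k e⟩) dN hdN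
  let φ := fromN (MvPolynomial.X u : MvPolynomial σ L) (MvPolynomial.X v) (MvPolynomial.X b)
  have hf : φ (MvPolynomial.aeval (tri u v (C (C X)) (C X) X) f) = f :=
    fromN_toN hvu hbu hbv hall _ _ _ _ _ _ (fromN_CCX _ _ _) (fromN_CX _ _ _) (fromN_X _ _ _) f
  have e' := congrArg (fun p => φ p) e
  simp only [map_add, map_mul] at e'
  rw [hf] at e'
  have hdN' := congrArg (fun p => φ (C p)) hdN
  simp only [map_mul, map_sub, φ] at hdN'
  rw [fromN_CX, fromN_CCX, fromN_C_Pu, fromN_C_Pv, ← hd] at hdN'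
  have hdd : φ (C dN) = d := mul_left_cancel₀ (uv_ne_zero hvu) hdN'
  rw [hdd] at e'
  simp only [φ] at e'
  rw [fromN_B_om, fromN_C_Pu, fromN_C_Pv] at e'
  have hp1 : fromN (MvPolynomial.X u : MvPolynomial σ L) (MvPolynomial.X v) (MvPolynomial.X b)
      (∏ e, (X - C (C X - C (C (n e))))) = ∏ e, -(MvPolynomial.X u -
        (MvPolynomial.X b + MvPolynomial.C (n e))) := by
    simp only [map_prod, map_sub, fromN_sub, fromN_CCC, fromN_CCX, fromN_X]
    refine Finset.prod_congr rfl fun e _ => ?_
    ring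
  have hp2 : fromN (MvPolynomial.X u : MvPolynomial σ L) (MvPolynomial.X v) (MvPolynomial.X b)
      (∏ e, (X - C (X - C (C (n e))))) = ∏ e, -(MvPolynomial.X v -
        (MvPolynomial.X b + MvPolynomial.C (n e))) := by
    simp only [map_prod, map_sub, fromN_sub, fromN_CCC, fromN_CX, fromN_X]
    refine Finset.prod_congr rfl fun e _ => ?_
    ring
  rw [hp1, hp2, Finset.prod_neg, Finset.prod_neg] at e'
  have hs : ((-1 : MvPolynomial σ L) ^ (Finset.univ : Finset P).card) *
      (-1) ^ (Finset.univ : Finset P).card = 1 := by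
    rw [← mul_pow]
    simp
  refine ⟨fromN (MvPolynomial.X u) (MvPolynomial.X v) (MvPolynomial.X b) α,
    fromN (MvPolynomial.X u) (MvPolynomial.X v) (MvPolynomial.X b) x,
    fromN (MvPolynomial.X u) (MvPolynomial.X v) (MvPolynomial.X b) y,
    fromN (MvPolynomial.X u) (MvPolynomial.X v) (MvPolynomial.X b) z, e'.trans ?_⟩
  unfold PP
  linear_combination ((∏ e, (MvPolynomial.X u - (MvPolynomial.X b + MvPolynomial.C (n e)))) *
    (∏ e, (MvPolynomial.X v - (MvPolynomial.X b + MvPolynomial.C (n e)))) *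
    fromN (MvPolynomial.X u) (MvPolynomial.X v) (MvPolynomial.X b) α) * hs

include hvu hbu hbv hall in
theorem SB3 (h1 : ∀ i j, i ≠ j → c i ≠ c j) (h2 : ∀ i j, i ≠ j → n i ≠ n j)
    (f : MvPolynomial σ L)
    (v1 : ∀ e e' i, e ≠ e' → at3 u v (c i - n e + n e') (c i) (c i - n e) f = 0)
    (d : MvPolynomial σ L)
    (hd : (MvPolynomial.X u - MvPolynomial.X v) * d
      = PP b n (MvPolynomial.X u) - PP b n (MvPolynomial.X v)) :
    ∃ α x y : MvPolynomial σ L, f = WW c (MvPolynomial.X v) * α + x * d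
      + y * PP b n (MvPolynomial.X v) := by
  obtain ⟨dN, hdN⟩ := exists_d n
  obtain ⟨α, x, y, e⟩ := stepB3 c n
    (fun i j h => sub_ne_zero.mpr (h1 i j h)) (fun i j h => sub_ne_zero.mpr (h2 i j h))
    (MvPolynomial.aeval (tri u v (C (C X) + X) (C X + X) X) f)
    (fun e e' h i => by
      rw [evalS]
      have h3 : n e' + (c i - n e) = c i - n e + n e' := by ring
      have h4 : n e + (c i - n e) = c i := by ring
      rw [h3, h4]
      exact v1 e e' i h) dN hdN
  let φ := fromN (MvPolynomial.X u - MvPolynomial.X b : MvPolynomial σ L)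
    (MvPolynomial.X v - MvPolynomial.X b) (MvPolynomial.X b)
  have hf : φ (MvPolynomial.aeval (tri u v (C (C X) + X) (C X + X) X) f) = f := by
    apply fromN_toN hvu hbu hbv hall
    · rw [map_add, fromN_CCX, fromN_X]
      ring
    · rw [map_add, fromN_CX, fromN_X]
      ring
    · rw [fromN_X]
  have e' := congrArg (fun p => φ p) e
  simp only [map_add, map_mul] at e'
  rw [hf] at e'
  have hPu : φ (C (Pu n)) = PP b n (MvPolynomial.X u) := by
    simp only [φ]
    rw [fromN_C_Pu]
    unfold WW PP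
    refine Finset.prod_congr rfl fun e _ => ?_
    ring
  have hPv : φ (C (Pv n)) = PP b n (MvPolynomial.X v) := by
    simp only [φ]
    rw [fromN_C_Pv]
    unfold WW PP
    refine Finset.prod_congr rfl fun e _ => ?_
    ring
  have hdN' := congrArg (fun p => φ (C p)) hdN
  simp only [map_mul, map_sub] at hdN'
  rw [hPu, hPv, ← hd] at hdN'
  have hUV : φ (C (C X)) - φ (C X) = MvPolynomial.X u - MvPolynomial.X v := by
    simp only [φ]
    rw [fromN_CX, fromN_CCX]
    ring
  rw [hUV] at hdN'
  have hdd : φ (C dN) = d := mul_left_cancel₀ (uv_ne_zero hvu) hdN'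
  rw [hdd, hPv] at e'
  have hp1 : φ (∏ i, (X - C (C (C (c i)) - X))) = WW c (MvPolynomial.X v) := by
    simp only [φ, map_prod, map_sub, fromN_sub, fromN_CCC, fromN_CX, fromN_X]
    unfold WW
    refine Finset.prod_congr rfl fun e _ => ?_
    ring
  rw [hp1] at e'
  exact ⟨_, _, _, e'⟩

end steps

end Vale.Agent.P291.H808.Alg
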