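import Vale.Agent.P291.H808.Alg4

/-!
# The algebraic theorem for dimension vector `(2, 1)`, assembled
-/

set_option linter.unusedSectionVars false
set_option linter.unusedSimpArgs false

namespace Vale.Agent.P291.H808.Alg

open Polynomial

variable {L : Type} [CommRing L] [IsDomain L] {σ : Type} [DecidableEq σ]

section final

variable {u v b : σ} (hvu : v ≠ u) (hbu : b ≠ u) (hbv : b ≠ v)
  (hall : ∀ c : σ, c = u ∨ c = v ∨ c = b)
  {Lf P J K : Type} [Fintype Lf] [Fintype P] [Fintype J] [Fintype K]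
  (c : Lf → L) (n : P → L) (c' : J → L) (t : K → L)

theorem at3_WW (x y z : L) (g : MvPolynomial σ L) :
    at3 u v x y z (WW c g) = ∏ i, (at3 u v x y z g - c i) := by
  unfold WW
  rw [map_prod]
  refine Finset.prod_congr rfl fun i _ => ?_
  rw [map_sub, at3_C]

include hbu hbv in
theorem at3_PP (x y z : L) (g : MvPolynomial σ L) :
    at3 u v x y z (PP b n g) = ∏ e, (at3 u v x y z g - (z + n e)) := by
  unfold PP
  rw [map_prod]
  refine Finset.prod_congr rfl fun i _ => ?_
  rw [map_sub, map_add, at3_C, at3_b hbu hbv]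

include hvu in
theorem at3_OO (x y z : L) :
    at3 u v x y z (OO u v t) = ∏ k, (y - (x + t k)) * (y - (x - t k)) := by
  unfold OO
  rw [map_prod]
  refine Finset.prod_congr rfl fun i _ => ?_
  rw [map_mul, map_sub, map_sub, map_sub, map_add, at3_C, at3_u, at3_v hvu]

include hbu hbv in
theorem at3_BM (x y z : L) :
    at3 u v x y z (BM b c') = ∏ j, (z - c' j) := by
  unfold BM
  rw [map_prod]
  refine Finset.prod_congr rfl fun i _ => ?_
  rw [map_sub, at3_C, at3_b hbu hbv]

include hvu in
theorem at3_dd {x y z : L} (hxy : x ≠ y) {g : MvPolynomial σ L}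
    (h : at3 u v x y z g = at3 u v x y z (sw u v g)) : at3 u v x y z (dd u v g) = 0 := by
  have h1 := congrArg (fun p => at3 u v x y z p) (dd_spec (u := u) (v := v) g)
  simp only [map_mul, map_sub] at h1
  rw [at3_u, at3_v hvu, h, sub_self] at h1
  exact (mul_eq_zero.mp h1).resolve_left (sub_ne_zero.mpr hxy)

/-- Symmetrization of an expression. -/
theorem symmetrize {half : L} (hhalf : 2 * half = 1) {w PU PV d Q B h f : MvPolynomial σ L}
    (hvu : v ≠ u) (hw : sw u v w = w) (hPU : sw u v PU = PV) (hPV : sw u v PV = PU)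
    (hQ : sw u v Q = Q) (hB : sw u v B = B) (hf : sw u v f = f)
    (hd : (MvPolynomial.X u - MvPolynomial.X v) * d = PU - PV) {x y z : MvPolynomial σ L}
    (e : f = w * (x * d + y * PV) + Q * z + B * h) :
    ∃ κ z' h' : MvPolynomial σ L, sw u v z' = z' ∧ sw u v h' = h' ∧
      f = w * dd u v (κ * PU) + Q * z' + B * h' := by
  have h2 : (2 : MvPolynomial σ L) * MvPolynomial.C half = 1 := by
    have : (2 : MvPolynomial σ L) = MvPolynomial.C 2 := (map_ofNat MvPolynomial.C 2).symm
    rw [this, ← MvPolynomial.C_mul, hhalf, MvPolynomial.C_1]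
  refine ⟨MvPolynomial.C half * ((x + sw u v x) + (MvPolynomial.X u - MvPolynomial.X v) *
    sw u v y), MvPolynomial.C half * (z + sw u v z), MvPolynomial.C half * (h + sw u v h),
    ?_, ?_, ?_⟩
  · rw [map_mul, map_add, sw_sw, sw_C]
    ring
  · rw [map_mul, map_add, sw_sw, sw_C]
    ring
  · rw [mul_assoc (MvPolynomial.C half), dd_mul_sym hvu (sw_C u v half)]
    have h3 := symm_form hvu hw hPU hPV hd x y
    have h4 : f + sw u v f = w * (x * d + y * PV) + sw u v (w * (x * d + y * PV))
        + Q * (z + sw u v z) + B * (h + sw u v h) := by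
      conv_lhs => rw [e]
      simp only [map_add, map_mul, hQ, hB]
      ring
    rw [hf, h3] at h4
    linear_combination (-f) * h2 + MvPolynomial.C half * h4

include hvu hbu hbv hall in
/-- The algebraic theorem: a symmetric polynomial vanishing at all listed points is a combination
of the listed generators. -/
theorem T7 {half : L} (hhalf : 2 * half = 1)
    (h1 : ∀ i j, i ≠ j → c i ≠ c j) (h2 : ∀ i j, i ≠ j → n i ≠ n j)
    (h3 : Function.Injective c') (h4 : ∀ i j, i ≠ j → pm t i ≠ pm t j)
    (h6 : ∀ i j k, c i + pm t k - c j ≠ 0) (h7 : ∀ i j k, n i + pm t k - n j ≠ 0)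
    (h8 : ∀ i j, i ≠ j → ∀ e e', (c i - n e) - (c j - n e') ≠ 0)
    (h9 : ∀ i j e, c i - c' j - n e ≠ 0) (h10 : ∀ i j e k, c i + pm t k - n e - c' j ≠ 0)
    (h10' : ∀ i j e k, c i - pm t k - n e - c' j ≠ 0)
    (f : MvPolynomial σ L) (hf : sw u v f = f)
    (A1 : ∀ i j k, i ≠ j → at3 u v (c i) (c j) (c' k) f = 0)
    (A2 : ∀ i e k, at3 u v (c i) (c' k + n e) (c' k) f = 0)
    (A3 : ∀ i j k, i ≠ j → at3 u v (c' k + n i) (c' k + n j) (c' k) f = 0)
    (A4 : ∀ i k j, at3 u v (c i) (c i + pm t k) (c' j) f = 0)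
    (A5 : ∀ i k j, at3 u v (c' j + n i) (c' j + n i + pm t k) (c' j) f = 0)
    (B1 : ∀ i j e, i ≠ j → at3 u v (c i) (c j) (c i - n e) f = 0)
    (B2 : ∀ i e e', e ≠ e' → at3 u v (c i) (c i - n e + n e') (c i - n e) f = 0)
    (B3 : ∀ i k e, at3 u v (c i) (c i + pm t k) (c i - n e) f = 0)
    (B4 : ∀ i k e, at3 u v (c i) (c i + pm t k) (c i + pm t k - n e) f = 0) :
    ∃ κ z α β x y : MvPolynomial σ L,
      sw u v z = z ∧ sw u v α = α ∧ sw u v β = β ∧
      f = OO u v t * dd u v (κ * (WW c (MvPolynomial.X u) * PP b n (MvPolynomial.X u)))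
        + (WW c (MvPolynomial.X u) * PP b n (MvPolynomial.X u)) *
          (WW c (MvPolynomial.X v) * PP b n (MvPolynomial.X v)) * z
        + BM b c' * (PP b n (MvPolynomial.X u) * PP b n (MvPolynomial.X v) * α
          + WW c (MvPolynomial.X u) * WW c (MvPolynomial.X v) * β
          + OO u v t * (dd u v (PP b n (MvPolynomial.X u)) * dd u v (x * WW c (MvPolynomial.X u))
            + dd u v (y * (PP b n (MvPolynomial.X v) * WW c (MvPolynomial.X u))))) := by
  have hsym : ∀ g : MvPolynomial σ L, sw u v g = g → ∀ x y z, at3 u v x y z g = 0 →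
      at3 u v y x z g = 0 := by
    intro g hg x y z h
    rw [← hg, at3_sw hvu]
    exact h
  have hU0 : sw u v (WW c (MvPolynomial.X u) * PP b n (MvPolynomial.X u))
      = WW c (MvPolynomial.X v) * PP b n (MvPolynomial.X v) := by
    rw [map_mul, sw_WW, sw_PP hbu hbv, sw_u]
  have hV0 : sw u v (WW c (MvPolynomial.X v) * PP b n (MvPolynomial.X v))
      = WW c (MvPolynomial.X u) * PP b n (MvPolynomial.X u) := by
    rw [map_mul, sw_WW, sw_PP hbu hbv, sw_v]
  have hN0 : sw u v ((WW c (MvPolynomial.X u) * PP b n (MvPolynomial.X u)) *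
      (WW c (MvPolynomial.X v) * PP b n (MvPolynomial.X v)))
      = (WW c (MvPolynomial.X u) * PP b n (MvPolynomial.X u)) *
      (WW c (MvPolynomial.X v) * PP b n (MvPolynomial.X v)) := by
    rw [map_mul, hU0, hV0, mul_comm]
  have hWU : sw u v (WW c (MvPolynomial.X u)) = WW c (MvPolynomial.X v) := by
    rw [sw_WW, sw_u]
  have hWV : sw u v (WW c (MvPolynomial.X v)) = WW c (MvPolynomial.X u) := by
    rw [sw_WW, sw_v]
  have hPU : sw u v (PP b n (MvPolynomial.X u)) = PP b n (MvPolynomial.X v) := by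
    rw [sw_PP hbu hbv, sw_u]
  have hPV : sw u v (PP b n (MvPolynomial.X v)) = PP b n (MvPolynomial.X u) := by
    rw [sw_PP hbu hbv, sw_v]
  have hNW : sw u v (WW c (MvPolynomial.X u) * WW c (MvPolynomial.X v))
      = WW c (MvPolynomial.X u) * WW c (MvPolynomial.X v) := by
    rw [map_mul, hWU, hWV, mul_comm]
  have hNP : sw u v (PP b n (MvPolynomial.X u) * PP b n (MvPolynomial.X v))
      = PP b n (MvPolynomial.X u) * PP b n (MvPolynomial.X v) := by
    rw [map_mul, hPU, hPV, mul_comm]
  obtain ⟨x, y, z, h, e⟩ := SA hvu hbu hbv hall c n c' t h1 h2 h3 h4 h6 h7 h9 h10 h10' f A1 A2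
    (fun i e k => hsym f hf _ _ _ (A2 i e k)) A3 A4
    (fun i k j => hsym f hf _ _ _ (A4 i k j)) A5
    (fun i k j => hsym f hf _ _ _ (A5 i k j))
    (dd u v (WW c (MvPolynomial.X u) * PP b n (MvPolynomial.X u)))
    (by rw [dd_spec, hU0])
  obtain ⟨κ, z', h', hz', hh', e1⟩ := symmetrize hhalf hvu (sw_OO t) hU0 hV0 hN0
    (sw_BM hbu hbv c') hf (by rw [dd_spec, hU0]) e
  -- vanishing of `h'`
  have hvan : ∀ x y z : L, x ≠ y → at3 u v x y z f = 0 →
      at3 u v x y z (WW c (MvPolynomial.X u) * PP b n (MvPolynomial.X u)) = 0 →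
      (at3 u v x y z (OO u v t) = 0 ∨
        at3 u v x y z (WW c (MvPolynomial.X v) * PP b n (MvPolynomial.X v)) = 0) →
      (∀ j, z - c' j ≠ 0) → at3 u v x y z h' = 0 := by
    intro x y z hxy hfz hP hO hB
    have h5 := congrArg (fun p => at3 u v x y z p) e1
    simp only [map_add, map_mul] at h5
    rw [← map_mul (at3 u v x y z) (WW c (MvPolynomial.X u)), hP, hfz] at h5
    have h6 : at3 u v x y z (OO u v t) *
        at3 u v x y z (dd u v (κ * (WW c (MvPolynomial.X u) * PP b n (MvPolynomial.X u)))) = 0 := by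
      rcases hO with hO | hO
      · rw [hO, zero_mul]
      · rw [at3_dd hvu hxy, mul_zero]
        rw [map_mul (at3 u v x y z), hP, map_mul (sw u v), hU0, map_mul (at3 u v x y z), hO]
        ring
    rw [h6, at3_BM hbu hbv] at h5
    have h7 : (∏ j, (z - c' j)) * at3 u v x y z h' = 0 := by
      linear_combination -h5
    exact (mul_eq_zero.mp h7).resolve_left (Finset.prod_ne_zero_iff.mpr fun j _ => hB j)
  have hb1 : ∀ i j e, c i - n e - c' j ≠ 0 := by
    intro i j e h0
    apply h9 i j e
    linear_combination h0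
  have hW0 : ∀ i y z, at3 u v (c i) y z (WW c (MvPolynomial.X u)) = 0 := by
    intro i y z
    rw [at3_WW, at3_u]
    exact Finset.prod_eq_zero (Finset.mem_univ i) (sub_self _)
  have hOz : ∀ i k z, at3 u v (c i) (c i + pm t k) z (OO u v t) = 0 := by
    intro i k z
    rw [at3_OO hvu]
    rcases k with k | k
    · exact Finset.prod_eq_zero (Finset.mem_univ k) (by simp [pm])
    · exact Finset.prod_eq_zero (Finset.mem_univ k) (by simp [pm])
  have hne2 : ∀ i k, c i ≠ c i + pm t k := by
    intro i k h0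
    apply h6 i i k
    linear_combination -h0
  have g1 : ∀ i j e, i ≠ j → at3 u v (c i) (c j) (c i - n e) h' = 0 := by
    intro i j e hij
    apply hvan _ _ _ (h1 i j hij) (B1 i j e hij)
    · rw [map_mul, hW0, zero_mul]
    · right
      rw [map_mul, at3_WW, at3_v hvu,
        Finset.prod_eq_zero (Finset.mem_univ j) (sub_self (c j)), zero_mul]
    · intro k
      exact hb1 i k e
  have g2 : ∀ i e e', e ≠ e' → at3 u v (c i) (c i - n e + n e') (c i - n e) h' = 0 := by
    intro i e e' hee
    apply hvan _ _ _ _ (B2 i e e' hee)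
    · rw [map_mul, hW0, zero_mul]
    · right
      rw [map_mul, at3_PP hbu hbv, at3_v hvu,
        Finset.prod_eq_zero (Finset.mem_univ e') (sub_self (c i - n e + n e')), mul_zero]
    · intro k
      exact hb1 i k e
    · intro h0
      apply h2 e e' hee
      linear_combination h0
  have g3 : ∀ i k e, at3 u v (c i) (c i + pm t k) (c i - n e) h' = 0 := by
    intro i k e
    apply hvan _ _ _ (hne2 i k) (B3 i k e)
    · rw [map_mul, hW0, zero_mul]
    · left
      exact hOz i k _
    · intro j
      exact hb1 i j e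
  have g4 : ∀ i k e, at3 u v (c i) (c i + pm t k) (c i + pm t k - n e) h' = 0 := by
    intro i k e
    apply hvan _ _ _ (hne2 i k) (B4 i k e)
    · rw [map_mul, hW0, zero_mul]
    · left
      exact hOz i k _
    · intro j
      exact h10 i j e k
  obtain ⟨α, x2, y2, z2, e2⟩ := SB1 hvu hbu hbv hall c n t h1 h2 h4 h6 h7 h8 h' g1
    (fun i j e hij => hsym h' hh' _ _ _ (g1 j i e hij.symm)) g3 g4
    (fun i k e => hsym h' hh' _ _ _ (g3 i k e))
    (fun i k e => hsym h' hh' _ _ _ (g4 i k e)) (dd u v (WW c (MvPolynomial.X u)))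
    (by rw [dd_spec, hWU])
  obtain ⟨κ2, z3, α', hz3, hα', e3⟩ := symmetrize (f := h')
    (B := PP b n (MvPolynomial.X u) * PP b n (MvPolynomial.X v)) (h := α) hhalf hvu (sw_OO t)
    hWU hWV (z := z2) hNW hNP hh'
    (by rw [dd_spec, hWU]) (x := x2) (y := y2) (by
      conv_lhs => rw [e2]
      ring)
  -- vanishing of `κ2`
  have k1 : ∀ e e' i, e ≠ e' → at3 u v (c i - n e + n e') (c i) (c i - n e) κ2 = 0 := by
    intro e e' i hee
    have hxy : c i ≠ c i - n e + n e' := by
      intro h0
      apply h2 e e' hee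
      linear_combination h0
    have h5 := congrArg (fun p => at3 u v (c i) (c i - n e + n e') (c i - n e) p) e3
    simp only [map_add, map_mul] at h5
    rw [g2 i e e' hee, hW0, at3_PP hbu hbv _ _ _ _ (MvPolynomial.X v), at3_v hvu,
      Finset.prod_eq_zero (Finset.mem_univ e') (sub_self (c i - n e + n e')), at3_OO hvu] at h5
    have h6' : (∏ k, (c i - n e + n e' - (c i + t k)) * (c i - n e + n e' - (c i - t k))) ≠ 0 := by
      rw [Finset.prod_ne_zero_iff]
      intro k _
      apply mul_ne_zero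
      · intro h0
        apply h7 e e' (Sum.inl k)
        simp only [pm, Sum.elim_inl]
        linear_combination -h0
      · intro h0
        apply h7 e e' (Sum.inr k)
        simp only [pm, Sum.elim_inr]
        linear_combination -h0
    have h7' : (∏ k, (c i - n e + n e' - (c i + t k)) * (c i - n e + n e' - (c i - t k))) *
        at3 u v (c i) (c i - n e + n e') (c i - n e) (dd u v (κ2 * WW c (MvPolynomial.X u)))
        = 0 := by
      linear_combination -h5
    have h8' := (mul_eq_zero.mp h7').resolve_left h6'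
    have h9' := congrArg (fun p => at3 u v (c i) (c i - n e + n e') (c i - n e) p)
      (dd_spec (u := u) (v := v) (κ2 * WW c (MvPolynomial.X u)))
    simp only [map_mul, map_sub] at h9'
    rw [h8', hW0, sw_WW, sw_u, at3_sw hvu, at3_WW, at3_v hvu] at h9'
    have h10 : (∏ j, (c i - n e + n e' - c j)) ≠ 0 := by
      rw [Finset.prod_ne_zero_iff]
      intro j _ h0
      by_cases hij : i = j
      · subst hij
        apply h2 e e' hee
        linear_combination -h0
      · apply h8 i j hij e e'
        linear_combination h0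
    have h11 : at3 u v (c i - n e + n e') (c i) (c i - n e) κ2 *
        (∏ j, (c i - n e + n e' - c j)) = 0 := by
      linear_combination h9'
    exact (mul_eq_zero.mp h11).resolve_right h10
  obtain ⟨κ3, x3, y3, e4⟩ := SB3 hvu hbu hbv hall c n h1 h2 κ2 k1
    (dd u v (PP b n (MvPolynomial.X u)))
    (by rw [dd_spec, hPU])
  refine ⟨κ, z', α', z3 + OO u v t * dd u v κ3, x3, y3, hz', hα', ?_, ?_⟩
  · rw [map_add, map_mul, hz3, sw_OO, sw_dd hvu]
  · have h5 : dd u v (κ2 * WW c (MvPolynomial.X u))
        = WW c (MvPolynomial.X u) * WW c (MvPolynomial.X v) * dd u v κ3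
          + dd u v (PP b n (MvPolynomial.X u)) * dd u v (x3 * WW c (MvPolynomial.X u))
          + dd u v (y3 * (PP b n (MvPolynomial.X v) * WW c (MvPolynomial.X u))) := by
      have h6' : κ2 * WW c (MvPolynomial.X u)
          = WW c (MvPolynomial.X u) * WW c (MvPolynomial.X v) * κ3
            + dd u v (PP b n (MvPolynomial.X u)) * (x3 * WW c (MvPolynomial.X u))
            + y3 * (PP b n (MvPolynomial.X v) * WW c (MvPolynomial.X u)) := by
        conv_lhs => rw [e4]
        ring
      rw [h6', dd_add hvu, dd_add hvu, dd_mul_sym hvu hNW, dd_mul_sym hvu (sw_dd hvu _)]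
    rw [h5] at e3
    calc f = _ := e1
      _ = _ := by
        conv_lhs => rw [e3]
        ring

end final

end Vale.Agent.P291.H808.Alg
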