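import Vale.Agent.P291.H808.Defs

/-!
# The constant term lemma: one inclusion of the Hikita correspondence, for every quiver
-/

set_option linter.unusedSectionVars false

namespace Vale.Agent.P291.H808

open MvPolynomial

namespace QData

variable {I E : Type} [Fintype I] [DecidableEq I] [Fintype E] [DecidableEq E] {Q : QData I E}

/-! ### Linear forms of characters -/

theorem lin_coeff (χ : Q.Fl → ℤ) (k : Q.Fl) :
    MvPolynomial.coeff (Finsupp.single k 1) (Q.lin χ : MvPolynomial Q.Fl ℂ) = (χ k : ℂ) := by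
  classical
  have h0 : (Q.lin χ : MvPolynomial Q.Fl ℂ)
      = ∑ j, ((χ j : MvPolynomial Q.Fl ℂ) * (X j : MvPolynomial Q.Fl ℂ)) := rfl
  rw [h0, MvPolynomial.coeff_sum]
  have h : ∀ j : Q.Fl, MvPolynomial.coeff (Finsupp.single k 1)
      ((χ j : MvPolynomial Q.Fl ℂ) * (X j : MvPolynomial Q.Fl ℂ))
      = if j = k then (χ k : ℂ) else 0 := by
    intro j
    have h1 : ((χ j : ℤ) : MvPolynomial Q.Fl ℂ) = C ((χ j : ℤ) : ℂ) := by simp
    rw [h1, MvPolynomial.coeff_C_mul, MvPolynomial.coeff_X]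
    by_cases hj : j = k
    · subst hj; simp
    · have : Finsupp.single j 1 ≠ (Finsupp.single k 1 : Q.Fl →₀ ℕ) := by
        intro h'
        exact hj (Finsupp.single_left_injective one_ne_zero h')
      simp [hj, this]
  simp [h]

theorem lin_injective : Function.Injective Q.lin := by
  intro χ χ' h
  funext k
  have h1 := lin_coeff χ k
  rw [h, lin_coeff χ' k] at h1
  exact_mod_cast h1.symm

theorem lin_add (χ χ' : Q.Fl → ℤ) : Q.lin (χ + χ') = Q.lin χ + Q.lin χ' := by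
  simp [lin, add_mul, Finset.sum_add_distrib]

theorem lin_sub (χ χ' : Q.Fl → ℤ) : Q.lin (χ - χ') = Q.lin χ - Q.lin χ' := by
  simp [lin, sub_mul, Finset.sum_sub_distrib]

theorem lin_neg (χ : Q.Fl → ℤ) : Q.lin (-χ) = -Q.lin χ := by
  simp [lin]

theorem lin_zero : Q.lin 0 = 0 := by
  simp [lin]

theorem lin_chr (k : Q.Fl) : Q.lin (Q.chr k) = Q.mass k := by
  classical
  unfold lin chr
  rw [Finset.sum_eq_single k]
  · simp
  · intro j _ hj
    simp [hj]
  · intro h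
    exact absurd (Finset.mem_univ k) h

@[simp]
theorem ev_X (a : Q.Col → Q.Fl → ℤ) (c : Q.Col) : Q.ev a (X c) = Q.lin (a c) := by
  simp [ev]

@[simp]
theorem ev_C (a : Q.Col → Q.Fl → ℤ) (r : Q.Lam) : Q.ev a (C r) = r := by
  simp [ev]

/-! ### The factors `r^lam` -/

theorem rc_zero : Q.rc 0 = 1 := by
  simp [rc]

theorem rc_mul (lam mu : Q.Col → ℤ) : Q.rc (lam + mu) ∣ Q.rc lam * Q.rc mu := by
  unfold rc
  rw [mul_mul_mul_comm]
  apply mul_dvd_mul
  · simp only [← Finset.prod_mul_distrib]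
    refine Finset.prod_dvd_prod_of_dvd _ _ fun e _ => ?_
    refine Finset.prod_dvd_prod_of_dvd _ _ fun p _ => ?_
    refine Finset.prod_dvd_prod_of_dvd _ _ fun r _ => ?_
    rw [← pow_add]
    apply pow_dvd_pow
    simp only [Pi.add_apply]
    omega
  · simp only [← Finset.prod_mul_distrib]
    refine Finset.prod_dvd_prod_of_dvd _ _ fun i _ => ?_
    refine Finset.prod_dvd_prod_of_dvd _ _ fun r _ => ?_
    refine Finset.prod_dvd_prod_of_dvd _ _ fun l _ => ?_
    rw [← pow_add]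
    apply pow_dvd_pow
    simp only [Pi.add_apply]
    omega

/-! ### Coefficients of Laurent elements -/

theorem coeff_single (lam mu : Q.Col → ℤ) (x : Q.KK) [Decidable (mu = lam)] :
    (Lau.single mu x : Q.Lau).coeff lam = if mu = lam then x else 0 := by
  classical
  have h : (Lau.single mu x : Q.Lau).coeff lam = (Finsupp.single mu x) lam := rfl
  rw [h, Finsupp.single_apply]

theorem coeff_zero (lam : Q.Col → ℤ) : (0 : Q.Lau).coeff lam = 0 := rfl

theorem coeff_add (x y : Q.Lau) (lam : Q.Col → ℤ) :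
    (x + y).coeff lam = x.coeff lam + y.coeff lam := rfl

theorem coeff_sum {ι : Type*} (s : Finset ι) (f : ι → Q.Lau) (lam : Q.Col → ℤ) :
    (∑ i ∈ s, f i).coeff lam = ∑ i ∈ s, (f i).coeff lam := by
  classical
  induction s using Finset.induction_on with
  | empty => simp [coeff_zero]
  | insert i s hi ih => rw [Finset.sum_insert hi, Finset.sum_insert hi, coeff_add, ih]

theorem coeff_algebraMap (r : Q.RR) (lam : Q.Col → ℤ) [Decidable (lam = 0)] :
    (algebraMap Q.RR Q.Lau r).coeff lam = if lam = 0 then algebraMap Q.SS Q.KK r else 0 := by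
  classical
  have h : algebraMap Q.RR Q.Lau r = Lau.single 0 (algebraMap Q.SS Q.KK r) := rfl
  rw [h, coeff_single]
  by_cases h0 : lam = 0
  · simp [h0]
  · rw [if_neg h0, if_neg (fun h => h0 h.symm)]

theorem coeff_mul_sum (x y : Q.Lau) (lam : Q.Col → ℤ) [DecidableEq (Q.Col → ℤ)] :
    ∃ s t : Finset (Q.Col → ℤ), (∀ m ∈ t, y.coeff m ≠ 0) ∧
      (x * y).coeff lam = ∑ m₁ ∈ s, ∑ m₂ ∈ t,
      if m₁ + m₂ = lam then x.coeff m₁ * y.coeff m₂ else 0 :=
  ⟨(AddMonoidAlgebra.coeff x).support, (AddMonoidAlgebra.coeff y).support,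
    fun _ hm => Finsupp.mem_support_iff.mp hm,
    AddMonoidAlgebra.coeff_mul (R := Q.KK) (M := Q.Col → ℤ) x y lam⟩

theorem single_mul_single (lam mu : Q.Col → ℤ) (x y : Q.KK) :
    (Lau.single lam x * Lau.single mu y : Q.Lau) = Lau.single (lam + mu) (x * y) :=
  AddMonoidAlgebra.single_mul_single ..

theorem single_add (lam : Q.Col → ℤ) (x y : Q.KK) :
    (Lau.single lam (x + y) : Q.Lau) = Lau.single lam x + Lau.single lam y :=
  AddMonoidAlgebra.single_add ..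

theorem single_zero (lam : Q.Col → ℤ) : (Lau.single lam 0 : Q.Lau) = 0 :=
  AddMonoidAlgebra.single_zero ..

/-! ### Local rings -/

/-- `x` is a multiple of `r^lam` in the local ring of `a`. -/
def IntAt (Q : QData I E) (a : Q.Col → Q.Fl → ℤ) (lam : Q.Col → ℤ) (x : Q.KK) : Prop :=
  ∃ g h : Q.SS, Q.ev a h ≠ 0 ∧ algebraMap Q.SS Q.KK h * x = algebraMap Q.SS Q.KK (Q.rc lam * g)

/-- `x` lies in the maximal ideal of the local ring of `a`. -/
def VanAt (Q : QData I E) (a : Q.Col → Q.Fl → ℤ) (x : Q.KK) : Prop :=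
  ∃ g h : Q.SS, Q.ev a h ≠ 0 ∧ Q.ev a g = 0 ∧
    algebraMap Q.SS Q.KK h * x = algebraMap Q.SS Q.KK g

theorem aux_add {A K : Type} [CommRing A] [CommRing K] (φ : A →+* K) {h1 h2 u1 u2 : A} {x y : K}
    (e1 : φ h1 * x = φ u1) (e2 : φ h2 * y = φ u2) :
    φ (h1 * h2) * (x + y) = φ (h2 * u1 + h1 * u2) := by
  simp only [map_mul, map_add, ← e1, ← e2]
  ring

theorem aux_mul {A K : Type} [CommRing A] [CommRing K] (φ : A →+* K) {h1 h2 u1 u2 : A} {x y : K}
    (e1 : φ h1 * x = φ u1) (e2 : φ h2 * y = φ u2) :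
    φ (h1 * h2) * (x * y) = φ (u1 * u2) := by
  simp only [map_mul, ← e1, ← e2]
  ring

theorem aux_r1 {A : Type} [CommRing A] (r g1 g2 h1 h2 : A) :
    h2 * (r * g1) + h1 * (r * g2) = r * (h2 * g1 + h1 * g2) := by ring

theorem aux_r2 {A : Type} [CommRing A] {r1 r2 r3 k : A} (g1 g2 : A) (h : r1 * r2 = r3 * k) :
    r1 * g1 * (r2 * g2) = r3 * (k * g1 * g2) := by
  calc r1 * g1 * (r2 * g2) = (r1 * r2) * (g1 * g2) := by ring
    _ = _ := by rw [h]; ring

theorem aux_r3 {A : Type} [CommRing A] (r1 r2 g1 g2 : A) :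
    r1 * g1 * (r2 * g2) = r2 * r1 * (g1 * g2) := by ring

theorem IntAt.zero {a : Q.Col → Q.Fl → ℤ} {lam : Q.Col → ℤ} : Q.IntAt a lam 0 :=
  ⟨0, 1, by simp, by simp⟩

theorem IntAt.add {a : Q.Col → Q.Fl → ℤ} {lam : Q.Col → ℤ} {x y : Q.KK}
    (hx : Q.IntAt a lam x) (hy : Q.IntAt a lam y) : Q.IntAt a lam (x + y) := by
  obtain ⟨g1, h1, hh1, e1⟩ := hx
  obtain ⟨g2, h2, hh2, e2⟩ := hy
  refine ⟨h2 * g1 + h1 * g2, h1 * h2, by rw [map_mul]; exact mul_ne_zero hh1 hh2, ?_⟩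
  rw [aux_add (algebraMap Q.SS Q.KK) e1 e2, aux_r1]

theorem IntAt.sum {a : Q.Col → Q.Fl → ℤ} {lam : Q.Col → ℤ} {ι : Type*} (s : Finset ι)
    (f : ι → Q.KK) (h : ∀ i ∈ s, Q.IntAt a lam (f i)) : Q.IntAt a lam (∑ i ∈ s, f i) :=
  Finset.sum_induction f (Q.IntAt a lam) (fun _ _ => IntAt.add) IntAt.zero h

theorem IntAt.mul {a : Q.Col → Q.Fl → ℤ} {lam mu : Q.Col → ℤ} {x y : Q.KK}
    (hx : Q.IntAt a lam x) (hy : Q.IntAt a mu y) : Q.IntAt a (lam + mu) (x * y) := by
  obtain ⟨g1, h1, hh1, e1⟩ := hx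
  obtain ⟨g2, h2, hh2, e2⟩ := hy
  obtain ⟨k, hk⟩ := rc_mul (Q := Q) lam mu
  refine ⟨k * g1 * g2, h1 * h2, by rw [map_mul]; exact mul_ne_zero hh1 hh2, ?_⟩
  rw [aux_mul (algebraMap Q.SS Q.KK) e1 e2, aux_r2 g1 g2 hk]

theorem VanAt.zero {a : Q.Col → Q.Fl → ℤ} : Q.VanAt a 0 :=
  ⟨0, 1, by simp, by simp, by simp⟩

theorem VanAt.add {a : Q.Col → Q.Fl → ℤ} {x y : Q.KK}
    (hx : Q.VanAt a x) (hy : Q.VanAt a y) : Q.VanAt a (x + y) := by
  obtain ⟨g1, h1, hh1, hg1, e1⟩ := hx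
  obtain ⟨g2, h2, hh2, hg2, e2⟩ := hy
  refine ⟨h2 * g1 + h1 * g2, h1 * h2, by rw [map_mul]; exact mul_ne_zero hh1 hh2, by
    simp [hg1, hg2], ?_⟩
  rw [aux_add (algebraMap Q.SS Q.KK) e1 e2]

theorem VanAt.sum {a : Q.Col → Q.Fl → ℤ} {ι : Type*} (s : Finset ι)
    (f : ι → Q.KK) (h : ∀ i ∈ s, Q.VanAt a (f i)) : Q.VanAt a (∑ i ∈ s, f i) :=
  Finset.sum_induction f (Q.VanAt a) (fun _ _ => VanAt.add) VanAt.zero h

theorem ev_eq_zero_of_vanAt {a : Q.Col → Q.Fl → ℤ} {f : Q.SS}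
    (h : Q.VanAt a (algebraMap Q.SS Q.KK f)) : Q.ev a f = 0 := by
  obtain ⟨g, h, hh, hg, e⟩ := h
  rw [← map_mul] at e
  have e' : h * f = g := IsFractionRing.injective Q.SS Q.KK e
  have : Q.ev a h * Q.ev a f = 0 := by rw [← map_mul, e', hg]
  exact (mul_eq_zero.mp this).resolve_left hh

/-- `a` is multiplicity-free: distinct torus coordinates at one vertex have distinct weights. -/
def MultFree (Q : QData I E) (a : Q.Col → Q.Fl → ℤ) : Prop :=
  ∀ c d : Q.Col, c.1 = d.1 → c ≠ d → a c ≠ a d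

theorem ev_eu_ne_zero {a : Q.Col → Q.Fl → ℤ} (ha : Q.MultFree a) (S : Finset Q.Col) :
    Q.ev a (Q.eu S) ≠ 0 := by
  unfold eu
  rw [map_prod, Finset.prod_ne_zero_iff]
  intro c hc
  rw [map_prod, Finset.prod_ne_zero_iff]
  intro d hd
  rw [Finset.mem_filter] at hd
  rw [map_sub, ev_X, ev_X, sub_ne_zero]
  intro h
  have hne : c ≠ d := by
    rintro rfl
    exact hd.2.2 hc
  exact ha c d hd.2.1.symm hne (lin_injective h)

theorem eu_ne_zero (S : Finset Q.Col) : Q.eu S ≠ 0 := by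
  unfold eu
  rw [Finset.prod_ne_zero_iff]
  intro c hc
  rw [Finset.prod_ne_zero_iff]
  intro d hd
  rw [Finset.mem_filter] at hd
  rw [sub_ne_zero]
  intro h
  have hne : c = d := MvPolynomial.X_injective h
  rw [hne] at hc
  exact hd.2.2 hc

theorem intAt_mon {a : Q.Col → Q.Fl → ℤ} (ha : Q.MultFree a) (n : ℤ) (S : Finset Q.Col)
    (f : Q.SS) (lam : Q.Col → ℤ) : Q.IntAt a lam ((Q.mon n S f).coeff lam) := by
  classical
  unfold mon
  rw [coeff_sum]
  apply IntAt.sum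
  intro σ _
  rw [coeff_single]
  split_ifs with h
  · rw [h]
    refine ⟨rename (Q.act σ) f, Q.eu (S.map (Q.act σ).toEmbedding), ev_eu_ne_zero ha _, ?_⟩
    rw [mul_div_cancel₀, mul_comm (Q.rc lam)]
    intro h0
    exact eu_ne_zero _ ((map_eq_zero_iff _ (IsFractionRing.injective Q.SS Q.KK)).mp h0)
  · exact IntAt.zero

theorem intAt_AF {a : Q.Col → Q.Fl → ℤ} (ha : Q.MultFree a) (x : Q.AF)
    (lam : Q.Col → ℤ) : Q.IntAt a lam (x.val.coeff lam) := by
  classical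
  obtain ⟨x, hx⟩ := x
  change Q.IntAt a lam (x.coeff lam)
  revert lam
  refine Algebra.adjoin_induction (p := fun x _ => ∀ lam, Q.IntAt a lam (x.coeff lam))
    ?_ ?_ ?_ ?_ hx
  · rintro x ⟨S, f, rfl | rfl⟩ lam
    · exact intAt_mon ha _ _ _ _
    · exact intAt_mon ha _ _ _ _
  · intro r lam
    rw [coeff_algebraMap]
    split_ifs with h
    · rw [h]
      exact ⟨r, 1, by simp, by rw [rc_zero]; simp⟩
    · exact IntAt.zero
  · intro x y _ _ hx hy lam
    rw [coeff_add]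
    exact (hx lam).add (hy lam)
  · intro x y _ _ hx hy lam
    obtain ⟨s, t, _, e⟩ := coeff_mul_sum x y lam
    rw [e]
    apply IntAt.sum
    intro m₁ _
    apply IntAt.sum
    intro m₂ _
    split_ifs with h
    · rw [← h]
      exact (hx m₁).mul (hy m₂)
    · exact IntAt.zero

/-- The cut property of a weight. -/
def Cut (Q : QData I E) (a : Q.Col → Q.Fl → ℤ) : Prop :=
  ∀ lam : Q.Col → ℤ, lam ≠ 0 → Q.ev a (Q.rc lam * Q.rc (-lam)) = 0

theorem vanAt_mul {a : Q.Col → Q.Fl → ℤ} (hc : Q.Cut a) {x y : Q.Lau}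
    (hx : ∀ lam, Q.IntAt a lam (x.coeff lam)) (hy : ∀ lam, Q.IntAt a lam (y.coeff lam))
    (hy0 : y.coeff 0 = 0) : Q.VanAt a ((x * y).coeff 0) := by
  classical
  obtain ⟨s, t, ht, e⟩ := coeff_mul_sum x y 0
  rw [e]
  apply VanAt.sum
  intro m₁ _
  apply VanAt.sum
  intro m₂ hm₂
  split_ifs with h
  · have hm : m₁ = -m₂ := eq_neg_of_add_eq_zero_left h
    have hne : m₂ ≠ 0 := by
      rintro rfl
      exact (ht _ hm₂) hy0
    obtain ⟨g1, h1, hh1, e1⟩ := hx m₁
    obtain ⟨g2, h2, hh2, e2⟩ := hy m₂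
    refine ⟨(Q.rc m₂ * Q.rc (-m₂)) * (g1 * g2), h1 * h2,
      by rw [map_mul]; exact mul_ne_zero hh1 hh2, by rw [map_mul, hc m₂ hne, zero_mul], ?_⟩
    rw [aux_mul (algebraMap Q.SS Q.KK) e1 e2, aux_r3, hm]
  · exact VanAt.zero

theorem val_mul (x y : Q.AF) : (x * y).val = x.val * y.val := rfl

theorem val_add (x y : Q.AF) : (x + y).val = x.val + y.val := rfl

theorem val_injective : Function.Injective (AF.val : Q.AF → Q.Lau) := Subtype.val_injective

theorem val_algebraMap (r : Q.RR) : (algebraMap Q.RR Q.AF r).val = algebraMap Q.RR Q.Lau r := rfl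

theorem vanAt_of_mem_J {a : Q.Col → Q.Fl → ℤ} (ha : Q.MultFree a) (hc : Q.Cut a) {ν : I → ℤ}
    {x : Q.AF} (hx : x ∈ Q.J ν) : Q.VanAt a (x.val.coeff 0) := by
  have key : ∀ y : Q.AF, Q.VanAt a ((y * x).val.coeff 0) := by
    unfold J at hx
    refine Submodule.span_induction
      (p := fun x _ => ∀ y : Q.AF, Q.VanAt a ((y * x).val.coeff 0))
      ?_ ?_ ?_ ?_ hx
    · rintro x ⟨m, hm, hx⟩ y
      have h0 : x.val.coeff 0 = 0 := by
        by_contra h0
        have := hx 0 h0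
        apply hm
        rw [← this]
        simp [nuWt]
      exact vanAt_mul hc (intAt_AF ha y) (intAt_AF ha x) h0
    · intro y
      rw [mul_zero]
      exact VanAt.zero
    · intro x x' _ _ hx hx' y
      rw [mul_add, val_add, coeff_add]
      exact (hx y).add (hx' y)
    · intro z x _ hx y
      rw [smul_eq_mul, ← mul_assoc]
      exact hx (y * z)
  have := key 1
  rwa [one_mul] at this

/-- The constant term lemma: an element of `R` that dies on the fixed scheme vanishes at every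
multiplicity-free weight with the cut property. -/
theorem ev_eq_zero_of_mem_ker {a : Q.Col → Q.Fl → ℤ} (ha : Q.MultFree a) (hc : Q.Cut a)
    {ν : I → ℤ} {f : Q.RR} (hf : algebraMap Q.RR (Q.AF ⧸ Q.J ν) f = 0) : Q.ev a f = 0 := by
  classical
  have h1 : algebraMap Q.RR Q.AF f ∈ Q.J ν := by
    rw [← Ideal.Quotient.eq_zero_iff_mem]
    exact hf
  have h2 := vanAt_of_mem_J ha hc h1
  rw [val_algebraMap, coeff_algebraMap, if_pos rfl] at h2
  exact ev_eq_zero_of_vanAt h2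

/-! ### Surjectivity -/

theorem nuWt_ind (ν : I → ℤ) (n : ℤ) (S : Finset Q.Col) :
    Q.nuWt ν (Q.ind n S) = n * ∑ c ∈ S, ν c.1 := by
  classical
  unfold nuWt ind
  simp only [mul_ite, mul_zero]
  rw [Finset.sum_ite_mem, Finset.univ_inter, Finset.mul_sum]
  exact Finset.sum_congr rfl fun c _ => mul_comm _ _

theorem sum_map_act (ν : I → ℤ) (S : Finset Q.Col) (σ : Q.Wy) :
    ∑ c ∈ S.map (Q.act σ).toEmbedding, ν c.1 = ∑ c ∈ S, ν c.1 := by
  rw [Finset.sum_map]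
  rfl

theorem sum_ne_zero_of_generic {ν : I → ℤ} (hν : Q.Generic ν) {S : Finset Q.Col}
    (hS : S.Nonempty) : ∑ c ∈ S, ν c.1 ≠ 0 := by
  classical
  have h1 : ∑ c ∈ S, ν c.1 = ∑ i, ν i * ((S.filter (fun c => c.1 = i)).card : ℤ) := by
    rw [← Finset.sum_fiberwise S (fun c => c.1) (fun c => ν c.1)]
    refine Finset.sum_congr rfl fun i _ => ?_
    rw [Finset.sum_congr rfl (g := fun _ => ν i)
      (fun c hc => by rw [(Finset.mem_filter.mp hc).2])]
    rw [Finset.sum_const, nsmul_eq_mul, mul_comm]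
  rw [h1]
  apply hν (fun i => (S.filter (fun c => c.1 = i)).card)
  · intro i
    have : (S.filter (fun c => c.1 = i)).card
        ≤ ((Finset.univ : Finset (Fin (Q.v i))).image (fun r => (⟨i, r⟩ : Q.Col))).card := by
      apply Finset.card_le_card
      rintro ⟨j, r⟩ hc
      obtain ⟨_, hj⟩ := Finset.mem_filter.mp hc
      simp only at hj
      subst hj
      exact Finset.mem_image.mpr ⟨r, Finset.mem_univ r, rfl⟩
    refine this.trans (Finset.card_image_le.trans ?_)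
    simp
  · intro h
    obtain ⟨c, hc⟩ := hS
    have := congrFun h c.1
    simp only [Pi.zero_apply, Finset.card_eq_zero] at this
    have hc' : c ∈ S.filter (fun d => d.1 = c.1) := Finset.mem_filter.mpr ⟨hc, rfl⟩
    rw [this] at hc'
    exact absurd hc' (Finset.notMem_empty _)

theorem mon_mem {n : ℤ} (hn : n = 1 ∨ n = -1) (S : Finset Q.Col) (f : Q.SS) :
    Q.mon n S f ∈ Q.AFsub := by
  apply Algebra.subset_adjoin
  rcases hn with rfl | rfl
  · exact ⟨S, f, Or.inl rfl⟩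
  · exact ⟨S, f, Or.inr rfl⟩

/-- The monopole operator as an element of `A_F`. -/
noncomputable def monA (Q : QData I E) (n : ℤ) (hn : n = 1 ∨ n = -1) (S : Finset Q.Col)
    (f : Q.SS) : Q.AF :=
  (⟨Q.mon n S f, mon_mem hn S f⟩ : Q.AFsub)

theorem monA_val {n : ℤ} (hn : n = 1 ∨ n = -1) (S : Finset Q.Col) (f : Q.SS) :
    (Q.monA n hn S f).val = Q.mon n S f := rfl

theorem mon_coeff_ne_zero {n : ℤ} {S : Finset Q.Col} {f : Q.SS} {lam : Q.Col → ℤ}
    (h : (Q.mon n S f).coeff lam ≠ 0) :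
    ∃ σ : Q.Wy, lam = Q.ind n (S.map (Q.act σ).toEmbedding) := by
  classical
  unfold mon at h
  rw [coeff_sum] at h
  obtain ⟨σ, _, hσ⟩ := Finset.exists_ne_zero_of_sum_ne_zero h
  rw [coeff_single] at hσ
  refine ⟨σ, ?_⟩
  by_contra h'
  rw [if_neg (fun e => h' e.symm)] at hσ
  exact hσ rfl

theorem monA_mem_J {ν : I → ℤ} (hν : Q.Generic ν) {n : ℤ} (hn : n = 1 ∨ n = -1)
    {S : Finset Q.Col} (hS : S.Nonempty) (f : Q.SS) : Q.monA n hn S f ∈ Q.J ν := by
  apply Ideal.subset_span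
  refine ⟨n * ∑ c ∈ S, ν c.1, ?_, ?_⟩
  · apply mul_ne_zero
    · rcases hn with rfl | rfl <;> norm_num
    · exact sum_ne_zero_of_generic hν hS
  · intro lam h
    obtain ⟨σ, hσ⟩ := mon_coeff_ne_zero h
    rw [hσ, nuWt_ind, sum_map_act]

theorem eu_empty : Q.eu ∅ = 1 := by simp [eu]

theorem ind_empty (n : ℤ) : Q.ind n ∅ = 0 := by
  funext c
  simp [ind]

/-- The average (sum over the Weyl group) of an element of `H^*_{T × F}(pt)`. -/
noncomputable def avg (Q : QData I E) (f : Q.SS) : Q.RR :=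
  ⟨∑ σ : Q.Wy, rename (Q.act σ) f, by
    intro τ
    rw [map_sum]
    have h : ∀ σ : Q.Wy, rename (Q.act τ) (rename (Q.act σ) f) = rename (Q.act (τ * σ)) f := by
      intro σ
      rw [rename_rename]
      rfl
    simp only [h]
    exact Fintype.sum_equiv (Equiv.mulLeft τ) _ _ (fun σ => rfl)⟩

theorem mon_empty (n : ℤ) (f : Q.SS) : Q.mon n ∅ f = algebraMap Q.RR Q.Lau (Q.avg f) := by
  classical
  have h : algebraMap Q.RR Q.Lau (Q.avg f)
      = Lau.single 0 (algebraMap Q.SS Q.KK (∑ σ : Q.Wy, rename (Q.act σ) f)) := rfl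
  rw [h, map_sum]
  unfold mon
  simp only [Finset.map_empty, eu_empty, ind_empty, rc_zero, map_one, div_one, mul_one]
  induction (Finset.univ : Finset Q.Wy) using Finset.induction_on with
  | empty => simp [single_zero]
  | insert i s hi ih => rw [Finset.sum_insert hi, Finset.sum_insert hi, single_add, ih]

theorem phiC_surjective {ν : I → ℤ} (hν : Q.Generic ν) :
    Function.Surjective (algebraMap Q.RR (Q.AF ⧸ Q.J ν)) := by
  intro y
  obtain ⟨⟨x, hx⟩, rfl⟩ := Ideal.Quotient.mk_surjective y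
  revert hx
  refine fun hx => Algebra.adjoin_induction
    (p := fun x hx => ∃ r : Q.RR, algebraMap Q.RR (Q.AF ⧸ Q.J ν) r
      = Ideal.Quotient.mk (Q.J ν) (⟨x, hx⟩ : Q.AFsub)) ?_ ?_ ?_ ?_ hx
  · rintro x ⟨S, f, hx⟩
    have key : ∀ (n : ℤ) (hn : n = 1 ∨ n = -1), ∃ r : Q.RR, algebraMap Q.RR (Q.AF ⧸ Q.J ν) r
        = Ideal.Quotient.mk (Q.J ν) (Q.monA n hn S f) := by
      intro n hn
      rcases S.eq_empty_or_nonempty with rfl | hS
      · refine ⟨Q.avg f, ?_⟩
        have : Q.monA n hn ∅ f = algebraMap Q.RR Q.AF (Q.avg f) :=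
          val_injective (mon_empty n f)
        rw [this]
        rfl
      · refine ⟨0, ?_⟩
        rw [map_zero, eq_comm, Ideal.Quotient.eq_zero_iff_mem]
        exact monA_mem_J hν hn hS f
    rcases hx with rfl | rfl
    · exact key 1 (Or.inl rfl)
    · exact key (-1) (Or.inr rfl)
  · intro r
    exact ⟨r, rfl⟩
  · rintro x y hx hy ⟨r, hr⟩ ⟨s, hs⟩
    refine ⟨r + s, ?_⟩
    rw [map_add, hr, hs]
    rfl
  · rintro x y hx hy ⟨r, hr⟩ ⟨s, hs⟩
    refine ⟨r * s, ?_⟩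
    rw [map_mul, hr, hs]
    rfl

end QData

end Vale.Agent.P291.H808
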