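import Vale.Agent.P291.Quiver.Defs
import Vale.Agent.P291.H808.Const

/-!
# Comparison of the two forms of the definitions
-/

set_option linter.unusedSectionVars false

namespace Vale.Agent.P291.H808

open MvPolynomial

/-- the data with the definitions of the statement -/
abbrev PQ := Vale.Agent.P291.Quiver.QData

variable {I E : Type} [Fintype I] [DecidableEq I] [Fintype E] [DecidableEq E]

/-- The same data with the definitions used in the proof. -/
abbrev old (Q : PQ I E) : QData I E := ⟨Q.s, Q.t, Q.v, Q.w⟩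

variable (Q : PQ I E)

theorem mem_inv (f : Q.SS) : f ∈ Q.inv ↔ (f : (old Q).SS) ∈ (old Q).RR := by
  unfold Quiver.QData.inv
  rw [Subring.mem_iInf]
  exact Iff.rfl

theorem mem_alg (x : Q.Lau) : x ∈ Q.alg ↔ (x : (old Q).Lau) ∈ (old Q).AFsub := by
  constructor
  · intro hx
    refine Subring.closure_induction (p := fun x _ => (x : (old Q).Lau) ∈ (old Q).AFsub)
      ?_ ?_ ?_ ?_ ?_ ?_ hx
    · rintro x (⟨r, rfl⟩ | ⟨S, f, hx⟩)
      · exact (old Q).AFsub.algebraMap_mem ⟨Q.toSS r, (mem_inv Q _).mp r.2⟩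
      · exact Algebra.subset_adjoin ⟨S, f, hx⟩
    · exact (old Q).AFsub.zero_mem
    · exact (old Q).AFsub.one_mem
    · exact fun x y _ _ hx hy => (old Q).AFsub.add_mem hx hy
    · exact fun x _ hx => (old Q).AFsub.neg_mem hx
    · exact fun x y _ _ hx hy => (old Q).AFsub.mul_mem hx hy
  · intro hx
    refine Algebra.adjoin_induction (R := (old Q).RR) (A := (old Q).Lau)
      (p := fun (x : (old Q).Lau) _ => (x : Q.Lau) ∈ Q.alg) ?_ ?_ ?_ ?_ hx
    · rintro x ⟨S, f, hx⟩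
      exact Subring.subset_closure (Or.inr ⟨S, f, hx⟩)
    · intro r
      exact Subring.subset_closure (Or.inl ⟨⟨r.1, (mem_inv Q _).mpr r.2⟩, rfl⟩)
    · exact fun x y _ _ hx hy => Q.alg.add_mem hx hy
    · exact fun x y _ _ hx hy => Q.alg.mul_mem hx hy

/-- The two forms of `A_F`. -/
noncomputable def eAF : Q.AF ≃+* (old Q).AF where
  toFun x := ⟨x.1, (mem_alg Q x.1).mp x.2⟩
  invFun x := ⟨x.1, (mem_alg Q x.1).mpr x.2⟩
  left_inv _ := rfl
  right_inv _ := rfl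
  map_mul' _ _ := rfl
  map_add' _ _ := rfl

theorem eAF_J (ν : I → ℤ) (x : Q.AF) : x ∈ Q.J ν ↔ eAF Q x ∈ (old Q).J ν := by
  constructor
  · intro hx
    refine Submodule.span_induction (p := fun x _ => eAF Q x ∈ (old Q).J ν) ?_ ?_ ?_ ?_ hx
    · rintro x ⟨m, hm, h⟩
      exact Ideal.subset_span ⟨m, hm, h⟩
    · rw [map_zero]
      exact ((old Q).J ν).zero_mem
    · intro x y _ _ hx hy
      rw [map_add]
      exact ((old Q).J ν).add_mem hx hy
    · intro a x _ hx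
      rw [smul_eq_mul, map_mul]
      exact ((old Q).J ν).mul_mem_left _ hx
  · intro hx
    have h : ∀ y, y ∈ (old Q).J ν → (eAF Q).symm y ∈ Q.J ν := by
      intro y hy
      refine Submodule.span_induction (p := fun y _ => (eAF Q).symm y ∈ Q.J ν) ?_ ?_ ?_ ?_ hy
      · rintro x ⟨m, hm, h⟩
        exact Ideal.subset_span ⟨m, hm, h⟩
      · rw [map_zero]
        exact (Q.J ν).zero_mem
      · intro x y _ _ hx hy
        rw [map_add]
        exact (Q.J ν).add_mem hx hy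
      · intro a x _ hx
        rw [smul_eq_mul, map_mul]
        exact (Q.J ν).mul_mem_left _ hx
    have h1 := h _ hx
    rwa [RingEquiv.symm_apply_apply] at h1

/-- The two forms of `R`. -/
noncomputable def eRR (r : Q.RR) : (old Q).RR := ⟨Q.toSS r, (mem_inv Q _).mp r.2⟩

theorem phiC_eq_zero (ν : I → ℤ) (r : Q.RR) :
    Q.phiC ν r = 0 ↔ algebraMap (old Q).RR ((old Q).AF ⧸ (old Q).J ν) (eRR Q r) = 0 := by
  have h1 : Q.phiC ν r = 0 ↔ Q.toAF r ∈ Q.J ν := Ideal.Quotient.eq_zero_iff_mem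
  have h2 : algebraMap (old Q).RR ((old Q).AF ⧸ (old Q).J ν) (eRR Q r) = 0 ↔
    algebraMap (old Q).RR (old Q).AF (eRR Q r) ∈ (old Q).J ν := Ideal.Quotient.eq_zero_iff_mem
  rw [h1, h2, eAF_J]
  exact Iff.rfl

theorem phiC_surj (ν : I → ℤ)
    (h : Function.Surjective (algebraMap (old Q).RR ((old Q).AF ⧸ (old Q).J ν))) :
    Function.Surjective (Q.phiC ν) := by
  intro y
  obtain ⟨x, rfl⟩ := Ideal.Quotient.mk_surjective y
  obtain ⟨r, hr⟩ := h (Ideal.Quotient.mk _ (eAF Q x))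
  refine ⟨⟨r.1, (mem_inv Q _).mpr r.2⟩, ?_⟩
  have h1 : algebraMap (old Q).RR (old Q).AF r - eAF Q x ∈ (old Q).J ν := by
    rw [← Ideal.Quotient.eq_zero_iff_mem, map_sub, sub_eq_zero]
    exact hr
  have h2 : Q.toAF ⟨r.1, (mem_inv Q _).mpr r.2⟩ - x ∈ Q.J ν := by
    rw [eAF_J, map_sub]
    exact h1
  rw [← Ideal.Quotient.eq_zero_iff_mem, map_sub, sub_eq_zero] at h2
  exact h2

/-! ### Fixed points -/

/-- a representation in the other form -/
def toOld {Q : PQ I E} (x : Q.Rep) : (old Q).Rep :=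
  ⟨x.B, x.Bs, x.out, x.inn, x.hB, x.hBs, x.hout, x.hinn⟩

/-- a representation in the other form -/
def ofOld {Q : PQ I E} (x : (old Q).Rep) : Q.Rep :=
  ⟨x.B, x.Bs, x.out, x.inn, x.hB, x.hBs, x.hout, x.hinn⟩

theorem isSub_toOld {Q : PQ I E} (x : Q.Rep) (S : Submodule ℂ (Q.Col → ℂ)) :
    (toOld x).IsSub S ↔ x.IsSub S :=
  ⟨fun h => ⟨h.graded, h.B, h.Bs⟩, fun h => ⟨h.graded, h.B, h.Bs⟩⟩

theorem stable_toOld {Q : PQ I E} (ν : I → ℤ) (x : Q.Rep) (h : x.Stable ν) :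
    (toOld x).Stable ν :=
  ⟨fun S hS h1 h2 => h.1 S ((isSub_toOld x S).mp hS) h1 h2,
    fun S hS h1 h2 => h.2 S ((isSub_toOld x S).mp hS) h1 h2⟩

theorem stable_ofOld {Q : PQ I E} (ν : I → ℤ) (x : (old Q).Rep) (h : x.Stable ν) :
    (ofOld x).Stable ν :=
  ⟨fun S hS h1 h2 => h.1 S ((isSub_toOld (ofOld x) S).mpr hS) h1 h2,
    fun S hS h1 h2 => h.2 S ((isSub_toOld (ofOld x) S).mpr hS) h1 h2⟩

theorem fixedWt_iff (ν : I → ℤ) (a : Q.Col → Q.Fl → ℤ) :
    Q.FixedWt ν a ↔ (old Q).FixedWt ν a := by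
  constructor
  · rintro ⟨x, h1, h2, h3, h4, h5, h6⟩
    exact ⟨toOld x, h1, stable_toOld ν x h2, h3, h4, h5, h6⟩
  · rintro ⟨x, h1, h2, h3, h4, h5, h6⟩
    exact ⟨ofOld x, h1, stable_ofOld ν x h2, h3, h4, h5, h6⟩

theorem ev_eq (a : Q.Col → Q.Fl → ℤ) (f : Q.SS) : Q.ev a f = (old Q).ev a f := rfl

theorem mem_kerH (ν : I → ℤ) (r : Q.RR) : r ∈ Q.kerH ν ↔ eRR Q r ∈ (old Q).kerH ν := by
  unfold Quiver.QData.kerH
  rw [Submodule.mem_sInf]
  constructor
  · intro h a ha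
    have h1 := h _ ⟨a, (fixedWt_iff Q ν a).mpr ha, rfl⟩
    rw [RingHom.mem_ker] at h1
    have h2 : Q.ev a (Q.toSS r) = 0 := h1
    rw [ev_eq] at h2
    exact h2
  · rintro h K ⟨a, ha, rfl⟩
    rw [RingHom.mem_ker]
    have h1 := h a ((fixedWt_iff Q ν a).mp ha)
    change Q.ev a (Q.toSS r) = 0
    rw [ev_eq]
    exact h1

/-- Hikita's statement in the two forms. -/
theorem hikita_of_old (ν : I → ℤ)
    (h : Function.Surjective (algebraMap (old Q).RR ((old Q).AF ⧸ (old Q).J ν)) ∧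
      RingHom.ker (algebraMap (old Q).RR ((old Q).AF ⧸ (old Q).J ν)) = (old Q).kerH ν) :
    Function.Surjective (Q.phiC ν) ∧ RingHom.ker (Q.phiC ν) = Q.kerH ν := by
  refine ⟨phiC_surj Q ν h.1, ?_⟩
  ext r
  rw [RingHom.mem_ker, phiC_eq_zero, mem_kerH, ← h.2, RingHom.mem_ker]

end Vale.Agent.P291.H808
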