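import Vale.Agent.P291.H808.Tree

/-!
# Spanning forests give fixed point weights, for every generic `ν`
-/

set_option linter.unusedSectionVars false
set_option linter.unusedVariables false
set_option linter.unusedSimpArgs false

namespace Vale.Agent.P291.H808

open MvPolynomial

namespace QData

variable {I E : Type} [Fintype I] [DecidableEq I] [Fintype E] [DecidableEq E] {Q : QData I E}

/-- `χ` of the parent, zero for children of the root. -/
def pchi (par : Q.Col → Q.Frm ⊕ Q.Col × E) (χ : Q.Col → ℤ) (d : Q.Col) : ℤ :=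
  Sum.elim (fun _ => 0) (fun ce => χ ce.1) (par d)

/-- A spanning forest, attached to the framing, whose edges have weight zero, together with the
flow `n` it carries. -/
structure Forest (Q : QData I E) (ν : I → ℤ) (a : Q.Col → Q.Fl → ℤ)
    (par : Q.Col → Q.Frm ⊕ Q.Col × E) (n : Q.Col → ℤ) : Prop where
  fr : ∀ c l, par c = Sum.inl l → l.1 = c.1 ∧ Q.chr (Sum.inr l) - a c = 0
  ed : ∀ c d e, par c = Sum.inr (d, e) →
    (c.1 = Q.t e ∧ d.1 = Q.s e ∧ a c - a d + Q.chr (Sum.inl e) = 0) ∨
    (c.1 = Q.s e ∧ d.1 = Q.t e ∧ a d - a c + Q.chr (Sum.inl e) = 0)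
  two : ∀ c d e e', par c = Sum.inr (d, e) → par d ≠ Sum.inr (c, e')
  flow : ∀ χ : Q.Col → ℤ, ∑ c, χ c * ν c.1 = ∑ d, (χ d - pchi par χ d) * n d

/-- There is an arrow from `d` to `c` with label `e`. -/
def Arr (par : Q.Col → Q.Frm ⊕ Q.Col × E) (n : Q.Col → ℤ) (e : E) (c d : Q.Col) : Prop :=
  (par c = Sum.inr (d, e) ∧ 0 ≤ n c) ∨ (par d = Sum.inr (c, e) ∧ n d < 0)

theorem Forest.not_arr {ν : I → ℤ} {a : Q.Col → Q.Fl → ℤ} {par : Q.Col → Q.Frm ⊕ Q.Col × E}
    {n : Q.Col → ℤ} (h : Forest Q ν a par n) {e : E} {c d : Q.Col} (h1 : Arr par n e c d)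
    (h2 : Arr par n e d c) : False := by
  rcases h1 with ⟨h1, h1'⟩ | ⟨h1, h1'⟩ <;> rcases h2 with ⟨h2, h2'⟩ | ⟨h2, h2'⟩
  · exact h.two c d e e h1 h2
  · omega
  · omega
  · exact h.two d c e e h1 h2

open Classical in
/-- The representation attached to a forest: one nonzero coordinate for every edge, in the
direction given by the sign of the flow. -/
noncomputable def forestRep {ν : I → ℤ} {a : Q.Col → Q.Fl → ℤ}
    {par : Q.Col → Q.Frm ⊕ Q.Col × E} {n : Q.Col → ℤ} (h : Forest Q ν a par n) : Q.Rep where
  B e := fun c d => if c.1 = Q.t e ∧ d.1 = Q.s e ∧ a c - a d + Q.chr (Sum.inl e) = 0 ∧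
    Arr par n e c d then 1 else 0
  Bs e := fun d c => if d.1 = Q.s e ∧ c.1 = Q.t e ∧ a c - a d + Q.chr (Sum.inl e) = 0 ∧
    Arr par n e d c then 1 else 0
  out := fun l c => if par c = Sum.inl l ∧ n c < 0 then 1 else 0
  inn := fun c l => if par c = Sum.inl l ∧ 0 ≤ n c then 1 else 0
  hB := by
    intro e c d hne
    by_contra hc
    exact hne (if_neg (fun h' => hc ⟨h'.1, h'.2.1⟩))
  hBs := by
    intro e c d hne
    by_contra hc
    exact hne (if_neg (fun h' => hc ⟨h'.1, h'.2.1⟩))
  hout := by
    intro l c hne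
    by_contra hc
    exact hne (if_neg (fun h' => hc (h.fr c l h'.1).1))
  hinn := by
    intro c l hne
    by_contra hc
    exact hne (if_neg (fun h' => hc (h.fr c l h'.1).1))

section forest

variable {ν : I → ℤ} {a : Q.Col → Q.Fl → ℤ} {par : Q.Col → Q.Frm ⊕ Q.Col × E}
  {n : Q.Col → ℤ} (h : Forest Q ν a par n)

theorem forest_B {e : E} {c d : Q.Col} (hne : (forestRep h).B e c d ≠ 0) :
    c.1 = Q.t e ∧ d.1 = Q.s e ∧ a c - a d + Q.chr (Sum.inl e) = 0 ∧ Arr par n e c d := by
  by_contra hc
  exact hne (if_neg hc)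

theorem forest_Bs {e : E} {c d : Q.Col} (hne : (forestRep h).Bs e d c ≠ 0) :
    d.1 = Q.s e ∧ c.1 = Q.t e ∧ a c - a d + Q.chr (Sum.inl e) = 0 ∧ Arr par n e d c := by
  by_contra hc
  exact hne (if_neg hc)

theorem forest_out {l : Q.Frm} {c : Q.Col} (hne : (forestRep h).out l c ≠ 0) :
    par c = Sum.inl l ∧ n c < 0 := by
  by_contra hc
  exact hne (if_neg hc)

theorem forest_inn {l : Q.Frm} {c : Q.Col} (hne : (forestRep h).inn c l ≠ 0) :
    par c = Sum.inl l ∧ 0 ≤ n c := by
  by_contra hc
  exact hne (if_neg hc)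

theorem forest_B_one {e : E} {c d : Q.Col} (h1 : c.1 = Q.t e) (h2 : d.1 = Q.s e)
    (h3 : a c - a d + Q.chr (Sum.inl e) = 0) (h4 : Arr par n e c d) :
    (forestRep h).B e c d ≠ 0 := by
  have : (forestRep h).B e c d = 1 := if_pos ⟨h1, h2, h3, h4⟩
  rw [this]
  exact one_ne_zero

theorem forest_Bs_one {e : E} {c d : Q.Col} (h1 : d.1 = Q.s e) (h2 : c.1 = Q.t e)
    (h3 : a c - a d + Q.chr (Sum.inl e) = 0) (h4 : Arr par n e d c) :
    (forestRep h).Bs e d c ≠ 0 := by
  have : (forestRep h).Bs e d c = 1 := if_pos ⟨h1, h2, h3, h4⟩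
  rw [this]
  exact one_ne_zero

theorem forest_out_one {l : Q.Frm} {c : Q.Col} (h1 : par c = Sum.inl l) (h2 : n c < 0) :
    (forestRep h).out l c ≠ 0 := by
  have : (forestRep h).out l c = 1 := if_pos ⟨h1, h2⟩
  rw [this]
  exact one_ne_zero

theorem forest_inn_one {l : Q.Frm} {c : Q.Col} (h1 : par c = Sum.inl l) (h2 : 0 ≤ n c) :
    (forestRep h).inn c l ≠ 0 := by
  have : (forestRep h).inn c l = 1 := if_pos ⟨h1, h2⟩
  rw [this]
  exact one_ne_zero

theorem forest_wt : WtRep a (forestRep h) where
  B e c d hne := (forest_B h hne).2.2.1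
  Bs e d c hne := (forest_Bs h hne).2.2.1
  out l c hne := (h.fr c l (forest_out h hne).1).2
  inn c l hne := (h.fr c l (forest_inn h hne).1).2

theorem forest_moment (ha : Q.MultFree a) : (forestRep h).moment = 0 := by
  have key : ∀ c c' : Q.Col, c.1 = c'.1 → a c = a c' → c = c' := by
    intro c c' h1 h2
    by_contra hne
    exact ha c c' h1 hne h2
  have h1 : ∀ e, (forestRep h).B e * (forestRep h).Bs e = 0 := by
    intro e
    ext c c'
    rw [Matrix.mul_apply, Matrix.zero_apply]
    refine Finset.sum_eq_zero fun d _ => ?_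
    by_contra hne
    obtain ⟨h2, h3⟩ := mul_ne_zero_iff.mp hne
    obtain ⟨a1, a2, a3, a4⟩ := forest_B h h2
    obtain ⟨b1, b2, b3, b4⟩ := forest_Bs h h3
    have hcc : c = c' := by
      apply key _ _ (a1.trans b2.symm)
      funext k
      have e1 := congrFun a3 k
      have e2 := congrFun b3 k
      simp only [Pi.add_apply, Pi.sub_apply, Pi.zero_apply] at e1 e2
      linarith
    subst hcc
    exact h.not_arr a4 b4
  have h2 : ∀ e, (forestRep h).Bs e * (forestRep h).B e = 0 := by
    intro e
    ext d d'
    rw [Matrix.mul_apply, Matrix.zero_apply]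
    refine Finset.sum_eq_zero fun c _ => ?_
    by_contra hne
    obtain ⟨h2, h3⟩ := mul_ne_zero_iff.mp hne
    obtain ⟨a1, a2, a3, a4⟩ := forest_Bs h h2
    obtain ⟨b1, b2, b3, b4⟩ := forest_B h h3
    have hcc : d = d' := by
      apply key _ _ (a1.trans b2.symm)
      funext k
      have e1 := congrFun a3 k
      have e2 := congrFun b3 k
      simp only [Pi.add_apply, Pi.sub_apply, Pi.zero_apply] at e1 e2
      linarith
    subst hcc
    exact h.not_arr a4 b4
  have h3 : (forestRep h).inn * (forestRep h).out = 0 := by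
    ext c c'
    rw [Matrix.mul_apply, Matrix.zero_apply]
    refine Finset.sum_eq_zero fun l _ => ?_
    by_contra hne
    obtain ⟨h2, h3⟩ := mul_ne_zero_iff.mp hne
    obtain ⟨a1, a2⟩ := forest_inn h h2
    obtain ⟨b1, b2⟩ := forest_out h h3
    have hcc : c = c' := by
      apply key _ _ ((h.fr c l a1).1.symm.trans (h.fr c' l b1).1)
      have e1 := (h.fr c l a1).2
      have e2 := (h.fr c' l b1).2
      rw [sub_eq_zero] at e1 e2
      rw [← e1, e2]
    subst hcc
    omega
  unfold Rep.moment
  simp only [h1, h2, h3, sub_self, Finset.sum_const_zero]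

theorem forest_stable (hν : Q.Generic ν) (ha : Q.MultFree a) : (forestRep h).Stable ν := by
  classical
  obtain ⟨y, hy⟩ := exists_key ha
  have hx := forest_wt h
  -- closure of leading positions under the arrows
  have down : ∀ S : Submodule ℂ (Q.Col → ℂ), (forestRep h).IsSub S → ∀ c d e,
      par c = Sum.inr (d, e) → 0 ≤ n c → LT a y S d → LT a y S c := by
    intro S hS c d e hp hn hd
    have hA : Arr par n e c d := Or.inl ⟨hp, hn⟩
    rcases h.ed c d e hp with ⟨h1, h2, h3⟩ | ⟨h1, h2, h3⟩
    · exact LT.B hy hx hS (forest_B_one h h1 h2 h3 hA) hd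
    · exact LT.Bs hy hx hS (forest_Bs_one h h1 h2 h3 hA) hd
  have up : ∀ S : Submodule ℂ (Q.Col → ℂ), (forestRep h).IsSub S → ∀ c d e,
      par c = Sum.inr (d, e) → n c < 0 → LT a y S c → LT a y S d := by
    intro S hS c d e hp hn hc
    have hA : Arr par n e d c := Or.inr ⟨hp, hn⟩
    rcases h.ed c d e hp with ⟨h1, h2, h3⟩ | ⟨h1, h2, h3⟩
    · exact LT.Bs hy hx hS (forest_Bs_one h h2 h1 h3 hA) hc
    · exact LT.B hy hx hS (forest_B_one h h2 h1 h3 hA) hc
  constructor
  · intro S hS hout hne
    set T := Finset.univ.filter (fun c : Q.Col => LT a y S c) with hT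
    have hdim : Q.dimNu ν S = ∑ c ∈ T, ν c.1 := dimNu_LT hy hS ν
    have hTne : T.Nonempty := by
      by_contra hemp
      rw [Finset.not_nonempty_iff_eq_empty] at hemp
      apply hne
      rw [Submodule.eq_bot_iff]
      intro u hu
      funext c
      have h1 := finrank_LT hy hS c.1
      have h2 : (Finset.univ.filter (fun d : Q.Col => d.1 = c.1 ∧ LT a y S d)) = ∅ := by
        rw [Finset.filter_eq_empty_iff]
        rintro d _ ⟨_, hd⟩
        have : d ∈ T := Finset.mem_filter.mpr ⟨Finset.mem_univ _, hd⟩
        rw [hemp] at this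
        exact absurd this (Finset.notMem_empty _)
      rw [h2, Finset.card_empty, Submodule.finrank_eq_zero] at h1
      have h3 : Q.pr c.1 u ∈ S.map (Q.pr c.1) := ⟨u, hu, rfl⟩
      rw [h1, Submodule.mem_bot] at h3
      have h4 := congrFun h3 c
      rw [pr_apply, if_pos rfl] at h4
      exact h4
    have hne0 : ∑ c ∈ T, ν c.1 ≠ 0 := sum_ne_zero_of_generic hν hTne
    have hfl := h.flow (fun c => if LT a y S c then 1 else 0)
    have hl : ∑ c, (if LT a y S c then (1 : ℤ) else 0) * ν c.1 = ∑ c ∈ T, ν c.1 := by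
      rw [hT, Finset.sum_filter]
      refine Finset.sum_congr rfl fun c _ => ?_
      split_ifs <;> simp
    rw [hl] at hfl
    have hnn : 0 ≤ ∑ c ∈ T, ν c.1 := by
      rw [hfl]
      apply Finset.sum_nonneg
      intro d _
      rcases hp : par d with l | ⟨c, e⟩
      · simp only [pchi, hp, Sum.elim_inl, sub_zero]
        split_ifs with hd
        · rw [one_mul]
          by_contra hneg
          push Not at hneg
          exact forest_out_one h hp hneg (LT.out hy hx hout hd l)
        · simp
      · simp only [pchi, hp, Sum.elim_inr]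
        by_cases hd : LT a y S d <;> by_cases hc : LT a y S c
        · simp [hd, hc]
        · simp only [hd, hc, if_true, if_false, sub_zero, one_mul]
          by_contra hneg
          push Not at hneg
          exact hc (up S hS d c e hp hneg hd)
        · simp only [hd, hc, if_true, if_false, zero_sub]
          by_contra hneg
          push Not at hneg
          have : 0 ≤ n d := by linarith
          exact hd (down S hS d c e hp this hc)
        · simp [hd, hc]
    rw [hdim]
    exact lt_of_le_of_ne hnn hne0.symm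
  · intro S hS hinn hne
    set T := Finset.univ.filter (fun c : Q.Col => LT a y S c) with hT
    set T' := Finset.univ.filter (fun c : Q.Col => ¬ LT a y S c) with hT'
    have hdim : Q.dimNu ν S = ∑ c ∈ T, ν c.1 := dimNu_LT hy hS ν
    have htot : ∑ i, ν i * (Q.v i : ℤ) = ∑ c : Q.Col, ν c.1 := by
      rw [Fintype.sum_sigma]
      refine Finset.sum_congr rfl fun i _ => ?_
      simp [mul_comm]
    have hsplit : (∑ c ∈ T, ν c.1) + ∑ c ∈ T', ν c.1 = ∑ c : Q.Col, ν c.1 :=
      Finset.sum_filter_add_sum_filter_not _ _ _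
    have hTne : T'.Nonempty := by
      by_contra hemp
      rw [Finset.not_nonempty_iff_eq_empty] at hemp
      apply hne
      have hall : ∀ c, LT a y S c := by
        intro c
        by_contra hc
        have : c ∈ T' := Finset.mem_filter.mpr ⟨Finset.mem_univ _, hc⟩
        rw [hemp] at this
        exact absurd this (Finset.notMem_empty _)
      have hpr : ∀ i, S.map (Q.pr i) = LinearMap.range (Q.pr i) := by
        intro i
        apply Submodule.eq_of_le_of_finrank_eq
        · rintro _ ⟨u, _, rfl⟩
          exact ⟨u, rfl⟩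
        · rw [finrank_range_pr, finrank_LT hy hS i]
          have h2 : (Finset.univ.filter (fun d : Q.Col => d.1 = i ∧ LT a y S d))
              = (Finset.univ : Finset (Fin (Q.v i))).map
                ⟨fun r => (⟨i, r⟩ : Q.Col), fun r r' hrr => by
                  have := (Sigma.mk.inj_iff.mp hrr).2
                  exact eq_of_heq this⟩ := by
            ext ⟨j, r⟩
            simp only [Finset.mem_filter, Finset.mem_univ, true_and, Finset.mem_map,
              Function.Embedding.coeFn_mk]
            constructor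
            · rintro ⟨rfl, _⟩
              exact ⟨r, rfl⟩
            · rintro ⟨r', hr'⟩
              exact ⟨(congrArg Sigma.fst hr').symm, hall _⟩
          rw [h2, Finset.card_map, Finset.card_univ, Fintype.card_fin]
      rw [Submodule.eq_top_iff']
      intro u
      have hu : u = ∑ i, Q.pr i u := by
        funext c
        rw [Finset.sum_apply]
        simp only [pr_apply]
        rw [Finset.sum_ite_eq]
        simp
      rw [hu]
      apply Submodule.sum_mem
      intro i _
      have h3 : Q.pr i u ∈ S.map (Q.pr i) := by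
        rw [hpr i]
        exact ⟨u, rfl⟩
      obtain ⟨u', hu', hu''⟩ := h3
      rw [← hu'']
      exact hS.graded i u' hu'
    have hne0 : ∑ c ∈ T', ν c.1 ≠ 0 := sum_ne_zero_of_generic hν hTne
    have hfl := h.flow (fun c => if LT a y S c then 0 else 1)
    have hl : ∑ c, (if LT a y S c then (0 : ℤ) else 1) * ν c.1 = ∑ c ∈ T', ν c.1 := by
      rw [hT', Finset.sum_filter]
      refine Finset.sum_congr rfl fun c _ => ?_
      by_cases hc : LT a y S c <;> simp [hc]
    rw [hl] at hfl
    have hnn : ∑ c ∈ T', ν c.1 ≤ 0 := by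
      rw [hfl]
      apply Finset.sum_nonpos
      intro d _
      rcases hp : par d with l | ⟨c, e⟩
      · simp only [pchi, hp, Sum.elim_inl, sub_zero]
        by_cases hd : LT a y S d
        · simp [hd]
        · simp only [hd, if_false, one_mul]
          by_contra hneg
          push Not at hneg
          exact hd (LT.inn hy hx hinn (forest_inn_one h hp hneg.le))
      · simp only [pchi, hp, Sum.elim_inr]
        by_cases hd : LT a y S d <;> by_cases hc : LT a y S c
        · simp [hd, hc]
        · simp only [hd, hc, if_true, if_false, zero_sub]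
          by_contra hneg
          push Not at hneg
          have : n d < 0 := by linarith
          exact hc (up S hS d c e hp this hd)
        · simp only [hd, hc, if_true, if_false, sub_zero, one_mul]
          by_contra hneg
          push Not at hneg
          exact hd (down S hS d c e hp hneg.le hc)
        · simp [hd, hc]
    rw [hdim, htot, ← hsplit]
    have := lt_of_le_of_ne hnn hne0
    linarith

include h in
/-- A multiplicity-free weight with a spanning forest is a fixed point weight. -/
theorem Forest.fixedWt (hν : Q.Generic ν) (ha : Q.MultFree a) : Q.FixedWt ν a :=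
  ⟨forestRep h, forest_moment h ha, forest_stable h hν ha, (forest_wt h).B,
    (forest_wt h).Bs, (forest_wt h).out, (forest_wt h).inn⟩

end forest

end QData

end Vale.Agent.P291.H808
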