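import Vale.Agent.P291.H808.TwoOne

/-!
# Fixed point weights for dimension vector `(2, 1)` are multiplicity-free
-/

set_option linter.unusedSectionVars false
set_option linter.unusedSimpArgs false

namespace Vale.Agent.P291.H808

open MvPolynomial

namespace QData

variable {E : Type} [Fintype E] [DecidableEq E] (s t : E → Fin 2) (w : Fin 2 → ℕ)

theorem univ_col : (Finset.univ : Finset (Q21 s t w).Col)
    = {p0 s t w, p1 s t w, qq s t w} := by
  ext c
  simp only [Finset.mem_univ, Finset.mem_insert, Finset.mem_singleton, true_iff]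
  exact col_cases s t w c

theorem sum_col {M : Type*} [AddCommMonoid M] (F : (Q21 s t w).Col → M) :
    ∑ c, F c = F (p0 s t w) + F (p1 s t w) + F (qq s t w) := by
  rw [univ_col, Finset.sum_insert, Finset.sum_pair (qq_ne_p1 s t w).symm, add_assoc]
  simp [(p1_ne_p0 s t w).symm, (qq_ne_p0 s t w).symm]

theorem fin2' (i : Fin 2) : i = 0 ∨ i = 1 := by
  fin_cases i
  · left; rfl
  · right; rfl

/-- a function on colours with given values -/
def col3 {T : Type} (x y z : T) : (Q21 s t w).Col → T :=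
  fun c => if c = p0 s t w then x else if c = p1 s t w then y else z

theorem col3_p0 {T : Type} (x y z : T) : col3 s t w x y z (p0 s t w) = x := by simp [col3]
theorem col3_p1 {T : Type} (x y z : T) : col3 s t w x y z (p1 s t w) = y := by
  simp [col3, p1_ne_p0]
theorem col3_qq {T : Type} (x y z : T) : col3 s t w x y z (qq s t w) = z := by
  simp [col3, qq_ne_p0, qq_ne_p1]

/-- the endomorphism `k ⊗ l` on vertex 0 and `z` on vertex 1 -/
noncomputable def xi (k0 k1 l0 l1 z : ℂ) : Matrix (Q21 s t w).Col (Q21 s t w).Col ℂ :=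
  fun c d => col3 s t w k0 k1 0 c * col3 s t w l0 l1 0 d
    + z * (col3 s t w 0 0 1 c * col3 s t w 0 0 1 d)

theorem vert_ne {c d : (Q21 s t w).Col} (hc : c.1 = 0) (hd : d.1 = 1) : c.1 ≠ d.1 := by
  rw [hc, hd]
  decide

theorem xi_graded (k0 k1 l0 l1 z : ℂ) : (Q21 s t w).Graded (xi s t w k0 k1 l0 l1 z) := by
  intro c d h
  rcases col_cases s t w c with rfl | rfl | rfl <;> rcases col_cases s t w d with rfl | rfl | rfl
  all_goals first
    | rfl
    | (exfalso; apply h; simp [xi, col3_p0, col3_p1, col3_qq])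

theorem xi_commute (k0 k1 l0 l1 z : ℂ) (M : Matrix (Q21 s t w).Col (Q21 s t w).Col ℂ)
    (h00 : ∀ c d : (Q21 s t w).Col, c.1 = d.1 → M c d = 0)
    (h1 : z * M (qq s t w) (p0 s t w)
      = (M (qq s t w) (p0 s t w) * k0 + M (qq s t w) (p1 s t w) * k1) * l0)
    (h2 : z * M (qq s t w) (p1 s t w)
      = (M (qq s t w) (p0 s t w) * k0 + M (qq s t w) (p1 s t w) * k1) * l1)
    (h3 : k0 * (l0 * M (p0 s t w) (qq s t w) + l1 * M (p1 s t w) (qq s t w))
      = M (p0 s t w) (qq s t w) * z)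
    (h4 : k1 * (l0 * M (p0 s t w) (qq s t w) + l1 * M (p1 s t w) (qq s t w))
      = M (p1 s t w) (qq s t w) * z) :
    xi s t w k0 k1 l0 l1 z * M = M * xi s t w k0 k1 l0 l1 z := by
  have z1 : M (p0 s t w) (p0 s t w) = 0 := h00 _ _ rfl
  have z2 : M (p0 s t w) (p1 s t w) = 0 := h00 _ _ rfl
  have z3 : M (p1 s t w) (p0 s t w) = 0 := h00 _ _ rfl
  have z4 : M (p1 s t w) (p1 s t w) = 0 := h00 _ _ rfl
  have z5 : M (qq s t w) (qq s t w) = 0 := h00 _ _ rfl
  ext c d
  rw [Matrix.mul_apply, Matrix.mul_apply, sum_col, sum_col]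
  rcases col_cases s t w c with rfl | rfl | rfl <;> rcases col_cases s t w d with rfl | rfl | rfl <;>
    simp only [xi, col3_p0, col3_p1, col3_qq, z1, z2, z3, z4, z5, mul_zero, zero_mul, add_zero,
      zero_add, mul_one, one_mul] <;>
    first
      | ring1
      | linear_combination h1
      | linear_combination h2
      | linear_combination h3
      | linear_combination h4

/-- The conditions for `xi` to commute with `M`. -/
def Good (k0 k1 l0 l1 z : ℂ) (M : Matrix (Q21 s t w).Col (Q21 s t w).Col ℂ) : Prop :=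
  (z * M (qq s t w) (p0 s t w)
      = (M (qq s t w) (p0 s t w) * k0 + M (qq s t w) (p1 s t w) * k1) * l0) ∧
  (z * M (qq s t w) (p1 s t w)
      = (M (qq s t w) (p0 s t w) * k0 + M (qq s t w) (p1 s t w) * k1) * l1) ∧
  (k0 * (l0 * M (p0 s t w) (qq s t w) + l1 * M (p1 s t w) (qq s t w))
      = M (p0 s t w) (qq s t w) * z) ∧
  (k1 * (l0 * M (p0 s t w) (qq s t w) + l1 * M (p1 s t w) (qq s t w))
      = M (p1 s t w) (qq s t w) * z)

theorem good_zero (k0 k1 l0 l1 z : ℂ) : Good s t w k0 k1 l0 l1 z 0 := by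
  refine ⟨?_, ?_, ?_, ?_⟩ <;> simp

theorem xi_zero {ν : Fin 2 → ℤ} {x : (Q21 s t w).Rep} (hx : x.Stable ν) (k0 k1 l0 l1 z : ℂ)
    (h00 : ∀ e (c d : (Q21 s t w).Col), c.1 = d.1 → x.B e c d = 0 ∧ x.Bs e c d = 0)
    (hB : ∀ e, Good s t w k0 k1 l0 l1 z (x.B e)) (hBs : ∀ e, Good s t w k0 k1 l0 l1 z (x.Bs e))
    (hout : ∀ l, (x.out l (p0 s t w) * k0 + x.out l (p1 s t w) * k1) * l0 = 0 ∧
      (x.out l (p0 s t w) * k0 + x.out l (p1 s t w) * k1) * l1 = 0 ∧
      x.out l (qq s t w) * z = 0)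
    (hinn : ∀ l, k0 * (l0 * x.inn (p0 s t w) l + l1 * x.inn (p1 s t w) l) = 0 ∧
      k1 * (l0 * x.inn (p0 s t w) l + l1 * x.inn (p1 s t w) l) = 0 ∧
      z * x.inn (qq s t w) l = 0) :
    (k0 * l0 = 0 ∧ k0 * l1 = 0 ∧ k1 * l0 = 0 ∧ k1 * l1 = 0) ∧ z = 0 := by
  have h := hx.rigid (xi_graded s t w k0 k1 l0 l1 z)
    (fun e => xi_commute s t w k0 k1 l0 l1 z _ (fun c d hcd => (h00 e c d hcd).1)
      (hB e).1 (hB e).2.1 (hB e).2.2.1 (hB e).2.2.2)
    (fun e => xi_commute s t w k0 k1 l0 l1 z _ (fun c d hcd => (h00 e c d hcd).2)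
      (hBs e).1 (hBs e).2.1 (hBs e).2.2.1 (hBs e).2.2.2)
    (by
      ext l d
      rw [Matrix.mul_apply, sum_col, Matrix.zero_apply]
      obtain ⟨h1, h2, h3⟩ := hout l
      rcases col_cases s t w d with rfl | rfl | rfl <;>
        simp only [xi, col3_p0, col3_p1, col3_qq, mul_zero, zero_mul, add_zero, zero_add,
          mul_one, one_mul] <;>
        first
          | linear_combination h1
          | linear_combination h2
          | linear_combination h3)
    (by
      ext c l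
      rw [Matrix.mul_apply, sum_col, Matrix.zero_apply]
      obtain ⟨h1, h2, h3⟩ := hinn l
      rcases col_cases s t w c with rfl | rfl | rfl <;>
        simp only [xi, col3_p0, col3_p1, col3_qq, mul_zero, zero_mul, add_zero, zero_add,
          mul_one, one_mul] <;>
        first
          | linear_combination h1
          | linear_combination h2
          | linear_combination h3)
  have e00 := congrFun (congrFun h (p0 s t w)) (p0 s t w)
  have e01 := congrFun (congrFun h (p0 s t w)) (p1 s t w)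
  have e10 := congrFun (congrFun h (p1 s t w)) (p0 s t w)
  have e11 := congrFun (congrFun h (p1 s t w)) (p1 s t w)
  have eqq := congrFun (congrFun h (qq s t w)) (qq s t w)
  simp only [xi, col3_p0, col3_p1, col3_qq, mul_zero, zero_mul, add_zero, zero_add,
    mul_one, one_mul, Matrix.zero_apply] at e00 e01 e10 e11 eqq
  exact ⟨⟨e00, e01, e10, e11⟩, eqq⟩

/-- two linear functionals on `ℂ²` with vanishing determinant have a common kernel vector -/
theorem exists_ker (a0 a1 b0 b1 : ℂ) (h : a0 * b1 - a1 * b0 = 0) :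
    ∃ k0 k1 : ℂ, (k0 ≠ 0 ∨ k1 ≠ 0) ∧ a0 * k0 + a1 * k1 = 0 ∧ b0 * k0 + b1 * k1 = 0 := by
  by_cases ha : a0 = 0 ∧ a1 = 0
  · obtain ⟨rfl, rfl⟩ := ha
    by_cases hb : b0 = 0 ∧ b1 = 0
    · obtain ⟨rfl, rfl⟩ := hb
      exact ⟨1, 0, Or.inl one_ne_zero, by ring, by ring⟩
    · refine ⟨b1, -b0, ?_, by ring, by ring⟩
      by_contra hc
      push Not at hc
      exact hb ⟨neg_eq_zero.mp hc.2, hc.1⟩
  · refine ⟨a1, -a0, ?_, by ring, by linear_combination -h⟩
    by_contra hc
    push Not at hc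
    exact ha ⟨neg_eq_zero.mp hc.2, hc.1⟩

theorem mul_four {k0 k1 l0 l1 : ℂ} (hk : k0 ≠ 0 ∨ k1 ≠ 0) (hl : l0 ≠ 0 ∨ l1 ≠ 0)
    (h : k0 * l0 = 0 ∧ k0 * l1 = 0 ∧ k1 * l0 = 0 ∧ k1 * l1 = 0) : False := by
  obtain ⟨h1, h2, h3, h4⟩ := h
  rcases hk with hk | hk <;> rcases hl with hl | hl
  · exact mul_ne_zero hk hl h1
  · exact mul_ne_zero hk hl h2
  · exact mul_ne_zero hk hl h3
  · exact mul_ne_zero hk hl h4

/-! ### The characters -/

theorem chr_self (k : (Q21 s t w).Fl) : (Q21 s t w).chr k k = 1 := by simp [chr]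

theorem chr_ne {k j : (Q21 s t w).Fl} (h : j ≠ k) : (Q21 s t w).chr k j = 0 := by
  simp [chr, h]

theorem chr_ne_zero (k : (Q21 s t w).Fl) : (Q21 s t w).chr k ≠ 0 := by
  intro h
  have h1 := congrFun h k
  rw [chr_self] at h1
  exact absurd h1 (by norm_num)

variable {s t w}

/-- The arrow `e` between the two vertices is active at the weight `a`. -/
def Act (a : (Q21 s t w).Col → (Q21 s t w).Fl → ℤ) (e : E) : Prop :=
  (s e = 0 ∧ t e = 1 ∧ a (qq s t w) - a (p0 s t w) + (Q21 s t w).chr (Sum.inl e) = 0) ∨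
  (s e = 1 ∧ t e = 0 ∧ a (p0 s t w) - a (qq s t w) + (Q21 s t w).chr (Sum.inl e) = 0)

theorem Act.unique {a : (Q21 s t w).Col → (Q21 s t w).Fl → ℤ} {e e' : E} (h : Act a e)
    (h' : Act a e') : e = e' := by
  by_contra hne
  have hk : (Sum.inl e : (Q21 s t w).Fl) ≠ Sum.inl e' := fun h0 => hne (Sum.inl_injective h0)
  rcases h with ⟨_, _, h⟩ | ⟨_, _, h⟩ <;> rcases h' with ⟨_, _, h'⟩ | ⟨_, _, h'⟩ <;>
  · have e1 := congrFun h (Sum.inl e)
    have e2 := congrFun h' (Sum.inl e)
    simp only [Pi.add_apply, Pi.sub_apply, Pi.zero_apply] at e1 e2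
    rw [chr_self] at e1
    rw [chr_ne s t w hk] at e2
    omega

theorem Act.not_both {a : (Q21 s t w).Col → (Q21 s t w).Fl → ℤ} {e : E} (h : Act a e)
    {l l' : (Q21 s t w).Frm} (h1 : (Q21 s t w).chr (Sum.inr l) - a (p0 s t w) = 0)
    (h2 : (Q21 s t w).chr (Sum.inr l') - a (qq s t w) = 0) : False := by
  have hk : (Sum.inl e : (Q21 s t w).Fl) ≠ Sum.inr l := Sum.inl_ne_inr
  have hk' : (Sum.inl e : (Q21 s t w).Fl) ≠ Sum.inr l' := Sum.inl_ne_inr
  have e1 := congrFun h1 (Sum.inl e)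
  have e2 := congrFun h2 (Sum.inl e)
  simp only [Pi.sub_apply, Pi.zero_apply] at e1 e2
  rw [chr_ne s t w hk] at e1
  rw [chr_ne s t w hk'] at e2
  rcases h with ⟨_, _, h⟩ | ⟨_, _, h⟩
  · have e3 := congrFun h (Sum.inl e)
    simp only [Pi.add_apply, Pi.sub_apply, Pi.zero_apply] at e3
    rw [chr_self] at e3
    omega
  · have e3 := congrFun h (Sum.inl e)
    simp only [Pi.add_apply, Pi.sub_apply, Pi.zero_apply] at e3
    rw [chr_self] at e3
    omega

theorem frm_unique {a : (Q21 s t w).Col → (Q21 s t w).Fl → ℤ} {c : (Q21 s t w).Col}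
    {l l' : (Q21 s t w).Frm} (h1 : (Q21 s t w).chr (Sum.inr l) - a c = 0)
    (h2 : (Q21 s t w).chr (Sum.inr l') - a c = 0) : l = l' := by
  by_contra hne
  have hk : (Sum.inr l : (Q21 s t w).Fl) ≠ Sum.inr l' := fun h0 => hne (Sum.inr_injective h0)
  have e1 := congrFun h1 (Sum.inr l)
  have e2 := congrFun h2 (Sum.inr l)
  simp only [Pi.sub_apply, Pi.zero_apply] at e1 e2
  rw [chr_self] at e1
  rw [chr_ne s t w hk] at e2
  omega


theorem good_of {k0 k1 l0 l1 z b0 b1 s0 s1 : ℂ}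
    {M : Matrix (Q21 s t w).Col (Q21 s t w).Col ℂ}
    (hr : (M (qq s t w) (p0 s t w) = b0 ∧ M (qq s t w) (p1 s t w) = b1) ∨
      (M (qq s t w) (p0 s t w) = 0 ∧ M (qq s t w) (p1 s t w) = 0))
    (hc : (M (p0 s t w) (qq s t w) = s0 ∧ M (p1 s t w) (qq s t w) = s1) ∨
      (M (p0 s t w) (qq s t w) = 0 ∧ M (p1 s t w) (qq s t w) = 0))
    (e1 : z * b0 = (b0 * k0 + b1 * k1) * l0) (e2 : z * b1 = (b0 * k0 + b1 * k1) * l1)
    (e3 : k0 * (l0 * s0 + l1 * s1) = s0 * z) (e4 : k1 * (l0 * s0 + l1 * s1) = s1 * z) :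
    Good s t w k0 k1 l0 l1 z M := by
  unfold Good
  rcases hr with ⟨r0, r1⟩ | ⟨r0, r1⟩ <;> rcases hc with ⟨q0, q1⟩ | ⟨q0, q1⟩ <;>
    rw [r0, r1, q0, q1] <;> refine ⟨?_, ?_, ?_, ?_⟩ <;>
    first
      | exact e1
      | exact e2
      | exact e3
      | exact e4
      | ring1

theorem moment_entry (x : (Q21 s t w).Rep)
    (h00 : ∀ e (c d : (Q21 s t w).Col), c.1 = d.1 → x.B e c d = 0 ∧ x.Bs e c d = 0)
    (c d : (Q21 s t w).Col) (hc : c.1 = 0) :
    x.moment c d = (∑ e, (x.B e c (qq s t w) * x.Bs e (qq s t w) d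
      - x.Bs e c (qq s t w) * x.B e (qq s t w) d)) - ∑ l, x.inn c l * x.out l d := by
  unfold Rep.moment
  rw [Matrix.sub_apply, Matrix.sum_apply, Matrix.mul_apply]
  congr 1
  refine Finset.sum_congr rfl fun e _ => ?_
  rw [Matrix.sub_apply, Matrix.mul_apply, Matrix.mul_apply, sum_col, sum_col]
  have a0 : c.1 = (p0 s t w).1 := hc
  have a1 : c.1 = (p1 s t w).1 := hc
  rw [(h00 e c _ a0).1, (h00 e c _ a0).2, (h00 e c _ a1).1, (h00 e c _ a1).2]
  ring

theorem row_data {x : (Q21 s t w).Rep} {a : (Q21 s t w).Col → (Q21 s t w).Fl → ℤ}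
    (hact : ∀ e (c d : (Q21 s t w).Col), (x.B e c d ≠ 0 ∨ x.Bs e d c ≠ 0) → Act a e) :
    ∃ (b : (Q21 s t w).Col → ℂ) (r : (Q21 s t w).Col → ℂ),
      (∀ e, ((∀ c : (Q21 s t w).Col, c.1 = 0 → x.B e (qq s t w) c = b c) ∨
          (∀ c : (Q21 s t w).Col, x.B e (qq s t w) c = 0)) ∧
        ((∀ c : (Q21 s t w).Col, c.1 = 0 → x.Bs e (qq s t w) c = b c) ∨
          (∀ c : (Q21 s t w).Col, x.Bs e (qq s t w) c = 0)) ∧
        ((∀ c : (Q21 s t w).Col, c.1 = 0 → x.B e c (qq s t w) = r c) ∨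
          (∀ c : (Q21 s t w).Col, x.B e c (qq s t w) = 0)) ∧
        ((∀ c : (Q21 s t w).Col, c.1 = 0 → x.Bs e c (qq s t w) = r c) ∨
          (∀ c : (Q21 s t w).Col, x.Bs e c (qq s t w) = 0))) ∧
      ((b = 0 ∧ r = 0) ∨ ((∃ e, Act a e) ∧
        ∃ ε : ℂ, ε ≠ 0 ∧ ∀ c d : (Q21 s t w).Col, c.1 = 0 → d.1 = 0 →
          ∑ e, (x.B e c (qq s t w) * x.Bs e (qq s t w) d
            - x.Bs e c (qq s t w) * x.B e (qq s t w) d) = ε * (r c * b d))) := by
  have hz : ∀ e, ¬ Act a e → ∀ c d, x.B e c d = 0 ∧ x.Bs e c d = 0 := by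
    intro e he c d
    constructor
    · by_contra h
      exact he (hact e c d (Or.inl h))
    · by_contra h
      exact he (hact e d c (Or.inr h))
  by_cases hA : ∃ e, Act a e
  · obtain ⟨e0, he0⟩ := hA
    have hother : ∀ e, e ≠ e0 → ∀ c d, x.B e c d = 0 ∧ x.Bs e c d = 0 := by
      intro e hne
      exact hz e (fun h => hne (h.unique he0))
    have hsum : ∀ c d : (Q21 s t w).Col,
        ∑ e, (x.B e c (qq s t w) * x.Bs e (qq s t w) d
            - x.Bs e c (qq s t w) * x.B e (qq s t w) d)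
          = x.B e0 c (qq s t w) * x.Bs e0 (qq s t w) d
            - x.Bs e0 c (qq s t w) * x.B e0 (qq s t w) d := by
      intro c d
      refine Finset.sum_eq_single e0 (fun e _ hne => ?_) (fun h => absurd (Finset.mem_univ _) h)
      rw [(hother e hne c _).1, (hother e hne c _).2]
      ring
    rcases he0 with ⟨hs, ht, h0⟩ | ⟨hs, ht, h0⟩
    · -- rows are those of `B`, columns those of `Bs`
      have hcol : ∀ c, x.B e0 c (qq s t w) = 0 := by
        intro c
        by_contra h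
        have h1 : (1 : Fin 2) = s e0 := (x.hB e0 _ _ h).2
        rw [hs] at h1
        exact absurd h1 (by decide)
      have hrow : ∀ c, x.Bs e0 (qq s t w) c = 0 := by
        intro c
        by_contra h
        have h1 : (1 : Fin 2) = s e0 := (x.hBs e0 _ _ h).1
        rw [hs] at h1
        exact absurd h1 (by decide)
      refine ⟨fun c => x.B e0 (qq s t w) c, fun c => x.Bs e0 c (qq s t w), ?_, Or.inr
        ⟨⟨e0, Or.inl ⟨hs, ht, h0⟩⟩, -1, by norm_num, ?_⟩⟩
      · intro e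
        by_cases hne : e = e0
        · subst hne
          exact ⟨Or.inl fun _ _ => rfl, Or.inr hrow, Or.inr hcol, Or.inl fun _ _ => rfl⟩
        · exact ⟨Or.inr fun c => (hother e hne _ _).1, Or.inr fun c => (hother e hne _ _).2,
            Or.inr fun c => (hother e hne _ _).1, Or.inr fun c => (hother e hne _ _).2⟩
      · intro c d _ _
        rw [hsum, hcol c, hrow d]
        ring
    · have hcol : ∀ c, x.Bs e0 c (qq s t w) = 0 := by
        intro c
        by_contra h
        have h1 : (1 : Fin 2) = t e0 := (x.hBs e0 _ _ h).2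
        rw [ht] at h1
        exact absurd h1 (by decide)
      have hrow : ∀ c, x.B e0 (qq s t w) c = 0 := by
        intro c
        by_contra h
        have h1 : (1 : Fin 2) = t e0 := (x.hB e0 _ _ h).1
        rw [ht] at h1
        exact absurd h1 (by decide)
      refine ⟨fun c => x.Bs e0 (qq s t w) c, fun c => x.B e0 c (qq s t w), ?_, Or.inr
        ⟨⟨e0, Or.inr ⟨hs, ht, h0⟩⟩, 1, by norm_num, ?_⟩⟩
      · intro e
        by_cases hne : e = e0
        · subst hne
          exact ⟨Or.inr hrow, Or.inl fun _ _ => rfl, Or.inl fun _ _ => rfl, Or.inr hcol⟩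
        · exact ⟨Or.inr fun c => (hother e hne _ _).1, Or.inr fun c => (hother e hne _ _).2,
            Or.inr fun c => (hother e hne _ _).1, Or.inr fun c => (hother e hne _ _).2⟩
      · intro c d _ _
        rw [hsum, hcol c, hrow d]
        ring
  · have hz' : ∀ e c d, x.B e c d = 0 ∧ x.Bs e c d = 0 :=
      fun e => hz e (fun h => hA ⟨e, h⟩)
    refine ⟨0, 0, fun e => ⟨Or.inr fun c => (hz' e _ _).1, Or.inr fun c => (hz' e _ _).2,
      Or.inr fun c => (hz' e _ _).1, Or.inr fun c => (hz' e _ _).2⟩, Or.inl ⟨rfl, rfl⟩⟩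

theorem frm_data {x : (Q21 s t w).Rep} {a : (Q21 s t w).Col → (Q21 s t w).Fl → ℤ}
    (heq : a (p0 s t w) = a (p1 s t w))
    (hout : ∀ l c, x.out l c ≠ 0 → (Q21 s t w).chr (Sum.inr l) - a c = 0)
    (hinn : ∀ c l, x.inn c l ≠ 0 → (Q21 s t w).chr (Sum.inr l) - a c = 0) :
    ∃ (j : (Q21 s t w).Col → ℂ) (i : (Q21 s t w).Col → ℂ),
      (∀ l, ((∀ c : (Q21 s t w).Col, c.1 = 0 → x.out l c = j c) ∨
          (∀ c : (Q21 s t w).Col, c.1 = 0 → x.out l c = 0)) ∧
        ((∀ c : (Q21 s t w).Col, c.1 = 0 → x.inn c l = i c) ∨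
          (∀ c : (Q21 s t w).Col, c.1 = 0 → x.inn c l = 0))) ∧
      ((j = 0 ∧ i = 0) ∨ ((∃ l : (Q21 s t w).Frm,
          (Q21 s t w).chr (Sum.inr l) - a (p0 s t w) = 0) ∧
        ∀ c d : (Q21 s t w).Col, c.1 = 0 → d.1 = 0 →
          ∑ l, x.inn c l * x.out l d = i c * j d)) := by
  have h0 : ∀ c : (Q21 s t w).Col, c.1 = 0 → a c = a (p0 s t w) := by
    intro c hc
    rcases col_cases s t w c with rfl | rfl | rfl
    · rfl
    · exact heq.symm
    · have h1 : (1 : Fin 2) = 0 := hc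
      exact absurd h1 (by decide)
  have hz : ∀ l : (Q21 s t w).Frm, (Q21 s t w).chr (Sum.inr l) - a (p0 s t w) ≠ 0 →
      ∀ c : (Q21 s t w).Col, c.1 = 0 → x.out l c = 0 ∧ x.inn c l = 0 := by
    intro l hl c hc
    constructor
    · by_contra h
      have h1 := hout l c h
      rw [h0 c hc] at h1
      exact hl h1
    · by_contra h
      have h1 := hinn c l h
      rw [h0 c hc] at h1
      exact hl h1
  by_cases hA : ∃ l : (Q21 s t w).Frm, (Q21 s t w).chr (Sum.inr l) - a (p0 s t w) = 0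
  · obtain ⟨l0, hl0⟩ := hA
    have hother : ∀ l, l ≠ l0 → ∀ c : (Q21 s t w).Col, c.1 = 0 →
        x.out l c = 0 ∧ x.inn c l = 0 := by
      intro l hne
      exact hz l (fun h => hne (frm_unique h hl0))
    refine ⟨fun c => x.out l0 c, fun c => x.inn c l0, ?_, Or.inr ⟨⟨l0, hl0⟩, ?_⟩⟩
    · intro l
      by_cases hne : l = l0
      · subst hne
        exact ⟨Or.inl fun _ _ => rfl, Or.inl fun _ _ => rfl⟩
      · exact ⟨Or.inr fun c hc => (hother l hne c hc).1, Or.inr fun c hc => (hother l hne c hc).2⟩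
    · intro c d hc hd
      refine Finset.sum_eq_single l0 (fun l _ hne => ?_) (fun h => absurd (Finset.mem_univ _) h)
      rw [(hother l hne d hd).1, mul_zero]
  · have hz' : ∀ l, ∀ c : (Q21 s t w).Col, c.1 = 0 → x.out l c = 0 ∧ x.inn c l = 0 :=
      fun l => hz l (fun h => hA ⟨l, h⟩)
    exact ⟨0, 0, fun l => ⟨Or.inr fun c hc => (hz' l c hc).1, Or.inr fun c hc => (hz' l c hc).2⟩,
      Or.inl ⟨rfl, rfl⟩⟩

theorem fixedWt_ne {ν : Fin 2 → ℤ} {a : (Q21 s t w).Col → (Q21 s t w).Fl → ℤ}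
    (ha : (Q21 s t w).FixedWt ν a) : a (p0 s t w) ≠ a (p1 s t w) := by
  intro heq
  obtain ⟨x, hmom, hst, hB, hBs, hout, hinn⟩ := ha
  -- entries between colours with equal weights vanish
  have hsame : ∀ c d : (Q21 s t w).Col, c.1 = d.1 → a c = a d := by
    intro c d hcd
    rcases col_cases s t w c with rfl | rfl | rfl <;>
      rcases col_cases s t w d with rfl | rfl | rfl
    all_goals first
      | rfl
      | exact heq
      | exact heq.symm
      | (exfalso; exact absurd hcd (by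
          intro h
          have h1 : (0 : Fin 2) = 1 := h
          exact absurd h1 (by decide)))
      | (exfalso; exact absurd hcd (by
          intro h
          have h1 : (1 : Fin 2) = 0 := h
          exact absurd h1 (by decide)))
  have h00 : ∀ e (c d : (Q21 s t w).Col), c.1 = d.1 → x.B e c d = 0 ∧ x.Bs e c d = 0 := by
    intro e c d hcd
    constructor
    · by_contra hne
      have h1 := hB e c d hne
      rw [hsame c d hcd, sub_self, zero_add] at h1
      exact chr_ne_zero s t w _ h1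
    · by_contra hne
      have h1 := hBs e c d hne
      rw [hsame c d hcd, sub_self, zero_add] at h1
      exact chr_ne_zero s t w _ h1
  have hact : ∀ e (c d : (Q21 s t w).Col), (x.B e c d ≠ 0 ∨ x.Bs e d c ≠ 0) → Act a e := by
    intro e c d hne
    have hdata : c.1 = t e ∧ d.1 = s e ∧ a c - a d + (Q21 s t w).chr (Sum.inl e) = 0 := by
      rcases hne with hne | hne
      · exact ⟨(x.hB e c d hne).1, (x.hB e c d hne).2, hB e c d hne⟩
      · exact ⟨(x.hBs e d c hne).2, (x.hBs e d c hne).1, hBs e d c hne⟩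
    obtain ⟨h1, h2, h3⟩ := hdata
    have hv : c.1 ≠ d.1 := by
      intro hcd
      rw [hsame c d hcd, sub_self, zero_add] at h3
      exact chr_ne_zero s t w _ h3
    rcases fin2' c.1 with hc | hc
    · have hd : d.1 = 1 := by
        rcases fin2' d.1 with hd | hd
        · exact absurd (hc.trans hd.symm) hv
        · exact hd
      right
      refine ⟨h2.symm.trans hd, h1.symm.trans hc, ?_⟩
      rw [hsame (p0 s t w) c hc.symm, hsame (qq s t w) d hd.symm]
      exact h3
    · have hd : d.1 = 0 := by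
        rcases fin2' d.1 with hd | hd
        · exact hd
        · exact absurd (hc.trans hd.symm) hv
      left
      refine ⟨h2.symm.trans hd, h1.symm.trans hc, ?_⟩
      rw [hsame (p0 s t w) d hd.symm, hsame (qq s t w) c hc.symm]
      exact h3
  obtain ⟨b, r, hbr, hbr'⟩ := row_data hact
  obtain ⟨j, i, hji, hji'⟩ := frm_data heq hout hinn
  set P0 := p0 s t w with hP0
  set P1 := p1 s t w with hP1
  have v0 : P0.1 = 0 := rfl
  have v1 : P1.1 = 0 := rfl
  -- the key existence statement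
  have key : ∃ k0 k1 l0 l1 z : ℂ, (((k0 ≠ 0 ∨ k1 ≠ 0) ∧ (l0 ≠ 0 ∨ l1 ≠ 0)) ∨ z ≠ 0) ∧
      z * b P0 = (b P0 * k0 + b P1 * k1) * l0 ∧ z * b P1 = (b P0 * k0 + b P1 * k1) * l1 ∧
      k0 * (l0 * r P0 + l1 * r P1) = r P0 * z ∧ k1 * (l0 * r P0 + l1 * r P1) = r P1 * z ∧
      (j P0 * k0 + j P1 * k1) * l0 = 0 ∧ (j P0 * k0 + j P1 * k1) * l1 = 0 ∧
      k0 * (l0 * i P0 + l1 * i P1) = 0 ∧ k1 * (l0 * i P0 + l1 * i P1) = 0 ∧
      (z ≠ 0 → ∀ l, x.out l (qq s t w) = 0 ∧ x.inn (qq s t w) l = 0) := by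
    by_cases hd : b P0 * j P1 - b P1 * j P0 = 0 ∧ r P0 * i P1 - r P1 * i P0 = 0
    · obtain ⟨k0, k1, hk, hk1, hk2⟩ := exists_ker _ _ _ _ hd.1
      obtain ⟨l0, l1, hl, hl1, hl2⟩ := exists_ker _ _ _ _ hd.2
      refine ⟨k0, k1, l0, l1, 0, Or.inl ⟨hk, hl⟩, ?_, ?_, ?_, ?_, ?_, ?_, ?_, ?_,
        fun h => absurd rfl h⟩
      · linear_combination (-l0) * hk1
      · linear_combination (-l1) * hk1
      · linear_combination k0 * hl1
      · linear_combination k1 * hl1
      · linear_combination l0 * hk2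
      · linear_combination l1 * hk2
      · linear_combination k0 * hl2
      · linear_combination k1 * hl2
    · -- both an arrow and a framing are active
      have hne1 : ¬ (b = 0 ∧ r = 0) := by
        rintro ⟨rfl, rfl⟩
        exact hd ⟨by simp, by simp⟩
      have hne2 : ¬ (j = 0 ∧ i = 0) := by
        rintro ⟨rfl, rfl⟩
        exact hd ⟨by simp, by simp⟩
      obtain ⟨⟨e0, he0⟩, ε, hε, hm⟩ := hbr'.resolve_left hne1
      obtain ⟨⟨l0, hl0⟩, hm'⟩ := hji'.resolve_left hne2
      have hq : ∀ l, x.out l (qq s t w) = 0 ∧ x.inn (qq s t w) l = 0 := by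
        intro l
        constructor
        · by_contra h
          exact he0.not_both hl0 (hout l _ h)
        · by_contra h
          exact he0.not_both hl0 (hinn _ l h)
      have hmm : ∀ c d : (Q21 s t w).Col, c.1 = 0 → d.1 = 0 →
          ε * (r c * b d) - i c * j d = 0 := by
        intro c d hc hd'
        have h1 := moment_entry x h00 c d hc
        rw [hmom, hm c d hc hd', hm' c d hc hd'] at h1
        rw [← h1]
        rfl
      have m00 := hmm P0 P0 v0 v0
      have m01 := hmm P0 P1 v0 v1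
      have m10 := hmm P1 P0 v1 v0
      have m11 := hmm P1 P1 v1 v1
      by_cases hd1 : b P0 * j P1 - b P1 * j P0 = 0
      · have hd2 : r P0 * i P1 - r P1 * i P0 ≠ 0 := fun h => hd ⟨hd1, h⟩
        have b0 : b P0 = 0 := by
          have h1 : ε * (b P0 * (r P0 * i P1 - r P1 * i P0)) = 0 := by
            linear_combination i P1 * m00 - i P0 * m10
          exact (mul_eq_zero.mp ((mul_eq_zero.mp h1).resolve_left hε)).resolve_right hd2
        have b1 : b P1 = 0 := by
          have h1 : ε * (b P1 * (r P0 * i P1 - r P1 * i P0)) = 0 := by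
            linear_combination i P1 * m01 - i P0 * m11
          exact (mul_eq_zero.mp ((mul_eq_zero.mp h1).resolve_left hε)).resolve_right hd2
        have j0 : j P0 = 0 := by
          have h1 : j P0 * (r P0 * i P1 - r P1 * i P0) = 0 := by
            linear_combination r P1 * m00 - r P0 * m10
          exact (mul_eq_zero.mp h1).resolve_right hd2
        have j1 : j P1 = 0 := by
          have h1 : j P1 * (r P0 * i P1 - r P1 * i P0) = 0 := by
            linear_combination r P1 * m01 - r P0 * m11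
          exact (mul_eq_zero.mp h1).resolve_right hd2
        refine ⟨r P0, r P1, i P1, -i P0, r P0 * i P1 - r P1 * i P0, Or.inr hd2,
          ?_, ?_, ?_, ?_, ?_, ?_, ?_, ?_, fun _ => hq⟩ <;>
          (try rw [b0]) <;> (try rw [b1]) <;> (try rw [j0]) <;> (try rw [j1]) <;> ring
      · have r0 : r P0 = 0 := by
          have h1 : ε * (r P0 * (b P0 * j P1 - b P1 * j P0)) = 0 := by
            linear_combination j P1 * m00 - j P0 * m01
          exact (mul_eq_zero.mp ((mul_eq_zero.mp h1).resolve_left hε)).resolve_right hd1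
        have r1 : r P1 = 0 := by
          have h1 : ε * (r P1 * (b P0 * j P1 - b P1 * j P0)) = 0 := by
            linear_combination j P1 * m10 - j P0 * m11
          exact (mul_eq_zero.mp ((mul_eq_zero.mp h1).resolve_left hε)).resolve_right hd1
        have i0 : i P0 = 0 := by
          have h1 : i P0 * (b P0 * j P1 - b P1 * j P0) = 0 := by
            linear_combination b P1 * m00 - b P0 * m01
          exact (mul_eq_zero.mp h1).resolve_right hd1
        have i1 : i P1 = 0 := by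
          have h1 : i P1 * (b P0 * j P1 - b P1 * j P0) = 0 := by
            linear_combination b P1 * m10 - b P0 * m11
          exact (mul_eq_zero.mp h1).resolve_right hd1
        refine ⟨j P1, -j P0, b P0, b P1, b P0 * j P1 - b P1 * j P0, Or.inr hd1,
          ?_, ?_, ?_, ?_, ?_, ?_, ?_, ?_, fun _ => hq⟩ <;>
          (try rw [r0]) <;> (try rw [r1]) <;> (try rw [i0]) <;> (try rw [i1]) <;> ring
  obtain ⟨k0, k1, l0, l1, z, hnz, e1, e2, e3, e4, e5, e6, e7, e8, e9⟩ := key
  have hfin := xi_zero s t w hst k0 k1 l0 l1 z h00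
    (fun e => good_of
      ((hbr e).1.imp (fun h => ⟨h _ v0, h _ v1⟩) (fun h => ⟨h _, h _⟩))
      ((hbr e).2.2.1.imp (fun h => ⟨h _ v0, h _ v1⟩) (fun h => ⟨h _, h _⟩)) e1 e2 e3 e4)
    (fun e => good_of
      ((hbr e).2.1.imp (fun h => ⟨h _ v0, h _ v1⟩) (fun h => ⟨h _, h _⟩))
      ((hbr e).2.2.2.imp (fun h => ⟨h _ v0, h _ v1⟩) (fun h => ⟨h _, h _⟩)) e1 e2 e3 e4)
    (fun l => by
      refine ⟨?_, ?_, ?_⟩
      · rcases (hji l).1 with h | h
        · rw [h _ v0, h _ v1]; exact e5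
        · rw [h _ v0, h _ v1]; ring
      · rcases (hji l).1 with h | h
        · rw [h _ v0, h _ v1]; exact e6
        · rw [h _ v0, h _ v1]; ring
      · by_cases hz : z = 0
        · rw [hz, mul_zero]
        · rw [(e9 hz l).1, zero_mul])
    (fun l => by
      refine ⟨?_, ?_, ?_⟩
      · rcases (hji l).2 with h | h
        · rw [h _ v0, h _ v1]; exact e7
        · rw [h _ v0, h _ v1]; ring
      · rcases (hji l).2 with h | h
        · rw [h _ v0, h _ v1]; exact e8
        · rw [h _ v0, h _ v1]; ring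
      · by_cases hz : z = 0
        · rw [hz, zero_mul]
        · rw [(e9 hz l).2, mul_zero])
  rcases hnz with ⟨hk, hl⟩ | hz
  · exact mul_four hk hl hfin.1
  · exact hz hfin.2

end QData

end Vale.Agent.P291.H808
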