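import Vale.Agent.P291.H808.Const

/-!
# Stable representations are rigid, and fixed point weights have the cut property
-/

set_option linter.unusedSectionVars false

namespace Vale.Agent.P291.H808

open MvPolynomial

namespace QData

variable {I E : Type} [Fintype I] [DecidableEq I] [Fintype E] [DecidableEq E] {Q : QData I E}

theorem pr_apply (i : I) (u : Q.Col → ℂ) (c : Q.Col) :
    Q.pr i u c = if c.1 = i then u c else 0 := rfl

theorem pr_pr (i : I) (u : Q.Col → ℂ) : Q.pr i (Q.pr i u) = Q.pr i u := by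
  funext c
  rw [pr_apply, pr_apply]
  split_ifs <;> rfl

/-- The inclusion of `ℂ^(v i)` in `V`. -/
def emb (Q : QData I E) (i : I) : (Fin (Q.v i) → ℂ) →ₗ[ℂ] (Q.Col → ℂ) where
  toFun u := fun c => if h : c.1 = i then u (h ▸ c.2) else 0
  map_add' := by
    intro u u'
    funext c
    by_cases h : c.1 = i <;> simp [h]
  map_smul' := by
    intro a u
    funext c
    by_cases h : c.1 = i <;> simp [h]

theorem emb_injective (i : I) : Function.Injective (Q.emb i) := by
  intro u u' h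
  funext r
  have := congrFun h ⟨i, r⟩
  simpa [emb] using this

theorem range_emb (i : I) : LinearMap.range (Q.emb i) = LinearMap.range (Q.pr i) := by
  apply le_antisymm
  · rintro _ ⟨u, rfl⟩
    refine ⟨Q.emb i u, ?_⟩
    funext c
    rw [pr_apply]
    by_cases h : c.1 = i
    · simp [h]
    · simp [emb, h]
  · rintro _ ⟨u, rfl⟩
    refine ⟨fun r => u ⟨i, r⟩, ?_⟩
    funext ⟨j, r⟩
    rw [pr_apply]
    by_cases h : j = i
    · subst h
      simp [emb]
    · simp [emb, h]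

theorem finrank_range_pr (i : I) :
    Module.finrank ℂ (LinearMap.range (Q.pr i)) = Q.v i := by
  rw [← range_emb, LinearMap.finrank_range_of_inj (emb_injective i)]
  simp

/-- A matrix on `V` preserves the vertex grading. -/
def Graded (Q : QData I E) (ξ : Matrix Q.Col Q.Col ℂ) : Prop :=
  ∀ c d, ξ c d ≠ 0 → c.1 = d.1

theorem Graded.pr_mulVec {ξ : Matrix Q.Col Q.Col ℂ} (hξ : Q.Graded ξ) (i : I) (u : Q.Col → ℂ) :
    Q.pr i (ξ.mulVec u) = ξ.mulVec (Q.pr i u) := by
  funext c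
  rw [pr_apply]
  simp only [Matrix.mulVec, dotProduct, pr_apply]
  by_cases h : c.1 = i
  · rw [if_pos h]
    refine Finset.sum_congr rfl fun d _ => ?_
    by_cases hd : ξ c d = 0
    · simp [hd]
    · rw [if_pos ((hξ c d hd).symm.trans h)]
  · rw [if_neg h]
    symm
    refine Finset.sum_eq_zero fun d _ => ?_
    by_cases hd : ξ c d = 0
    · simp [hd]
    · rw [if_neg (fun h' => h ((hξ c d hd).trans h')), mul_zero]

theorem finrank_add {ξ : Matrix Q.Col Q.Col ℂ} (hξ : Q.Graded ξ) (i : I) :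
    Module.finrank ℂ ((LinearMap.range ξ.mulVecLin).map (Q.pr i)) +
      Module.finrank ℂ ((LinearMap.ker ξ.mulVecLin).map (Q.pr i)) = Q.v i := by
  have h1 := LinearMap.finrank_range_add_finrank_ker
    (ξ.mulVecLin.domRestrict (LinearMap.range (Q.pr i)))
  rw [finrank_range_pr] at h1
  have h2 : LinearMap.range (ξ.mulVecLin.domRestrict (LinearMap.range (Q.pr i)))
      = (LinearMap.range ξ.mulVecLin).map (Q.pr i) := by
    apply le_antisymm
    · rintro _ ⟨⟨_, ⟨u, rfl⟩⟩, rfl⟩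
      refine ⟨ξ.mulVec u, ⟨u, rfl⟩, ?_⟩
      rw [hξ.pr_mulVec]
      rfl
    · rintro _ ⟨_, ⟨u, rfl⟩, rfl⟩
      refine ⟨⟨Q.pr i u, ⟨u, rfl⟩⟩, ?_⟩
      change ξ.mulVec (Q.pr i u) = Q.pr i (ξ.mulVec u)
      rw [hξ.pr_mulVec]
  have h3 : (LinearMap.ker (ξ.mulVecLin.domRestrict (LinearMap.range (Q.pr i)))).map
      (LinearMap.range (Q.pr i)).subtype = (LinearMap.ker ξ.mulVecLin).map (Q.pr i) := by
    apply le_antisymm
    · rintro _ ⟨⟨_, ⟨u, rfl⟩⟩, hu, rfl⟩
      refine ⟨Q.pr i u, ?_, ?_⟩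
      · exact hu
      · rw [pr_pr]
        rfl
    · rintro _ ⟨u, hu, rfl⟩
      refine ⟨⟨Q.pr i u, ⟨u, rfl⟩⟩, ?_, rfl⟩
      change ξ.mulVec (Q.pr i u) = 0
      rw [← hξ.pr_mulVec]
      have : ξ.mulVec u = 0 := hu
      rw [this, map_zero]
  have h4 := LinearEquiv.finrank_eq (Submodule.equivMapOfInjective
    (LinearMap.range (Q.pr i)).subtype (Submodule.injective_subtype _)
    (LinearMap.ker (ξ.mulVecLin.domRestrict (LinearMap.range (Q.pr i)))))
  rw [h3] at h4
  rw [h2] at h1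
  omega

/-- Schur's lemma for stable framed representations: an endomorphism that kills the framing maps
is zero. -/
theorem Rep.Stable.rigid {ν : I → ℤ} {x : Q.Rep} (hx : x.Stable ν) {ξ : Matrix Q.Col Q.Col ℂ}
    (hξ : Q.Graded ξ) (hB : ∀ e, ξ * x.B e = x.B e * ξ) (hBs : ∀ e, ξ * x.Bs e = x.Bs e * ξ)
    (hout : x.out * ξ = 0) (hinn : ξ * x.inn = 0) : ξ = 0 := by
  by_contra hne
  have hlin : ξ.mulVecLin ≠ 0 := by
    intro h
    apply hne
    apply Matrix.mulVec_injective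
    funext u
    have := LinearMap.congr_fun h u
    simpa using this
  have hS : x.IsSub (LinearMap.range ξ.mulVecLin) := by
    refine ⟨?_, ?_, ?_⟩
    · rintro i _ ⟨u, rfl⟩
      refine ⟨Q.pr i u, ?_⟩
      exact (hξ.pr_mulVec i u).symm
    · rintro e _ ⟨u, rfl⟩
      refine ⟨(x.B e).mulVec u, ?_⟩
      change ξ.mulVec ((x.B e).mulVec u) = (x.B e).mulVec (ξ.mulVec u)
      rw [Matrix.mulVec_mulVec, Matrix.mulVec_mulVec, hB]
    · rintro e _ ⟨u, rfl⟩
      refine ⟨(x.Bs e).mulVec u, ?_⟩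
      change ξ.mulVec ((x.Bs e).mulVec u) = (x.Bs e).mulVec (ξ.mulVec u)
      rw [Matrix.mulVec_mulVec, Matrix.mulVec_mulVec, hBs]
  have hK : x.IsSub (LinearMap.ker ξ.mulVecLin) := by
    refine ⟨?_, ?_, ?_⟩
    · intro i u hu
      change ξ.mulVec (Q.pr i u) = 0
      have hu' : ξ.mulVec u = 0 := hu
      rw [← hξ.pr_mulVec, hu', map_zero]
    · intro e u hu
      change ξ.mulVec ((x.B e).mulVec u) = 0
      have hu' : ξ.mulVec u = 0 := hu
      rw [Matrix.mulVec_mulVec, hB, ← Matrix.mulVec_mulVec, hu', Matrix.mulVec_zero]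
    · intro e u hu
      change ξ.mulVec ((x.Bs e).mulVec u) = 0
      have hu' : ξ.mulVec u = 0 := hu
      rw [Matrix.mulVec_mulVec, hBs, ← Matrix.mulVec_mulVec, hu', Matrix.mulVec_zero]
  have h1 : 0 < Q.dimNu ν (LinearMap.range ξ.mulVecLin) := by
    apply hx.1 _ hS
    · rintro _ ⟨u, rfl⟩
      change x.out.mulVec (ξ.mulVec u) = 0
      rw [Matrix.mulVec_mulVec, hout, Matrix.zero_mulVec]
    · intro h
      exact hlin (LinearMap.range_eq_bot.mp h)
  have h2 : (∑ i, ν i * (Q.v i : ℤ)) - Q.dimNu ν (LinearMap.ker ξ.mulVecLin) < 0 := by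
    apply hx.2 _ hK
    · intro y
      change ξ.mulVec (x.inn.mulVec y) = 0
      rw [Matrix.mulVec_mulVec, hinn, Matrix.zero_mulVec]
    · intro h
      exact hlin (LinearMap.ker_eq_top.mp h)
  have h3 : Q.dimNu ν (LinearMap.range ξ.mulVecLin) + Q.dimNu ν (LinearMap.ker ξ.mulVecLin)
      = ∑ i, ν i * (Q.v i : ℤ) := by
    unfold dimNu
    rw [← Finset.sum_add_distrib]
    refine Finset.sum_congr rfl fun i _ => ?_
    rw [← mul_add, ← finrank_add hξ i]
    push_cast
    rfl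
  linarith

theorem of_ev_rc_ne_zero {a : Q.Col → Q.Fl → ℤ} {lam : Q.Col → ℤ}
    (h : Q.ev a (Q.rc lam * Q.rc (-lam)) ≠ 0) :
    (∀ (e : E) (p : Fin (Q.v (Q.t e))) (r : Fin (Q.v (Q.s e))),
      a ⟨Q.t e, p⟩ - a ⟨Q.s e, r⟩ + Q.chr (Sum.inl e) = 0 → lam ⟨Q.t e, p⟩ = lam ⟨Q.s e, r⟩) ∧
    (∀ (i : I) (r : Fin (Q.v i)) (l : Fin (Q.w i)),
      Q.chr (Sum.inr ⟨i, l⟩) - a ⟨i, r⟩ = 0 → lam ⟨i, r⟩ = 0) := by
  rw [map_mul] at h
  obtain ⟨h1, h2⟩ := mul_ne_zero_iff.mp h
  unfold rc at h1 h2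
  rw [map_mul] at h1 h2
  obtain ⟨h1a, h1b⟩ := mul_ne_zero_iff.mp h1
  obtain ⟨h2a, h2b⟩ := mul_ne_zero_iff.mp h2
  constructor
  · intro e p r hw
    have hz : Q.ev a (X ⟨Q.t e, p⟩ - X ⟨Q.s e, r⟩ + C (Q.mass (Sum.inl e))) = 0 := by
      rw [map_add, map_sub, ev_X, ev_X, ev_C, ← lin_chr, ← lin_sub, ← lin_add, hw, lin_zero]
    simp only [map_prod, map_pow, Finset.prod_ne_zero_iff] at h1a h2a
    have e1 := h1a e (Finset.mem_univ _) p (Finset.mem_univ _) r (Finset.mem_univ _)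
    have e2 := h2a e (Finset.mem_univ _) p (Finset.mem_univ _) r (Finset.mem_univ _)
    rw [hz] at e1 e2
    have f1 : (-(lam ⟨Q.t e, p⟩ - lam ⟨Q.s e, r⟩)).toNat = 0 := by
      by_contra hn
      exact e1 (zero_pow hn)
    have f2 : (-((-lam) ⟨Q.t e, p⟩ - (-lam) ⟨Q.s e, r⟩)).toNat = 0 := by
      by_contra hn
      exact e2 (zero_pow hn)
    simp only [Pi.neg_apply] at f2
    omega
  · intro i r l hw
    have hz : Q.ev a (C (Q.mass (Sum.inr ⟨i, l⟩)) - X ⟨i, r⟩) = 0 := by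
      rw [map_sub, ev_X, ev_C, ← lin_chr, ← lin_sub, hw, lin_zero]
    simp only [map_prod, map_pow, Finset.prod_ne_zero_iff] at h1b h2b
    have e1 := h1b i (Finset.mem_univ _) r (Finset.mem_univ _) l (Finset.mem_univ _)
    have e2 := h2b i (Finset.mem_univ _) r (Finset.mem_univ _) l (Finset.mem_univ _)
    rw [hz] at e1 e2
    have f1 : (-(-lam ⟨i, r⟩)).toNat = 0 := by
      by_contra hn
      exact e1 (zero_pow hn)
    have f2 : (-(-(-lam) ⟨i, r⟩)).toNat = 0 := by
      by_contra hn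
      exact e2 (zero_pow hn)
    simp only [Pi.neg_apply] at f2
    omega

/-- A fixed point weight has the cut property. -/
theorem FixedWt.cut {ν : I → ℤ} {a : Q.Col → Q.Fl → ℤ} (ha : Q.FixedWt ν a) : Q.Cut a := by
  classical
  intro lam hlam
  by_contra hne
  obtain ⟨hE, hF⟩ := of_ev_rc_ne_zero hne
  obtain ⟨x, _, hst, hB, hBs, hout, hinn⟩ := ha
  obtain ⟨c0, hc0⟩ : ∃ c0, lam c0 ≠ 0 := by
    by_contra h
    push Not at h
    exact hlam (funext h)
  let ξ : Matrix Q.Col Q.Col ℂ := Matrix.diagonal (fun c => if lam c = lam c0 then 1 else 0)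
  have hE' : ∀ (e : E) (c d : Q.Col), c.1 = Q.t e → d.1 = Q.s e →
      a c - a d + Q.chr (Sum.inl e) = 0 → lam c = lam d := by
    rintro e ⟨i, p⟩ ⟨j, r⟩ h1 h2 hw
    simp only at h1 h2
    subst h1
    subst h2
    exact hE e p r hw
  have hF' : ∀ (l : Q.Frm) (c : Q.Col), l.1 = c.1 → Q.chr (Sum.inr l) - a c = 0 → lam c = 0 := by
    rintro ⟨i, l⟩ ⟨j, r⟩ h1 hw
    simp only at h1
    subst h1
    exact hF i r l hw
  have hz : ξ = 0 := by
    apply hst.rigid
    · intro c d h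
      by_contra hcd
      have : c ≠ d := fun h' => hcd (by rw [h'])
      exact h (Matrix.diagonal_apply_ne _ this)
    · intro e
      ext c d
      rw [Matrix.diagonal_mul, Matrix.mul_diagonal]
      by_cases h : x.B e c d = 0
      · simp [h]
      · obtain ⟨h1, h2⟩ := x.hB e c d h
        rw [hE' e c d h1 h2 (hB e c d h), mul_comm]
    · intro e
      ext d c
      rw [Matrix.diagonal_mul, Matrix.mul_diagonal]
      by_cases h : x.Bs e d c = 0
      · simp [h]
      · obtain ⟨h1, h2⟩ := x.hBs e d c h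
        rw [hE' e c d h2 h1 (hBs e d c h), mul_comm]
    · ext l c
      rw [Matrix.mul_diagonal]
      by_cases h : x.out l c = 0
      · simp [h]
      · have h0 := hF' l c (x.hout l c h) (hout l c h)
        rw [h0, if_neg (fun h' => hc0 h'.symm)]
        simp
    · ext c l
      rw [Matrix.diagonal_mul]
      by_cases h : x.inn c l = 0
      · simp [h]
      · have h0 := hF' l c (x.hinn c l h) (hinn c l h)
        rw [h0, if_neg (fun h' => hc0 h'.symm)]
        simp
  have h1 : ξ c0 c0 = 1 := by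
    simp [ξ]
  rw [hz] at h1
  simp at h1

/-- For every quiver and every generic `ν`, the map from `R` to the coordinate ring of the fixed
scheme is surjective, and its kernel vanishes at all multiplicity-free fixed point weights. -/
theorem general {ν : I → ℤ} (hν : Q.Generic ν) :
    Function.Surjective (algebraMap Q.RR (Q.AF ⧸ Q.J ν)) ∧
    ∀ f : Q.RR, algebraMap Q.RR (Q.AF ⧸ Q.J ν) f = 0 →
      ∀ a, Q.FixedWt ν a → Q.MultFree a → Q.ev a f = 0 :=
  ⟨phiC_surjective hν, fun _ hf _ ha hm => ev_eq_zero_of_mem_ker hm ha.cut hf⟩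

end QData

end Vale.Agent.P291.H808
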