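import Vale.Agent.P291.H808.Rigid

/-!
# Tree modules are stable: spanning forests give fixed point weights
-/

set_option linter.unusedSectionVars false

namespace Vale.Agent.P291.H808

open MvPolynomial

namespace QData

variable {I E : Type} [Fintype I] [DecidableEq I] [Fintype E] [DecidableEq E] {Q : QData I E}

/-- The value of a one-parameter subgroup on a character. -/
def phi (Q : QData I E) (y : Q.Fl → ℤ) (χ : Q.Fl → ℤ) : ℤ := ∑ k, χ k * y k

theorem phi_add (y χ χ' : Q.Fl → ℤ) : Q.phi y (χ + χ') = Q.phi y χ + Q.phi y χ' := by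
  simp [phi, add_mul, Finset.sum_add_distrib]

theorem phi_sub (y χ χ' : Q.Fl → ℤ) : Q.phi y (χ - χ') = Q.phi y χ - Q.phi y χ' := by
  simp [phi, sub_mul, Finset.sum_sub_distrib]

theorem phi_zero (y : Q.Fl → ℤ) : Q.phi y 0 = 0 := by simp [phi]

theorem exists_key {a : Q.Col → Q.Fl → ℤ} (ha : Q.MultFree a) :
    ∃ y : Q.Fl → ℤ, ∀ c d : Q.Col, c.1 = d.1 → Q.phi y (a c) = Q.phi y (a d) → c = d := by
  classical
  let p : Q.Col × Q.Col → MvPolynomial Q.Fl ℤ := fun cd => ∑ k, C (a cd.1 k - a cd.2 k) * X k
  let T : Finset (Q.Col × Q.Col) := Finset.univ.filter (fun cd => cd.1.1 = cd.2.1 ∧ cd.1 ≠ cd.2)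
  have hp : ∏ cd ∈ T, p cd ≠ 0 := by
    rw [Finset.prod_ne_zero_iff]
    rintro ⟨c, d⟩ hcd
    rw [Finset.mem_filter] at hcd
    intro h0
    apply ha c d hcd.2.1 hcd.2.2
    funext k
    have h1 := congrArg (MvPolynomial.coeff (Finsupp.single k 1)) h0
    simp only [p, MvPolynomial.coeff_sum, MvPolynomial.coeff_C_mul, MvPolynomial.coeff_zero,
      MvPolynomial.coeff_X] at h1
    rw [Finset.sum_eq_single k] at h1
    · simp only [if_true, mul_one] at h1
      linarith
    · intro j _ hj
      rw [if_neg, mul_zero]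
      intro h'
      exact hj (Finsupp.single_left_injective one_ne_zero h')
    · intro h
      exact absurd (Finset.mem_univ k) h
  obtain ⟨y, hy⟩ : ∃ y : Q.Fl → ℤ, MvPolynomial.eval y (∏ cd ∈ T, p cd) ≠ 0 := by
    by_contra h
    push Not at h
    apply hp
    apply MvPolynomial.funext
    intro x
    rw [h x, map_zero]
  refine ⟨y, fun c d hcd hphi => ?_⟩
  by_contra hne
  rw [map_prod, Finset.prod_ne_zero_iff] at hy
  apply hy (c, d) (Finset.mem_filter.mpr ⟨Finset.mem_univ _, hcd, hne⟩)
  simp only [p, map_sum, map_mul, MvPolynomial.eval_C, MvPolynomial.eval_X]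
  have h2 : Q.phi y (a c) - Q.phi y (a d) = 0 := by rw [hphi, sub_self]
  rw [← phi_sub] at h2
  exact h2

/-- All nonzero coordinates of `x` have weight zero for the cocharacter `a`. -/
structure WtRep (a : Q.Col → Q.Fl → ℤ) (x : Q.Rep) : Prop where
  B : ∀ e c d, x.B e c d ≠ 0 → a c - a d + Q.chr (Sum.inl e) = 0
  Bs : ∀ e d c, x.Bs e d c ≠ 0 → a c - a d + Q.chr (Sum.inl e) = 0
  out : ∀ l c, x.out l c ≠ 0 → Q.chr (Sum.inr l) - a c = 0
  inn : ∀ c l, x.inn c l ≠ 0 → Q.chr (Sum.inr l) - a c = 0

/-- `c` is a leading position of the subspace `S`. -/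
def LT (a : Q.Col → Q.Fl → ℤ) (y : Q.Fl → ℤ) (S : Submodule ℂ (Q.Col → ℂ)) (c : Q.Col) : Prop :=
  ∃ u ∈ S, u c ≠ 0 ∧ ∀ d, u d ≠ 0 → d.1 = c.1 ∧ Q.phi y (a d) ≤ Q.phi y (a c)

section lead

variable {a : Q.Col → Q.Fl → ℤ} {y : Q.Fl → ℤ}
  (hy : ∀ c d : Q.Col, c.1 = d.1 → Q.phi y (a c) = Q.phi y (a d) → c = d)
  {x : Q.Rep} (hx : WtRep a x) {S : Submodule ℂ (Q.Col → ℂ)} (hS : x.IsSub S)

include hy hx hS in
theorem LT.B {e : E} {c d : Q.Col} (hB : x.B e c d ≠ 0) (hd : LT a y S d) : LT a y S c := by
  obtain ⟨u, huS, hud, hu⟩ := hd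
  have hw := hx.B e c d hB
  obtain ⟨hc1, hd1⟩ := x.hB e c d hB
  refine ⟨(x.B e).mulVec u, hS.B e u huS, ?_, ?_⟩
  · have h1 : (x.B e).mulVec u c = x.B e c d * u d := by
      simp only [Matrix.mulVec, dotProduct]
      apply Finset.sum_eq_single d
      · intro d' _ hne
        by_contra h
        obtain ⟨h2, h3⟩ := mul_ne_zero_iff.mp h
        apply hne
        apply hy d' d (hu d' h3).1
        have h4 := hx.B e c d' h2
        have h5 : a d' = a d := by
          funext k
          have e1 := congrFun h4 k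
          have e2 := congrFun hw k
          simp only [Pi.add_apply, Pi.sub_apply, Pi.zero_apply] at e1 e2
          linarith
        rw [h5]
      · intro h
        exact absurd (Finset.mem_univ d) h
    rw [h1]
    exact mul_ne_zero hB hud
  · intro c' hc'
    simp only [Matrix.mulVec, dotProduct] at hc'
    obtain ⟨d', _, h⟩ := Finset.exists_ne_zero_of_sum_ne_zero hc'
    obtain ⟨h2, h3⟩ := mul_ne_zero_iff.mp h
    refine ⟨(x.hB e c' d' h2).1.trans hc1.symm, ?_⟩
    have h4 := congrArg (Q.phi y) (hx.B e c' d' h2)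
    have h5 := congrArg (Q.phi y) hw
    rw [phi_add, phi_sub, phi_zero] at h4 h5
    have h6 := (hu d' h3).2
    linarith

include hy hx hS in
theorem LT.Bs {e : E} {c d : Q.Col} (hB : x.Bs e d c ≠ 0) (hc : LT a y S c) : LT a y S d := by
  obtain ⟨u, huS, huc, hu⟩ := hc
  have hw := hx.Bs e d c hB
  obtain ⟨hd1, hc1⟩ := x.hBs e d c hB
  refine ⟨(x.Bs e).mulVec u, hS.Bs e u huS, ?_, ?_⟩
  · have h1 : (x.Bs e).mulVec u d = x.Bs e d c * u c := by
      simp only [Matrix.mulVec, dotProduct]
      apply Finset.sum_eq_single c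
      · intro c' _ hne
        by_contra h
        obtain ⟨h2, h3⟩ := mul_ne_zero_iff.mp h
        apply hne
        apply hy c' c (hu c' h3).1
        have h4 := hx.Bs e d c' h2
        have h5 : a c' = a c := by
          funext k
          have e1 := congrFun h4 k
          have e2 := congrFun hw k
          simp only [Pi.add_apply, Pi.sub_apply, Pi.zero_apply] at e1 e2
          linarith
        rw [h5]
      · intro h
        exact absurd (Finset.mem_univ c) h
    rw [h1]
    exact mul_ne_zero hB huc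
  · intro d' hd'
    simp only [Matrix.mulVec, dotProduct] at hd'
    obtain ⟨c', _, h⟩ := Finset.exists_ne_zero_of_sum_ne_zero hd'
    obtain ⟨h2, h3⟩ := mul_ne_zero_iff.mp h
    refine ⟨(x.hBs e d' c' h2).1.trans hd1.symm, ?_⟩
    have h4 := congrArg (Q.phi y) (hx.Bs e d' c' h2)
    have h5 := congrArg (Q.phi y) hw
    rw [phi_add, phi_sub, phi_zero] at h4 h5
    have h6 := (hu c' h3).2
    linarith

include hy hx in
theorem LT.out (hout : ∀ u ∈ S, x.out.mulVec u = 0) {c : Q.Col} (hc : LT a y S c)
    (l : Q.Frm) : x.out l c = 0 := by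
  by_contra hB
  obtain ⟨u, huS, huc, hu⟩ := hc
  have hw := hx.out l c hB
  have h1 : x.out.mulVec u l = x.out l c * u c := by
    simp only [Matrix.mulVec, dotProduct]
    apply Finset.sum_eq_single c
    · intro c' _ hne
      by_contra h
      obtain ⟨h2, h3⟩ := mul_ne_zero_iff.mp h
      apply hne
      apply hy c' c (hu c' h3).1
      have h4 := hx.out l c' h2
      have h5 : a c' = a c := by
        funext k
        have e1 := congrFun h4 k
        have e2 := congrFun hw k
        simp only [Pi.sub_apply, Pi.zero_apply] at e1 e2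
        linarith
      rw [h5]
    · intro h
      exact absurd (Finset.mem_univ c) h
  rw [hout u huS] at h1
  exact mul_ne_zero hB huc h1.symm

include hy hx in
theorem LT.inn (hinn : ∀ z, x.inn.mulVec z ∈ S) {c : Q.Col} {l : Q.Frm} (hc : x.inn c l ≠ 0) :
    LT a y S c := by
  classical
  have h1 : ∀ c', x.inn.mulVec (Pi.single l 1) c' = x.inn c' l := by
    intro c'
    rw [Matrix.mulVec_single_one]
    rfl
  refine ⟨x.inn.mulVec (Pi.single l 1), hinn _, ?_, ?_⟩
  · rw [h1]
    exact hc
  · intro c' hc'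
    rw [h1] at hc'
    have hv : c'.1 = c.1 := (x.hinn c' l hc').symm.trans (x.hinn c l hc)
    refine ⟨hv, ?_⟩
    have h4 := congrArg (Q.phi y) (hx.inn c' l hc')
    have h5 := congrArg (Q.phi y) (hx.inn c l hc)
    rw [phi_sub, phi_zero] at h4 h5
    linarith

include hy hS in
theorem finrank_LT (i : I) [DecidablePred (fun c : Q.Col => c.1 = i ∧ LT a y S c)] :
    Module.finrank ℂ (S.map (Q.pr i))
      = (Finset.univ.filter (fun c : Q.Col => c.1 = i ∧ LT a y S c)).card := by
  classical
  set F := Finset.univ.filter (fun c : Q.Col => c.1 = i ∧ LT a y S c) with hF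
  have hmem : ∀ c : F, c.1.1 = i ∧ LT a y S c.1 := fun c => (Finset.mem_filter.mp c.2).2
  apply le_antisymm
  · -- restriction to `F` is injective
    let Φ : S.map (Q.pr i) →ₗ[ℂ] (F → ℂ) :=
      { toFun := fun u c => u.1 c.1
        map_add' := fun _ _ => rfl
        map_smul' := fun _ _ => rfl }
    have hΦ : Function.Injective Φ := by
      rw [injective_iff_map_eq_zero]
      rintro ⟨u, hu⟩ h0
      by_contra hne
      obtain ⟨u', hu'S, hu'⟩ := hu
      have huS : u ∈ S := by
        rw [← hu']
        exact hS.graded i u' hu'S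
      have hne' : (Finset.univ.filter (fun c => u c ≠ 0)).Nonempty := by
        by_contra hemp
        rw [Finset.not_nonempty_iff_eq_empty] at hemp
        apply hne
        apply Subtype.ext
        funext c
        by_contra hc
        have : c ∈ Finset.univ.filter (fun c => u c ≠ 0) :=
          Finset.mem_filter.mpr ⟨Finset.mem_univ _, hc⟩
        rw [hemp] at this
        exact absurd this (Finset.notMem_empty _)
      obtain ⟨c, hc, hmax⟩ := Finset.exists_max_image _ (fun c => Q.phi y (a c)) hne'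
      have huc : u c ≠ 0 := (Finset.mem_filter.mp hc).2
      have hv : ∀ d, u d ≠ 0 → d.1 = i := by
        intro d hd
        by_contra h
        apply hd
        rw [← hu', pr_apply, if_neg h]
      have hLT : LT a y S c := by
        refine ⟨u, huS, huc, fun d hd => ⟨(hv d hd).trans (hv c huc).symm, ?_⟩⟩
        exact hmax d (Finset.mem_filter.mpr ⟨Finset.mem_univ _, hd⟩)
      have hcF : c ∈ F := Finset.mem_filter.mpr ⟨Finset.mem_univ _, hv c huc, hLT⟩
      exact huc (congrFun h0 ⟨c, hcF⟩)
    have h1 := LinearMap.finrank_le_finrank_of_injective hΦ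
    rw [Module.finrank_fintype_fun_eq_card, Fintype.card_coe] at h1
    exact h1
  · choose f hfS hfc hf using fun c : F => (hmem c).2
    have hfm : ∀ c : F, f c ∈ S.map (Q.pr i) := by
      intro c
      refine ⟨f c, hfS c, ?_⟩
      funext d
      rw [pr_apply]
      by_cases hd : f c d = 0
      · simp [hd]
      · rw [if_pos ((hf c d hd).1.trans (hmem c).1)]
    have hli : LinearIndependent ℂ (fun c : F => (⟨f c, hfm c⟩ : S.map (Q.pr i))) := by
      rw [Fintype.linearIndependent_iff]
      intro g hg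
      by_contra hne
      push Not at hne
      obtain ⟨c0, hc0⟩ := hne
      have hne' : (Finset.univ.filter (fun c : F => g c ≠ 0)).Nonempty :=
        ⟨c0, Finset.mem_filter.mpr ⟨Finset.mem_univ _, hc0⟩⟩
      obtain ⟨c, hc, hmax⟩ := Finset.exists_max_image _ (fun c : F => Q.phi y (a c.1)) hne'
      have hgc : g c ≠ 0 := (Finset.mem_filter.mp hc).2
      have h1 := congrArg (fun u : S.map (Q.pr i) => u.1 c.1) hg
      simp only [Submodule.coe_sum, Submodule.coe_smul, Finset.sum_apply, Pi.smul_apply,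
        smul_eq_mul, Submodule.coe_zero, Pi.zero_apply] at h1
      rw [Finset.sum_eq_single c] at h1
      · exact mul_ne_zero hgc (hfc c) h1
      · intro d _ hdc
        by_contra h
        obtain ⟨h2, h3⟩ := mul_ne_zero_iff.mp h
        apply hdc
        apply Subtype.ext
        obtain ⟨h4, h5⟩ := hf d c.1 h3
        have h6 := hmax d (Finset.mem_filter.mpr ⟨Finset.mem_univ _, h2⟩)
        exact hy d.1 c.1 h4.symm (le_antisymm h6 h5)
      · intro h
        exact absurd (Finset.mem_univ c) h
    have h2 := hli.fintype_card_le_finrank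
    rw [Fintype.card_coe] at h2
    exact h2

include hy hS in
theorem dimNu_LT (ν : I → ℤ) [DecidablePred (fun c : Q.Col => LT a y S c)] :
    Q.dimNu ν S = ∑ c ∈ Finset.univ.filter (fun c : Q.Col => LT a y S c), ν c.1 := by
  classical
  rw [← Finset.sum_fiberwise (Finset.univ.filter (fun c : Q.Col => LT a y S c))
    (fun c => c.1) (fun c => ν c.1)]
  unfold dimNu
  refine Finset.sum_congr rfl fun i _ => ?_
  rw [finrank_LT hy hS i, Finset.filter_filter]
  have h1 : (Finset.univ.filter (fun c : Q.Col => c.1 = i ∧ LT a y S c))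
      = Finset.univ.filter (fun c : Q.Col => LT a y S c ∧ c.1 = i) := by
    ext c
    simp [and_comm]
  rw [h1, Finset.sum_congr rfl (g := fun _ => ν i)
      (fun c hc => by rw [(Finset.mem_filter.mp hc).2.2])]
  rw [Finset.sum_const, nsmul_eq_mul, mul_comm]

end lead

end QData

end Vale.Agent.P291.H808
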