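import Vale.Agent.P291.H808.Rigid
import Vale.Agent.P291.H808.Alg5
set_option linter.unusedSectionVars false
namespace Vale.Agent.P291.H808
open MvPolynomial
namespace QData
variable {E : Type} [Fintype E] [DecidableEq E]

/-- The quiver gauge theory with two vertices and gauge dimensions `(2, 1)`. -/
def Q21 (s t : E → Fin 2) (w : Fin 2 → ℕ) : QData (Fin 2) E := ⟨s, t, ![2, 1], w⟩

variable (s t : E → Fin 2) (w : Fin 2 → ℕ)

/-- first colour of vertex 0 -/
def p0 : (Q21 s t w).Col := ⟨0, (0 : Fin 2)⟩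
/-- second colour of vertex 0 -/
def p1 : (Q21 s t w).Col := ⟨0, (1 : Fin 2)⟩
/-- colour of vertex 1 -/
def qq : (Q21 s t w).Col := ⟨1, (0 : Fin 1)⟩

theorem col_cases (c : (Q21 s t w).Col) : c = p0 s t w ∨ c = p1 s t w ∨ c = qq s t w := by
  obtain ⟨i, r⟩ := c
  fin_cases i
  · change Fin 2 at r
    fin_cases r
    · left; rfl
    · right; left; rfl
  · change Fin 1 at r
    fin_cases r
    right; right; rfl

theorem p1_ne_p0 : p1 s t w ≠ p0 s t w := by
  intro h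
  have h2 := (Sigma.mk.inj_iff.mp h).2
  have h3 : (1 : Fin 2) = 0 := eq_of_heq h2
  exact absurd h3 (by decide)

theorem qq_ne_p0 : qq s t w ≠ p0 s t w := by
  intro h
  have h1 : (1 : Fin 2) = 0 := congrArg Sigma.fst h
  exact absurd h1 (by decide)

theorem qq_ne_p1 : qq s t w ≠ p1 s t w := by
  intro h
  have h1 : (1 : Fin 2) = 0 := congrArg Sigma.fst h
  exact absurd h1 (by decide)

/-- The nontrivial element of the Weyl group. -/
def sg : (Q21 s t w).Wy := fun i => match i with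
  | 0 => (Equiv.swap (0 : Fin 2) 1 : Equiv.Perm (Fin 2))
  | 1 => (1 : Equiv.Perm (Fin 1))

theorem wy_cases (σ : (Q21 s t w).Wy) : σ = 1 ∨ σ = sg s t w := by
  have h0 : ∀ τ : Equiv.Perm (Fin 2), τ = 1 ∨ τ = Equiv.swap 0 1 := by decide
  have h1 : ∀ τ : Equiv.Perm (Fin 1), τ = 1 := by decide
  rcases h0 (σ 0) with h | h
  · left
    funext i
    fin_cases i
    · exact h
    · exact h1 (σ 1)
  · right
    funext i
    fin_cases i
    · exact h
    · exact h1 (σ 1)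

theorem sg_ne_one : sg s t w ≠ 1 := by
  intro h
  have h0 := congrFun h 0
  have h1 : (Equiv.swap (0 : Fin 2) 1 : Equiv.Perm (Fin 2)) = 1 := h0
  exact absurd h1 (by decide)

theorem sum_wy {M : Type*} [AddCommMonoid M] (F : (Q21 s t w).Wy → M) :
    ∑ σ, F σ = F 1 + F (sg s t w) := by
  classical
  have : (Finset.univ : Finset (Q21 s t w).Wy) = {1, sg s t w} := by
    ext σ
    simp only [Finset.mem_univ, Finset.mem_insert, Finset.mem_singleton, true_iff]
    exact wy_cases s t w σ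
  rw [this, Finset.sum_pair (sg_ne_one s t w).symm]

theorem act_one : (Q21 s t w).act 1 = 1 := by
  apply Equiv.ext
  intro c
  rfl

theorem act_sg : (Q21 s t w).act (sg s t w) = Equiv.swap (p0 s t w) (p1 s t w) := by
  apply Equiv.ext
  intro c
  rcases col_cases s t w c with rfl | rfl | rfl
  · rw [Equiv.swap_apply_left]
    rfl
  · rw [Equiv.swap_apply_right]
    rfl
  · rw [Equiv.swap_apply_of_ne_of_ne (qq_ne_p0 s t w) (qq_ne_p1 s t w)]
    rfl


/-! ### The factors `r^lam` -/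

/-- `a_{0,0}` -/
noncomputable abbrev U : (Q21 s t w).SS := X (p0 s t w)
/-- `a_{0,1}` -/
noncomputable abbrev V : (Q21 s t w).SS := X (p1 s t w)
/-- `a_{1,0}` -/
noncomputable abbrev b : (Q21 s t w).SS := X (qq s t w)

/-- the mass of an arrow -/
noncomputable abbrev me (e : E) : (Q21 s t w).SS := C ((Q21 s t w).mass (Sum.inl e))

/-- the framing masses at vertex 0 -/
noncomputable abbrev c0 (l : Fin (w 0)) : (Q21 s t w).Lam := (Q21 s t w).mass (Sum.inr ⟨0, l⟩)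

/-- the framing masses at vertex 1 -/
noncomputable abbrev c1 (l : Fin (w 1)) : (Q21 s t w).Lam := (Q21 s t w).mass (Sum.inr ⟨1, l⟩)

/-- loop factor -/
noncomputable def oe (e : E) : (Q21 s t w).SS :=
  if s e = 0 ∧ t e = 0 then
    (U s t w - V s t w + me s t w e) * (V s t w - U s t w + me s t w e) else 1

/-- edge factor -/
noncomputable def pe (e : E) (z : (Q21 s t w).SS) : (Q21 s t w).SS :=
  if s e = 0 ∧ t e = 1 then b s t w - z + me s t w e
  else if s e = 1 ∧ t e = 0 then z - b s t w + me s t w e else 1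

noncomputable def Ot : (Q21 s t w).SS := ∏ e, oe s t w e
noncomputable def Pt (z : (Q21 s t w).SS) : (Q21 s t w).SS := ∏ e, pe s t w e z
noncomputable def Wt (z : (Q21 s t w).SS) : (Q21 s t w).SS := ∏ l, (C (c0 s t w l) - z)
noncomputable def Bt : (Q21 s t w).SS := ∏ l, (C (c1 s t w l) - b s t w)

/-- the cocharacter with given values -/
def lam3 (x y z : ℤ) : (Q21 s t w).Col → ℤ :=
  fun c => if c = p0 s t w then x else if c = p1 s t w then y else z

theorem lam3_p0 (x y z : ℤ) : lam3 s t w x y z (p0 s t w) = x := by simp [lam3]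
theorem lam3_p1 (x y z : ℤ) : lam3 s t w x y z (p1 s t w) = y := by
  simp [lam3, p1_ne_p0]
theorem lam3_qq (x y z : ℤ) : lam3 s t w x y z (qq s t w) = z := by
  simp [lam3, qq_ne_p0, qq_ne_p1]

/-- edge factor of `r^lam` -/
noncomputable def ge (i j : Fin 2) (m : (Q21 s t w).SS) (lam : (Q21 s t w).Col → ℤ) :
    (Q21 s t w).SS :=
  ∏ p : Fin ((Q21 s t w).v i), ∏ r : Fin ((Q21 s t w).v j),
    (X ⟨i, p⟩ - X ⟨j, r⟩ + m) ^ (-(lam ⟨i, p⟩ - lam ⟨j, r⟩)).toNat

theorem ge00 (m : (Q21 s t w).SS) (x y z : ℤ) : ge s t w 0 0 m (lam3 s t w x y z)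
    = (U s t w - V s t w + m) ^ (y - x).toNat * (V s t w - U s t w + m) ^ (x - y).toNat := by
  have h : ge s t w 0 0 m (lam3 s t w x y z) = ∏ p : Fin 2, ∏ r : Fin 2,
    (X (⟨0, p⟩ : (Q21 s t w).Col) - X (⟨0, r⟩ : (Q21 s t w).Col) + m) ^
      (-(lam3 s t w x y z (⟨0, p⟩ : (Q21 s t w).Col)
        - lam3 s t w x y z (⟨0, r⟩ : (Q21 s t w).Col))).toNat := rfl
  rw [h, Fin.prod_univ_two, Fin.prod_univ_two, Fin.prod_univ_two]
  change (X (p0 s t w) - X (p0 s t w) + m) ^ (-(lam3 s t w x y z (p0 s t w)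
        - lam3 s t w x y z (p0 s t w))).toNat *
      (X (p0 s t w) - X (p1 s t w) + m) ^ (-(lam3 s t w x y z (p0 s t w)
        - lam3 s t w x y z (p1 s t w))).toNat *
      ((X (p1 s t w) - X (p0 s t w) + m) ^ (-(lam3 s t w x y z (p1 s t w)
        - lam3 s t w x y z (p0 s t w))).toNat *
      (X (p1 s t w) - X (p1 s t w) + m) ^ (-(lam3 s t w x y z (p1 s t w)
        - lam3 s t w x y z (p1 s t w))).toNat) = _
  rw [lam3_p0, lam3_p1, sub_self x, sub_self y, neg_zero, Int.toNat_zero, pow_zero, pow_zero,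
    one_mul, mul_one, neg_sub, neg_sub]

theorem ge01 (m : (Q21 s t w).SS) (x y z : ℤ) : ge s t w 0 1 m (lam3 s t w x y z)
    = (U s t w - b s t w + m) ^ (z - x).toNat * (V s t w - b s t w + m) ^ (z - y).toNat := by
  have h : ge s t w 0 1 m (lam3 s t w x y z) = ∏ p : Fin 2, ∏ r : Fin 1,
    (X (⟨0, p⟩ : (Q21 s t w).Col) - X (⟨1, r⟩ : (Q21 s t w).Col) + m) ^
      (-(lam3 s t w x y z (⟨0, p⟩ : (Q21 s t w).Col)
        - lam3 s t w x y z (⟨1, r⟩ : (Q21 s t w).Col))).toNat := rfl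
  rw [h, Fin.prod_univ_two, Fin.prod_univ_one, Fin.prod_univ_one]
  change (X (p0 s t w) - X (qq s t w) + m) ^ (-(lam3 s t w x y z (p0 s t w)
        - lam3 s t w x y z (qq s t w))).toNat *
      (X (p1 s t w) - X (qq s t w) + m) ^ (-(lam3 s t w x y z (p1 s t w)
        - lam3 s t w x y z (qq s t w))).toNat = _
  rw [lam3_p0, lam3_p1, lam3_qq, neg_sub, neg_sub]

theorem ge10 (m : (Q21 s t w).SS) (x y z : ℤ) : ge s t w 1 0 m (lam3 s t w x y z)
    = (b s t w - U s t w + m) ^ (x - z).toNat * (b s t w - V s t w + m) ^ (y - z).toNat := by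
  have h : ge s t w 1 0 m (lam3 s t w x y z) = ∏ p : Fin 1, ∏ r : Fin 2,
    (X (⟨1, p⟩ : (Q21 s t w).Col) - X (⟨0, r⟩ : (Q21 s t w).Col) + m) ^
      (-(lam3 s t w x y z (⟨1, p⟩ : (Q21 s t w).Col)
        - lam3 s t w x y z (⟨0, r⟩ : (Q21 s t w).Col))).toNat := rfl
  rw [h, Fin.prod_univ_one, Fin.prod_univ_two]
  change (X (qq s t w) - X (p0 s t w) + m) ^ (-(lam3 s t w x y z (qq s t w)
        - lam3 s t w x y z (p0 s t w))).toNat *
      (X (qq s t w) - X (p1 s t w) + m) ^ (-(lam3 s t w x y z (qq s t w)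
        - lam3 s t w x y z (p1 s t w))).toNat = _
  rw [lam3_p0, lam3_p1, lam3_qq, neg_sub, neg_sub]

theorem ge11 (m : (Q21 s t w).SS) (x y z : ℤ) : ge s t w 1 1 m (lam3 s t w x y z) = 1 := by
  have h : ge s t w 1 1 m (lam3 s t w x y z) = ∏ p : Fin 1, ∏ r : Fin 1,
    (X (⟨1, p⟩ : (Q21 s t w).Col) - X (⟨1, r⟩ : (Q21 s t w).Col) + m) ^
      (-(lam3 s t w x y z (⟨1, p⟩ : (Q21 s t w).Col)
        - lam3 s t w x y z (⟨1, r⟩ : (Q21 s t w).Col))).toNat := rfl
  rw [h, Fin.prod_univ_one, Fin.prod_univ_one, sub_self (lam3 s t w x y z _), neg_zero,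
    Int.toNat_zero, pow_zero]

theorem rc_eq (x y z : ℤ) : (Q21 s t w).rc (lam3 s t w x y z)
    = (∏ e, ge s t w (t e) (s e) (me s t w e) (lam3 s t w x y z)) *
      (Wt s t w (U s t w) ^ x.toNat * Wt s t w (V s t w) ^ y.toNat * Bt s t w ^ z.toNat) := by
  have h0 : (Q21 s t w).rc (lam3 s t w x y z)
      = (∏ e, ge s t w (t e) (s e) (me s t w e) (lam3 s t w x y z)) *
        (∏ i : Fin 2, ∏ r : Fin ((Q21 s t w).v i), ∏ l : Fin ((Q21 s t w).w i),
      (C ((Q21 s t w).mass (Sum.inr ⟨i, l⟩)) - X (⟨i, r⟩ : (Q21 s t w).Col)) ^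
        (-(-lam3 s t w x y z ⟨i, r⟩)).toNat) := rfl
  have h : (∏ i : Fin 2, ∏ r : Fin ((Q21 s t w).v i), ∏ l : Fin ((Q21 s t w).w i),
      (C ((Q21 s t w).mass (Sum.inr ⟨i, l⟩)) - X (⟨i, r⟩ : (Q21 s t w).Col)) ^
        (-(-lam3 s t w x y z ⟨i, r⟩)).toNat)
      = (∏ r : Fin 2, ∏ l : Fin (w 0),
      (C (c0 s t w l) - X (⟨0, r⟩ : (Q21 s t w).Col)) ^
        (-(-lam3 s t w x y z (⟨0, r⟩ : (Q21 s t w).Col))).toNat) *
        ∏ r : Fin 1, ∏ l : Fin (w 1),
      (C (c1 s t w l) - X (⟨1, r⟩ : (Q21 s t w).Col)) ^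
        (-(-lam3 s t w x y z (⟨1, r⟩ : (Q21 s t w).Col))).toNat := by
    rw [Fin.prod_univ_two]
    rfl
  rw [h0, h, Fin.prod_univ_two, Fin.prod_univ_one]
  refine congrArg _ ?_
  change (∏ l : Fin (w 0), (C (c0 s t w l) - X (p0 s t w)) ^
        (-(-lam3 s t w x y z (p0 s t w))).toNat) *
      (∏ l : Fin (w 0), (C (c0 s t w l) - X (p1 s t w)) ^
        (-(-lam3 s t w x y z (p1 s t w))).toNat) *
      (∏ l : Fin (w 1), (C (c1 s t w l) - X (qq s t w)) ^
        (-(-lam3 s t w x y z (qq s t w))).toNat) = _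
  rw [lam3_p0, lam3_p1, lam3_qq, neg_neg, neg_neg, neg_neg, Finset.prod_pow, Finset.prod_pow,
    Finset.prod_pow]
  rfl

end QData
end Vale.Agent.P291.H808
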