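import Vale.Agent.P291.H808.TwoOneRc

/-!
# Relations in the coordinate ring of the fixed scheme for dimension vector `(2, 1)`
-/

set_option linter.unusedSectionVars false
set_option linter.unusedSimpArgs false

namespace Vale.Agent.P291.H808

open MvPolynomial

namespace QData

section general

variable {I E : Type} [Fintype I] [DecidableEq I] [Fintype E] [DecidableEq E] {Q : QData I E}

/-- `g` lies in `R` and dies on the fixed scheme. -/
def InJ (Q : QData I E) (ν : I → ℤ) (g : Q.SS) : Prop :=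
  ∃ h : g ∈ Q.RR, algebraMap Q.RR Q.AF ⟨g, h⟩ ∈ Q.J ν

theorem InJ.add {ν : I → ℤ} {g g' : Q.SS} (hg : Q.InJ ν g) (hg' : Q.InJ ν g') :
    Q.InJ ν (g + g') := by
  obtain ⟨h, e⟩ := hg
  obtain ⟨h', e'⟩ := hg'
  refine ⟨Q.RR.add_mem h h', ?_⟩
  have : (⟨g + g', Q.RR.add_mem h h'⟩ : Q.RR) = ⟨g, h⟩ + ⟨g', h'⟩ := rfl
  rw [this, map_add]
  exact (Q.J ν).add_mem e e'

theorem InJ.mul {ν : I → ℤ} {g r : Q.SS} (hg : Q.InJ ν g) (hr : r ∈ Q.RR) :
    Q.InJ ν (r * g) := by
  obtain ⟨h, e⟩ := hg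
  refine ⟨Q.RR.mul_mem hr h, ?_⟩
  have : (⟨r * g, Q.RR.mul_mem hr h⟩ : Q.RR) = ⟨r, hr⟩ * ⟨g, h⟩ := rfl
  rw [this, map_mul]
  exact (Q.J ν).mul_mem_left _ e

theorem inJ_of_val {ν : I → ℤ} {x : Q.AF} (hx : x ∈ Q.J ν) {g : Q.SS} (hg : g ∈ Q.RR)
    (e : x.val = Lau.single 0 (algebraMap Q.SS Q.KK g)) : Q.InJ ν g := by
  refine ⟨hg, ?_⟩
  have : algebraMap Q.RR Q.AF ⟨g, hg⟩ = x := by
    apply val_injective
    rw [e]
    rfl
  rw [this]
  exact hx

theorem C_mem_RR (r : Q.Lam) : (C r : Q.SS) ∈ Q.RR := by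
  intro σ
  rw [rename_C]

theorem two_by_two {δ δ' ε ε' μ μ' : Q.Col → ℤ} (h1 : δ + ε = 0) (h2 : δ' + ε' = 0)
    (h3 : δ + ε' = μ) (h4 : δ' + ε = μ') (A B C D : Q.KK) :
    ((Lau.single δ A + Lau.single δ' B) * (Lau.single ε C + Lau.single ε' D) : Q.Lau)
      = Lau.single 0 (A * C + B * D) + Lau.single μ (A * D) + Lau.single μ' (B * C) := by
  rw [add_mul, mul_add, mul_add, single_mul_single, single_mul_single, single_mul_single,
    single_mul_single, h1, h2, h3, h4, single_add]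
  ring

theorem single_sub (lam : Q.Col → ℤ) (x y : Q.KK) :
    (Lau.single lam (x - y) : Q.Lau) = Lau.single lam x - Lau.single lam y := by
  have h := single_add lam (x - y) y
  rw [sub_add_cancel] at h
  rw [h]
  ring

theorem single_diff {μ μ' : Q.Col → ℤ} (a b c a' b' c' : Q.KK) {g : Q.KK} (h0 : a - a' = g)
    (h1 : b = b') (h2 : c = c') :
    ((Lau.single 0 a + Lau.single μ b + Lau.single μ' c) -
      (Lau.single 0 a' + Lau.single μ b' + Lau.single μ' c') : Q.Lau) = Lau.single 0 g := by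
  subst h1 h2 h0
  rw [single_sub]
  ring

end general

/-! ### Field identities -/

theorem fid0 {K : Type} [Field K] {u v κ κ' r r' ρ ρ' g : K} (huv : u - v ≠ 0)
    (hg : (u - v) * g = κ * (r * ρ) - κ' * (r' * ρ')) :
    ((u * κ * r) / (u - v) * ((1 * ρ) / (u - v)) + (v * κ' * r') / (v - u) * ((1 * ρ') / (v - u)))
      - ((κ * r) / (u - v) * ((v * ρ) / (u - v)) + (κ' * r') / (v - u) * ((u * ρ') / (v - u)))
      = g := by
  have h2 : v - u ≠ 0 := by
    intro h
    apply huv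
    linear_combination -h
  have h3 : v - u = -(u - v) := by ring
  rw [h3]
  field_simp
  linear_combination (-(u - v)) * hg

theorem fid5 {K : Type} [Field K] {u v κ κ' r r' ρ ρ' R R' P P' B g : K} (huv : u - v ≠ 0)
    (hg : (u - v) * (u - v) * g = B * (κ * (r * ρ) + κ' * (r' * ρ'))
      - (κ * (R * P) + κ' * (R' * P'))) :
    B * ((κ * r) / (u - v) * ((1 * ρ) / (u - v)) + (κ' * r') / (v - u) * ((1 * ρ') / (v - u)))
      - ((κ * R) / (u - v) * ((1 * P) / (u - v)) + (κ' * R') / (v - u) * ((1 * P') / (v - u)))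
      = g := by
  have h2 : v - u ≠ 0 := by
    intro h
    apply huv
    linear_combination -h
  have h3 : v - u = -(u - v) := by ring
  rw [h3]
  field_simp
  linear_combination (-1 : K) * hg

theorem fidm {K : Type} [Field K] (u v κ r ρ : K) :
    (u * κ * r) / (u - v) * ((1 * ρ) / (v - u)) = (κ * r) / (u - v) * ((u * ρ) / (v - u)) := by
  ring

theorem fidm' {K : Type} [Field K] (u v κ r ρ : K) :
    (v * κ * r) / (v - u) * ((1 * ρ) / (u - v)) = (κ * r) / (v - u) * ((v * ρ) / (u - v)) := by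
  ring

theorem lau0 {I E : Type} [Fintype I] [DecidableEq I] [Fintype E] [DecidableEq E]
    {Q : QData I E} {δ δ' ε ε' : Q.Col → ℤ} (h1 : δ + ε = 0)
    (h2 : δ' + ε' = 0) {u v κ κ' r r' ρ ρ' g : Q.KK} (huv : u - v ≠ 0)
    (hg : (u - v) * g = κ * (r * ρ) - κ' * (r' * ρ')) :
    ((Lau.single δ ((u * κ * r) / (u - v)) + Lau.single δ' ((v * κ' * r') / (v - u))) *
      (Lau.single ε ((1 * ρ) / (u - v)) + Lau.single ε' ((1 * ρ') / (v - u))) -
      (Lau.single δ ((κ * r) / (u - v)) + Lau.single δ' ((κ' * r') / (v - u))) *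
      (Lau.single ε ((v * ρ) / (u - v)) + Lau.single ε' ((u * ρ') / (v - u))) : Q.Lau)
      = Lau.single 0 g := by
  rw [two_by_two h1 h2 rfl rfl, two_by_two h1 h2 rfl rfl]
  exact single_diff _ _ _ _ _ _ (fid0 huv hg) (fidm u v κ r ρ') (fidm' u v κ' r' ρ)

theorem lau5 {I E : Type} [Fintype I] [DecidableEq I] [Fintype E] [DecidableEq E]
    {Q : QData I E} {δ δ' ε ε' Δ Δ' η η' μ μ' : Q.Col → ℤ}
    (h1 : δ + ε = 0) (h2 : δ' + ε' = 0) (h3 : δ + ε' = μ) (h4 : δ' + ε = μ')
    (h5 : Δ + η = 0) (h6 : Δ' + η' = 0) (h7 : Δ + η' = μ) (h8 : Δ' + η = μ')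
    {u v κ κ' r r' ρ ρ' R R' P P' B g : Q.KK} (huv : u - v ≠ 0)
    (hg : (u - v) * (u - v) * g = B * (κ * (r * ρ) + κ' * (r' * ρ'))
      - (κ * (R * P) + κ' * (R' * P')))
    (hm : r * ρ' * B = R * P') (hm' : r' * ρ * B = R' * P) :
    (Lau.single 0 B * ((Lau.single δ ((κ * r) / (u - v)) + Lau.single δ' ((κ' * r') / (v - u))) *
      (Lau.single ε ((1 * ρ) / (u - v)) + Lau.single ε' ((1 * ρ') / (v - u)))) -
      (Lau.single Δ ((κ * R) / (u - v)) + Lau.single Δ' ((κ' * R') / (v - u))) *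
      (Lau.single η ((1 * P) / (u - v)) + Lau.single η' ((1 * P') / (v - u))) : Q.Lau)
      = Lau.single 0 g := by
  rw [two_by_two h1 h2 h3 h4, two_by_two h5 h6 h7 h8, mul_add, mul_add, single_mul_single,
    single_mul_single, single_mul_single, zero_add, zero_add, zero_add]
  apply single_diff
  · exact fid5 huv hg
  · linear_combination (κ * (u - v)⁻¹ * (v - u)⁻¹) * hm
  · linear_combination (κ' * (u - v)⁻¹ * (v - u)⁻¹) * hm'

/-! ### The concrete monopole operators -/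

section concrete

variable {E : Type} [Fintype E] [DecidableEq E] (s t : E → Fin 2) (w : Fin 2 → ℕ)

/-- The transposition of the two colours of vertex 0. -/
noncomputable abbrev sw21 : (Q21 s t w).SS →ₐ[(Q21 s t w).Lam] (Q21 s t w).SS :=
  Alg.sw (p0 s t w) (p1 s t w)

theorem rename_act_sg (f : (Q21 s t w).SS) :
    rename ((Q21 s t w).act (sg s t w)) f = sw21 s t w f := by
  rw [act_sg]
  rfl

theorem rename_act_one (f : (Q21 s t w).SS) :
    rename ((Q21 s t w).act 1) f = f := by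
  rw [act_one]
  exact rename_id_apply f

theorem mem_RR (f : (Q21 s t w).SS) : f ∈ (Q21 s t w).RR ↔ sw21 s t w f = f := by
  constructor
  · intro h
    rw [← rename_act_sg]
    exact h _
  · intro h σ
    rcases wy_cases s t w σ with rfl | rfl
    · exact rename_act_one s t w f
    · rw [rename_act_sg, h]

theorem mon_eq (n : ℤ) (S S' : Finset (Q21 s t w).Col)
    (hS : S.map (Equiv.swap (p0 s t w) (p1 s t w)).toEmbedding = S') (f : (Q21 s t w).SS) :
    (Q21 s t w).mon n S f = Lau.single ((Q21 s t w).ind n S)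
      (algebraMap _ (Q21 s t w).KK (f * (Q21 s t w).rc ((Q21 s t w).ind n S)) /
        algebraMap _ (Q21 s t w).KK ((Q21 s t w).eu S)) +
      Lau.single ((Q21 s t w).ind n S')
      (algebraMap _ (Q21 s t w).KK (sw21 s t w f * (Q21 s t w).rc ((Q21 s t w).ind n S')) /
        algebraMap _ (Q21 s t w).KK ((Q21 s t w).eu S')) := by
  unfold mon
  rw [sum_wy, rename_act_sg, rename_act_one, act_sg, act_one]
  have h1 : S.map (1 : Equiv.Perm (Q21 s t w).Col).toEmbedding = S := Finset.map_refl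
  rw [h1, hS]

theorem ind_eq (n x y z : ℤ) (S : Finset (Q21 s t w).Col)
    (h0 : x = if p0 s t w ∈ S then n else 0) (h1 : y = if p1 s t w ∈ S then n else 0)
    (h2 : z = if qq s t w ∈ S then n else 0) : (Q21 s t w).ind n S = lam3 s t w x y z := by
  funext c
  rcases col_cases s t w c with rfl | rfl | rfl
  · rw [lam3_p0, h0]
    rfl
  · rw [lam3_p1, h1]
    rfl
  · rw [lam3_qq, h2]
    rfl

theorem p0_ne_p1 : p0 s t w ≠ p1 s t w := (p1_ne_p0 s t w).symm
theorem p0_ne_qq : p0 s t w ≠ qq s t w := (qq_ne_p0 s t w).symm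
theorem p1_ne_qq : p1 s t w ≠ qq s t w := (qq_ne_p1 s t w).symm

theorem v01 : (p0 s t w).1 = (p1 s t w).1 := rfl
theorem v10 : (p1 s t w).1 = (p0 s t w).1 := rfl
theorem v0q : ¬ (p0 s t w).1 = (qq s t w).1 := by
  intro h
  have h1 : (0 : Fin 2) = 1 := h
  exact absurd h1 (by decide)
theorem v1q : ¬ (p1 s t w).1 = (qq s t w).1 := by
  intro h
  have h1 : (0 : Fin 2) = 1 := h
  exact absurd h1 (by decide)
theorem vq0 : ¬ (qq s t w).1 = (p0 s t w).1 := fun h => v0q s t w h.symm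
theorem vq1 : ¬ (qq s t w).1 = (p1 s t w).1 := fun h => v1q s t w h.symm

theorem filt (S T : Finset (Q21 s t w).Col) (c : (Q21 s t w).Col)
    (h0 : p0 s t w ∈ T ↔ (p0 s t w).1 = c.1 ∧ p0 s t w ∉ S)
    (h1 : p1 s t w ∈ T ↔ (p1 s t w).1 = c.1 ∧ p1 s t w ∉ S)
    (h2 : qq s t w ∈ T ↔ (qq s t w).1 = c.1 ∧ qq s t w ∉ S) :
    Finset.univ.filter (fun d => d.1 = c.1 ∧ d ∉ S) = T := by
  ext d
  rw [Finset.mem_filter]
  rcases col_cases s t w d with rfl | rfl | rfl
  · rw [h0]; simp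
  · rw [h1]; simp
  · rw [h2]; simp

theorem eu_p0 : (Q21 s t w).eu {p0 s t w} = U s t w - V s t w := by
  unfold eu
  rw [Finset.prod_singleton, filt s t w {p0 s t w} {p1 s t w} (p0 s t w)
    (by simp [p0_ne_p1]) (by simp [v10, p1_ne_p0]) (by simp [vq0, qq_ne_p1]),
    Finset.prod_singleton]

theorem eu_p1 : (Q21 s t w).eu {p1 s t w} = V s t w - U s t w := by
  unfold eu
  rw [Finset.prod_singleton, filt s t w {p1 s t w} {p0 s t w} (p1 s t w)
    (by simp [p0_ne_p1, v01]) (by simp [p1_ne_p0]) (by simp [vq1, qq_ne_p0]),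
    Finset.prod_singleton]

theorem eu_p0q : (Q21 s t w).eu {p0 s t w, qq s t w} = U s t w - V s t w := by
  unfold eu
  rw [Finset.prod_pair (p0_ne_qq s t w), filt s t w {p0 s t w, qq s t w} {p1 s t w} (p0 s t w)
    (by simp [p0_ne_p1]) (by simp [v10, p1_ne_p0, p1_ne_qq]) (by simp [vq0, qq_ne_p1]),
    filt s t w {p0 s t w, qq s t w} ∅ (qq s t w)
    (by simp) (by simp [v1q]) (by simp),
    Finset.prod_singleton, Finset.prod_empty, mul_one]

theorem eu_p1q : (Q21 s t w).eu {p1 s t w, qq s t w} = V s t w - U s t w := by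
  unfold eu
  rw [Finset.prod_pair (p1_ne_qq s t w), filt s t w {p1 s t w, qq s t w} {p0 s t w} (p1 s t w)
    (by simp [p0_ne_p1, p0_ne_qq, v01]) (by simp [v10, p1_ne_p0, p1_ne_qq])
    (by simp [vq1, qq_ne_p0]),
    filt s t w {p1 s t w, qq s t w} ∅ (qq s t w)
    (by simp [v0q]) (by simp) (by simp),
    Finset.prod_singleton, Finset.prod_empty, mul_one]

theorem eu_p01 : (Q21 s t w).eu {p0 s t w, p1 s t w} = 1 := by
  unfold eu
  rw [Finset.prod_pair (p0_ne_p1 s t w), filt s t w {p0 s t w, p1 s t w} ∅ (p0 s t w)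
    (by simp) (by simp) (by simp [vq0]),
    filt s t w {p0 s t w, p1 s t w} ∅ (p1 s t w)
    (by simp) (by simp) (by simp [vq1]), Finset.prod_empty, Finset.prod_empty, mul_one]

theorem eu_q : (Q21 s t w).eu {qq s t w} = 1 := by
  unfold eu
  rw [Finset.prod_singleton, filt s t w {qq s t w} ∅ (qq s t w)
    (by simp [v0q]) (by simp [v1q]) (by simp), Finset.prod_empty]

theorem eu_all : (Q21 s t w).eu {p0 s t w, p1 s t w, qq s t w} = 1 := by
  unfold eu
  apply Finset.prod_eq_one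
  intro c _
  rw [filt s t w {p0 s t w, p1 s t w, qq s t w} ∅ c (by simp) (by simp) (by simp),
    Finset.prod_empty]

theorem swap_p0 : Equiv.swap (p0 s t w) (p1 s t w) (p0 s t w) = p1 s t w :=
  Equiv.swap_apply_left _ _
theorem swap_p1 : Equiv.swap (p0 s t w) (p1 s t w) (p1 s t w) = p0 s t w :=
  Equiv.swap_apply_right _ _
theorem swap_qq : Equiv.swap (p0 s t w) (p1 s t w) (qq s t w) = qq s t w :=
  Equiv.swap_apply_of_ne_of_ne (qq_ne_p0 s t w) (qq_ne_p1 s t w)

/-- Image of an element of `H^*_{T × F}(pt)` in the fraction field. -/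
noncomputable abbrev io (f : (Q21 s t w).SS) : (Q21 s t w).KK :=
  algebraMap (Q21 s t w).SS (Q21 s t w).KK f

theorem io_mul (f g : (Q21 s t w).SS) : io s t w (f * g) = io s t w f * io s t w g :=
  map_mul _ _ _
theorem io_sub (f g : (Q21 s t w).SS) : io s t w (f - g) = io s t w f - io s t w g :=
  map_sub _ _ _
theorem io_add (f g : (Q21 s t w).SS) : io s t w (f + g) = io s t w f + io s t w g :=
  map_add _ _ _

/-- abbreviation for `r^lam` -/
noncomputable abbrev rr (x y z : ℤ) : (Q21 s t w).SS := (Q21 s t w).rc (lam3 s t w x y z)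

theorem mon_p0 (n : ℤ) (f : (Q21 s t w).SS) :
    (Q21 s t w).mon n {p0 s t w} f
      = Lau.single (lam3 s t w n 0 0)
          (io s t w f * io s t w (rr s t w n 0 0) / (io s t w (U s t w) - io s t w (V s t w)))
      + Lau.single (lam3 s t w 0 n 0)
          (io s t w (sw21 s t w f) * io s t w (rr s t w 0 n 0) /
            (io s t w (V s t w) - io s t w (U s t w))) := by
  rw [mon_eq s t w n {p0 s t w} {p1 s t w} (by
    rw [Finset.map_singleton]; exact congrArg _ (swap_p0 s t w)) f,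
    ind_eq s t w n n 0 0 {p0 s t w} (by simp) (by simp [p1_ne_p0]) (by simp [qq_ne_p0]),
    ind_eq s t w n 0 n 0 {p1 s t w} (by simp [p0_ne_p1]) (by simp) (by simp [qq_ne_p1]),
    eu_p0, eu_p1, map_mul, map_mul, map_sub, map_sub]

theorem mon_p0q (n : ℤ) (f : (Q21 s t w).SS) :
    (Q21 s t w).mon n {p0 s t w, qq s t w} f
      = Lau.single (lam3 s t w n 0 n)
          (io s t w f * io s t w (rr s t w n 0 n) / (io s t w (U s t w) - io s t w (V s t w)))
      + Lau.single (lam3 s t w 0 n n)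
          (io s t w (sw21 s t w f) * io s t w (rr s t w 0 n n) /
            (io s t w (V s t w) - io s t w (U s t w))) := by
  rw [mon_eq s t w n {p0 s t w, qq s t w} {p1 s t w, qq s t w} (by
    rw [Finset.map_insert, Finset.map_singleton]
    change ({Equiv.swap (p0 s t w) (p1 s t w) (p0 s t w),
      Equiv.swap (p0 s t w) (p1 s t w) (qq s t w)} : Finset (Q21 s t w).Col) = _
    rw [swap_p0, swap_qq]) f,
    ind_eq s t w n n 0 n {p0 s t w, qq s t w} (by simp) (by simp [p1_ne_p0, p1_ne_qq])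
      (by simp [qq_ne_p0]),
    ind_eq s t w n 0 n n {p1 s t w, qq s t w} (by simp [p0_ne_p1, p0_ne_qq]) (by simp)
      (by simp [qq_ne_p1]),
    eu_p0q, eu_p1q, map_mul, map_mul, map_sub, map_sub]

/-- one half in `H^*_F(pt)` -/
noncomputable def half {I E : Type} (Q : QData I E) : Q.Lam :=
  (MvPolynomial.C (1 / 2 : ℂ) : MvPolynomial Q.Fl ℂ)

theorem two_mul_half {I E : Type} (Q : QData I E) : 2 * Q.half = 1 := by
  have h : (2 : MvPolynomial Q.Fl ℂ) * MvPolynomial.C (1 / 2 : ℂ) = 1 := by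
    have h2 : (2 : MvPolynomial Q.Fl ℂ) = MvPolynomial.C 2 := (map_ofNat MvPolynomial.C 2).symm
    rw [h2, ← MvPolynomial.C_mul]
    norm_num
  exact h

theorem C_half_add {I E : Type} (Q : QData I E) :
    (C Q.half : Q.SS) + C Q.half = 1 := by
  rw [← C_add, ← two_mul, two_mul_half, C_1]

theorem mon_inv (n x y z : ℤ) (S : Finset (Q21 s t w).Col)
    (hS : S.map (Equiv.swap (p0 s t w) (p1 s t w)).toEmbedding = S)
    (hind : (Q21 s t w).ind n S = lam3 s t w x y z) (heu : (Q21 s t w).eu S = 1) :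
    (Q21 s t w).mon n S (C (Q21 s t w).half) = Lau.single (lam3 s t w x y z)
      (io s t w (rr s t w x y z)) := by
  rw [mon_eq s t w n S S hS, hind, heu, map_one, div_one, div_one, ← single_add, ← map_add,
    ← add_mul]
  have h1 : sw21 s t w (C (Q21 s t w).half) = C (Q21 s t w).half := Alg.sw_C _ _ _
  rw [h1, C_half_add, one_mul]

theorem lam3_add (x y z x' y' z' : ℤ) :
    lam3 s t w x y z + lam3 s t w x' y' z' = lam3 s t w (x + x') (y + y') (z + z') := by
  funext c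
  rcases col_cases s t w c with rfl | rfl | rfl
  · rw [Pi.add_apply, lam3_p0, lam3_p0, lam3_p0]
  · rw [Pi.add_apply, lam3_p1, lam3_p1, lam3_p1]
  · rw [Pi.add_apply, lam3_qq, lam3_qq, lam3_qq]

theorem lam3_zero : lam3 s t w 0 0 0 = 0 := by
  funext c
  rcases col_cases s t w c with rfl | rfl | rfl
  · rw [lam3_p0]; rfl
  · rw [lam3_p1]; rfl
  · rw [lam3_qq]; rfl

theorem lz {x y z x' y' z' a b c : ℤ} (h1 : x + x' = a) (h2 : y + y' = b) (h3 : z + z' = c) :
    lam3 s t w x y z + lam3 s t w x' y' z' = lam3 s t w a b c := by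
  rw [lam3_add, h1, h2, h3]

theorem lz0 {x y z x' y' z' : ℤ} (h1 : x + x' = 0) (h2 : y + y' = 0) (h3 : z + z' = 0) :
    lam3 s t w x y z + lam3 s t w x' y' z' = 0 := by
  rw [lam3_add, h1, h2, h3, lam3_zero]

theorem inv_val (x y z : ℤ) (S : Finset (Q21 s t w).Col)
    (hS : S.map (Equiv.swap (p0 s t w) (p1 s t w)).toEmbedding = S)
    (hind : (Q21 s t w).ind 1 S = lam3 s t w x y z)
    (hind' : (Q21 s t w).ind (-1) S = lam3 s t w (-x) (-y) (-z))
    (heu : (Q21 s t w).eu S = 1) :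
    ((Q21 s t w).monA 1 (Or.inl rfl) S (C (Q21 s t w).half) *
      (Q21 s t w).monA (-1) (Or.inr rfl) S (C (Q21 s t w).half)).val
      = Lau.single 0 (io s t w (rr s t w x y z * rr s t w (-x) (-y) (-z))) := by
  rw [val_mul, monA_val, monA_val, mon_inv s t w 1 x y z S hS hind heu,
    mon_inv s t w (-1) (-x) (-y) (-z) S hS hind' heu, single_mul_single,
    lz0 s t w (by ring) (by ring) (by ring), io_mul]

/-! ### Symmetry of the factors -/

theorem sw_U : sw21 s t w (U s t w) = V s t w := Alg.sw_u _ _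
theorem sw_V : sw21 s t w (V s t w) = U s t w := Alg.sw_v _ _
theorem sw_bb : sw21 s t w (b s t w) = b s t w := Alg.sw_b (qq_ne_p0 s t w) (qq_ne_p1 s t w)
theorem sw_CC (r : (Q21 s t w).Lam) : sw21 s t w (C r) = C r := Alg.sw_C _ _ r

theorem sw_Ot : sw21 s t w (Ot s t w) = Ot s t w := by
  unfold Ot
  rw [map_prod]
  refine Finset.prod_congr rfl fun e _ => ?_
  unfold oe
  split_ifs
  · rw [map_mul, map_add, map_add, map_sub, map_sub, sw_U, sw_V, sw_CC]
    ring
  · rw [map_one]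

theorem sw_Pt (z : (Q21 s t w).SS) : sw21 s t w (Pt s t w z) = Pt s t w (sw21 s t w z) := by
  unfold Pt
  rw [map_prod]
  refine Finset.prod_congr rfl fun e _ => ?_
  unfold pe
  split_ifs
  · rw [map_add, map_sub, sw_bb, sw_CC]
  · rw [map_add, map_sub, sw_bb, sw_CC]
  · rw [map_one]

theorem sw_Wt (z : (Q21 s t w).SS) : sw21 s t w (Wt s t w z) = Wt s t w (sw21 s t w z) := by
  unfold Wt
  rw [map_prod]
  refine Finset.prod_congr rfl fun e _ => ?_
  rw [map_sub, sw_CC]

theorem sw_Bt : sw21 s t w (Bt s t w) = Bt s t w := by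
  unfold Bt
  rw [map_prod]
  refine Finset.prod_congr rfl fun e _ => ?_
  rw [map_sub, sw_CC, sw_bb]

/-- divided difference -/
noncomputable abbrev dd21 (f : (Q21 s t w).SS) : (Q21 s t w).SS :=
  Alg.dd (p0 s t w) (p1 s t w) f

theorem dd21_spec (f : (Q21 s t w).SS) :
    (U s t w - V s t w) * dd21 s t w f = f - sw21 s t w f := Alg.dd_spec f

theorem sw_dd21 (f : (Q21 s t w).SS) : sw21 s t w (dd21 s t w f) = dd21 s t w f :=
  Alg.sw_dd (p1_ne_p0 s t w) f

theorem UV_ne : io s t w (U s t w) - io s t w (V s t w) ≠ 0 := by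
  rw [← io_sub]
  intro h
  have h1 : U s t w - V s t w = 0 :=
    (map_eq_zero_iff _ (IsFractionRing.injective (Q21 s t w).SS (Q21 s t w).KK)).mp h
  exact Alg.uv_ne_zero (p1_ne_p0 s t w) h1

/-! ### The relations -/

variable {ν : Fin 2 → ℤ} (hν : (Q21 s t w).Generic ν)

theorem map_p01 : ({p0 s t w, p1 s t w} : Finset (Q21 s t w).Col).map
    (Equiv.swap (p0 s t w) (p1 s t w)).toEmbedding = {p0 s t w, p1 s t w} := by
  rw [Finset.map_insert, Finset.map_singleton]
  change ({Equiv.swap (p0 s t w) (p1 s t w) (p0 s t w),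
      Equiv.swap (p0 s t w) (p1 s t w) (p1 s t w)} : Finset (Q21 s t w).Col) = _
  rw [swap_p0, swap_p1, Finset.pair_comm]

theorem map_q : ({qq s t w} : Finset (Q21 s t w).Col).map
    (Equiv.swap (p0 s t w) (p1 s t w)).toEmbedding = {qq s t w} := by
  rw [Finset.map_singleton]
  exact congrArg _ (swap_qq s t w)

theorem map_all : ({p0 s t w, p1 s t w, qq s t w} : Finset (Q21 s t w).Col).map
    (Equiv.swap (p0 s t w) (p1 s t w)).toEmbedding = {p0 s t w, p1 s t w, qq s t w} := by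
  rw [Finset.map_insert, Finset.map_insert, Finset.map_singleton]
  change ({Equiv.swap (p0 s t w) (p1 s t w) (p0 s t w),
      Equiv.swap (p0 s t w) (p1 s t w) (p1 s t w),
      Equiv.swap (p0 s t w) (p1 s t w) (qq s t w)} : Finset (Q21 s t w).Col) = _
  rw [swap_p0, swap_p1, swap_qq, Finset.insert_comm]

include hν in
theorem j_inv (x y z : ℤ) (S : Finset (Q21 s t w).Col) (hne : S.Nonempty)
    (hS : S.map (Equiv.swap (p0 s t w) (p1 s t w)).toEmbedding = S)
    (hind : (Q21 s t w).ind 1 S = lam3 s t w x y z)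
    (hind' : (Q21 s t w).ind (-1) S = lam3 s t w (-x) (-y) (-z))
    (heu : (Q21 s t w).eu S = 1) (g : (Q21 s t w).SS)
    (hg : rr s t w x y z * rr s t w (-x) (-y) (-z) = g) (hsw : sw21 s t w g = g) :
    (Q21 s t w).InJ ν g := by
  apply inJ_of_val (x := (Q21 s t w).monA 1 (Or.inl rfl) S (C (Q21 s t w).half) *
      (Q21 s t w).monA (-1) (Or.inr rfl) S (C (Q21 s t w).half))
  · exact Ideal.mul_mem_left _ _ (monA_mem_J hν _ hne _)
  · rw [mem_RR]
    exact hsw
  · rw [inv_val s t w x y z S hS hind hind' heu, hg]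

include hν in
theorem j2 : (Q21 s t w).InJ ν (Pt s t w (U s t w) * Pt s t w (V s t w) *
    (Wt s t w (U s t w) * Wt s t w (V s t w))) :=
  j_inv s t w hν 1 1 0 {p0 s t w, p1 s t w} (by simp) (map_p01 s t w)
    (ind_eq s t w 1 1 1 0 _ (by simp) (by simp) (by simp [qq_ne_p0, qq_ne_p1]))
    (ind_eq s t w (-1) (-1) (-1) (-0) _ (by simp) (by simp) (by simp [qq_ne_p0, qq_ne_p1]))
    (eu_p01 s t w) _ (P4 s t w) (by
      rw [map_mul, map_mul, map_mul, sw_Pt, sw_Pt, sw_Wt, sw_Wt, sw_U, sw_V]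
      ring)

include hν in
theorem j3 : (Q21 s t w).InJ ν (Pt s t w (U s t w) * Pt s t w (V s t w) * Bt s t w) :=
  j_inv s t w hν 0 0 1 {qq s t w} (by simp) (map_q s t w)
    (ind_eq s t w 1 0 0 1 _ (by simp [p0_ne_qq]) (by simp [p1_ne_qq]) (by simp))
    (ind_eq s t w (-1) (-0) (-0) (-1) _ (by simp [p0_ne_qq]) (by simp [p1_ne_qq]) (by simp))
    (eu_q s t w) _ (P5 s t w) (by
      rw [map_mul, map_mul, sw_Pt, sw_Pt, sw_Bt, sw_U, sw_V]
      ring)

include hν in
theorem j4 : (Q21 s t w).InJ ν (Wt s t w (U s t w) * Wt s t w (V s t w) * Bt s t w) :=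
  j_inv s t w hν 1 1 1 {p0 s t w, p1 s t w, qq s t w} (by simp) (map_all s t w)
    (ind_eq s t w 1 1 1 1 _ (by simp) (by simp) (by simp))
    (ind_eq s t w (-1) (-1) (-1) (-1) _ (by simp) (by simp) (by simp))
    (eu_all s t w) _ (P6 s t w) (by
      rw [map_mul, map_mul, sw_Wt, sw_Wt, sw_Bt, sw_U, sw_V]
      ring)

theorem io_one : io s t w 1 = 1 := map_one _

theorem z100 : lam3 s t w 1 0 0 + lam3 s t w (-1) 0 0 = 0 :=
  lz0 s t w (by ring) (by ring) (by ring)
theorem z010 : lam3 s t w 0 1 0 + lam3 s t w 0 (-1) 0 = 0 :=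
  lz0 s t w (by ring) (by ring) (by ring)
theorem z101 : lam3 s t w 1 0 1 + lam3 s t w (-1) 0 (-1) = 0 :=
  lz0 s t w (by ring) (by ring) (by ring)
theorem z011 : lam3 s t w 0 1 1 + lam3 s t w 0 (-1) (-1) = 0 :=
  lz0 s t w (by ring) (by ring) (by ring)

include hν in
theorem j1 (κ : (Q21 s t w).SS) : (Q21 s t w).InJ ν
    (dd21 s t w (κ * (Ot s t w * Pt s t w (U s t w) * Wt s t w (U s t w)))) := by
  have hJ1 := monA_mem_J (Q := Q21 s t w) hν (n := -1) (Or.inr rfl) (S := {p0 s t w})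
    (by simp) 1
  have hJ2 := monA_mem_J (Q := Q21 s t w) hν (n := -1) (Or.inr rfl) (S := {p0 s t w})
    (by simp) (V s t w)
  apply inJ_of_val (x := (Q21 s t w).monA 1 (Or.inl rfl) {p0 s t w} (U s t w * κ) *
      (Q21 s t w).monA (-1) (Or.inr rfl) {p0 s t w} 1 -
      (Q21 s t w).monA 1 (Or.inl rfl) {p0 s t w} κ *
      (Q21 s t w).monA (-1) (Or.inr rfl) {p0 s t w} (V s t w))
  · exact Ideal.sub_mem _ (Ideal.mul_mem_left _ _ hJ1) (Ideal.mul_mem_left _ _ hJ2)
  · rw [mem_RR]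
    exact sw_dd21 s t w _
  · have hval : ∀ x y : (Q21 s t w).AF, (x - y).val = x.val - y.val := fun _ _ => rfl
    have hsp := dd21_spec s t w (κ * (Ot s t w * Pt s t w (U s t w) * Wt s t w (U s t w)))
    obtain ⟨g, hg⟩ : ∃ g, g = dd21 s t w (κ * (Ot s t w * Pt s t w (U s t w) *
      Wt s t w (U s t w))) := ⟨_, rfl⟩
    rw [← hg] at hsp ⊢
    replace hsp := congrArg (io s t w) hsp
    rw [io_mul, io_sub, io_sub, map_mul (sw21 s t w), map_mul (sw21 s t w),
      map_mul (sw21 s t w), sw_Ot, sw_Pt, sw_Wt, sw_U, ← P1, ← P1', io_mul s t w κ,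
      io_mul s t w (sw21 s t w κ), io_mul s t w (rr s t w 1 0 0),
      io_mul s t w (rr s t w 0 1 0)] at hsp
    rw [hval, val_mul, val_mul, monA_val, monA_val, monA_val, monA_val]
    rw [mon_p0, mon_p0, mon_p0, mon_p0, map_mul (sw21 s t w), sw_U, sw_V,
      map_one (sw21 s t w), io_mul, io_mul, io_one]
    have huv := UV_ne s t w
    generalize io s t w (U s t w) = u at hsp huv ⊢
    generalize io s t w (V s t w) = v at hsp huv ⊢
    generalize io s t w κ = κ1 at hsp ⊢
    generalize io s t w (sw21 s t w κ) = κ2 at hsp ⊢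
    generalize io s t w (rr s t w 1 0 0) = r1 at hsp ⊢
    generalize io s t w (rr s t w (-1) 0 0) = r2 at hsp ⊢
    generalize io s t w (rr s t w 0 1 0) = r3 at hsp ⊢
    generalize io s t w (rr s t w 0 (-1) 0) = r4 at hsp ⊢
    exact lau0 (z100 s t w) (z010 s t w) huv hsp

include hν in
theorem j6 (κ : (Q21 s t w).SS) : (Q21 s t w).InJ ν
    (dd21 s t w (κ * (Ot s t w * Pt s t w (V s t w) * Wt s t w (U s t w) * Bt s t w))) := by
  have hJ1 := monA_mem_J (Q := Q21 s t w) hν (n := -1) (Or.inr rfl) (S := {p0 s t w, qq s t w})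
    (by simp) 1
  have hJ2 := monA_mem_J (Q := Q21 s t w) hν (n := -1) (Or.inr rfl) (S := {p0 s t w, qq s t w})
    (by simp) (V s t w)
  apply inJ_of_val (x := (Q21 s t w).monA 1 (Or.inl rfl) {p0 s t w, qq s t w} (U s t w * κ) *
      (Q21 s t w).monA (-1) (Or.inr rfl) {p0 s t w, qq s t w} 1 -
      (Q21 s t w).monA 1 (Or.inl rfl) {p0 s t w, qq s t w} κ *
      (Q21 s t w).monA (-1) (Or.inr rfl) {p0 s t w, qq s t w} (V s t w))
  · exact Ideal.sub_mem _ (Ideal.mul_mem_left _ _ hJ1) (Ideal.mul_mem_left _ _ hJ2)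
  · rw [mem_RR]
    exact sw_dd21 s t w _
  · have hval : ∀ x y : (Q21 s t w).AF, (x - y).val = x.val - y.val := fun _ _ => rfl
    have hsp := dd21_spec s t w
      (κ * (Ot s t w * Pt s t w (V s t w) * Wt s t w (U s t w) * Bt s t w))
    obtain ⟨g, hg⟩ : ∃ g, g = dd21 s t w (κ * (Ot s t w * Pt s t w (V s t w) *
      Wt s t w (U s t w) * Bt s t w)) := ⟨_, rfl⟩
    rw [← hg] at hsp ⊢
    replace hsp := congrArg (io s t w) hsp
    rw [io_mul, io_sub, io_sub, map_mul (sw21 s t w), map_mul (sw21 s t w),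
      map_mul (sw21 s t w), map_mul (sw21 s t w), sw_Ot, sw_Pt, sw_Wt, sw_U, sw_V, sw_Bt,
      ← P2, ← P2', io_mul s t w κ,
      io_mul s t w (sw21 s t w κ), io_mul s t w (rr s t w 1 0 1),
      io_mul s t w (rr s t w 0 1 1)] at hsp
    rw [hval, val_mul, val_mul, monA_val, monA_val, monA_val, monA_val]
    rw [mon_p0q, mon_p0q, mon_p0q, mon_p0q, map_mul (sw21 s t w), sw_U, sw_V,
      map_one (sw21 s t w), io_mul, io_mul, io_one]
    have huv := UV_ne s t w
    generalize io s t w (U s t w) = u at hsp huv ⊢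
    generalize io s t w (V s t w) = v at hsp huv ⊢
    generalize io s t w κ = κ1 at hsp ⊢
    generalize io s t w (sw21 s t w κ) = κ2 at hsp ⊢
    generalize io s t w (rr s t w 1 0 1) = r1 at hsp ⊢
    generalize io s t w (rr s t w (-1) 0 (-1)) = r2 at hsp ⊢
    generalize io s t w (rr s t w 0 1 1) = r3 at hsp ⊢
    generalize io s t w (rr s t w 0 (-1) (-1)) = r4 at hsp ⊢
    exact lau0 (z101 s t w) (z011 s t w) huv hsp

theorem j5_spec (κ : (Q21 s t w).SS) :
    (U s t w - V s t w) * (U s t w - V s t w) *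
      (Bt s t w * Ot s t w * (dd21 s t w (Pt s t w (U s t w)) *
        dd21 s t w (κ * Wt s t w (U s t w))))
      = Bt s t w * (κ * (Ot s t w * Pt s t w (U s t w) * Wt s t w (U s t w))
          + sw21 s t w κ * (Ot s t w * Pt s t w (V s t w) * Wt s t w (V s t w)))
        - (κ * (Ot s t w * Pt s t w (V s t w) * Wt s t w (U s t w) * Bt s t w)
          + sw21 s t w κ * (Ot s t w * Pt s t w (U s t w) * Wt s t w (V s t w) * Bt s t w)) := by
  have h1 := dd21_spec s t w (Pt s t w (U s t w))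
  have h2 := dd21_spec s t w (κ * Wt s t w (U s t w))
  rw [sw_Pt, sw_U] at h1
  rw [map_mul (sw21 s t w), sw_Wt, sw_U] at h2
  generalize dd21 s t w (Pt s t w (U s t w)) = d1 at h1 ⊢
  generalize dd21 s t w (κ * Wt s t w (U s t w)) = d2 at h2 ⊢
  generalize U s t w = u at *
  generalize V s t w = v at *
  generalize Pt s t w u = a at *
  generalize Pt s t w v = a' at *
  generalize Wt s t w u = c at *
  generalize Wt s t w v = c' at *
  generalize sw21 s t w κ = κ' at *
  generalize Bt s t w = B at *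
  generalize Ot s t w = O at *
  linear_combination (B * O * (u - v) * d2) * h1 + (B * O * (a - a')) * h2

include hν in
theorem j5 (κ : (Q21 s t w).SS) : (Q21 s t w).InJ ν
    (Bt s t w * Ot s t w * (dd21 s t w (Pt s t w (U s t w)) *
        dd21 s t w (κ * Wt s t w (U s t w)))) := by
  have hB : Bt s t w ∈ (Q21 s t w).RR := by
    rw [mem_RR]
    exact sw_Bt s t w
  have hJ1 := monA_mem_J (Q := Q21 s t w) hν (n := -1) (Or.inr rfl) (S := {p0 s t w})
    (by simp) 1
  have hJ2 := monA_mem_J (Q := Q21 s t w) hν (n := -1) (Or.inr rfl) (S := {p0 s t w, qq s t w})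
    (by simp) 1
  apply inJ_of_val (x := algebraMap (Q21 s t w).RR (Q21 s t w).AF ⟨Bt s t w, hB⟩ *
      ((Q21 s t w).monA 1 (Or.inl rfl) {p0 s t w} κ *
      (Q21 s t w).monA (-1) (Or.inr rfl) {p0 s t w} 1) -
      (Q21 s t w).monA 1 (Or.inl rfl) {p0 s t w, qq s t w} κ *
      (Q21 s t w).monA (-1) (Or.inr rfl) {p0 s t w, qq s t w} 1)
  · exact Ideal.sub_mem _ (Ideal.mul_mem_left _ _ (Ideal.mul_mem_left _ _ hJ1))
      (Ideal.mul_mem_left _ _ hJ2)
  · rw [mem_RR, map_mul, map_mul, map_mul, sw_Bt, sw_Ot, sw_dd21, sw_dd21]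
  · have hval : ∀ x y : (Q21 s t w).AF, (x - y).val = x.val - y.val := fun _ _ => rfl
    have hsp := j5_spec s t w κ
    obtain ⟨g, hg⟩ : ∃ g, g = Bt s t w * Ot s t w * (dd21 s t w (Pt s t w (U s t w)) *
        dd21 s t w (κ * Wt s t w (U s t w))) := ⟨_, rfl⟩
    rw [← hg] at hsp ⊢
    replace hsp := congrArg (io s t w) hsp
    rw [← P1, ← P1', ← P2, ← P2'] at hsp
    simp only [io_mul, io_sub, io_add] at hsp
    have hm := congrArg (io s t w) (P3 s t w)
    have hm' := congrArg (io s t w) (P3' s t w)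
    simp only [io_mul] at hm hm'
    have hBv : (algebraMap (Q21 s t w).RR (Q21 s t w).AF ⟨Bt s t w, hB⟩).val
      = Lau.single 0 (io s t w (Bt s t w)) := rfl
    rw [hval, val_mul, val_mul, val_mul, monA_val, monA_val, monA_val, monA_val, hBv]
    rw [mon_p0, mon_p0, mon_p0q, mon_p0q, map_one (sw21 s t w), io_one]
    have huv := UV_ne s t w
    generalize io s t w (U s t w) = u at hsp huv ⊢
    generalize io s t w (V s t w) = v at hsp huv ⊢
    generalize io s t w κ = κ1 at hsp ⊢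
    generalize io s t w (sw21 s t w κ) = κ2 at hsp ⊢
    generalize io s t w (Bt s t w) = B at hsp hm hm' ⊢
    generalize io s t w (rr s t w 1 0 0) = r1 at hsp hm hm' ⊢
    generalize io s t w (rr s t w (-1) 0 0) = r2 at hsp hm hm' ⊢
    generalize io s t w (rr s t w 0 1 0) = r3 at hsp hm hm' ⊢
    generalize io s t w (rr s t w 0 (-1) 0) = r4 at hsp hm hm' ⊢
    generalize io s t w (rr s t w 1 0 1) = r5 at hsp hm hm' ⊢
    generalize io s t w (rr s t w (-1) 0 (-1)) = r6 at hsp hm hm' ⊢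
    generalize io s t w (rr s t w 0 1 1) = r7 at hsp hm hm' ⊢
    generalize io s t w (rr s t w 0 (-1) (-1)) = r8 at hsp hm hm' ⊢
    exact lau5 (z100 s t w) (z010 s t w)
      (lz s t w (a := 1) (b := -1) (c := 0) (by ring) (by ring) (by ring))
      (lz s t w (a := -1) (b := 1) (c := 0) (by ring) (by ring) (by ring))
      (z101 s t w) (z011 s t w)
      (lz s t w (a := 1) (b := -1) (c := 0) (by ring) (by ring) (by ring))
      (lz s t w (a := -1) (b := 1) (c := 0) (by ring) (by ring) (by ring)) huv hsp hm hm'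

end concrete

end QData

end Vale.Agent.P291.H808
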