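import Vale.Agent.P291.H808.TwoOnePts

/-!
# The theorem for dimension vector `(2, 1)`
-/

set_option linter.unusedSectionVars false
set_option linter.unusedSimpArgs false

namespace Vale.Agent.P291.H808

open MvPolynomial

namespace QData

variable {E : Type} [Fintype E] [DecidableEq E] (s t : E → Fin 2) (w : Fin 2 → ℕ)

/-! ### Evaluating characters -/

/-- framing direction at vertex 0 -/
abbrev F0 (i : Fin (w 0)) : (Q21 s t w).Frm := ⟨0, i⟩
/-- framing direction at vertex 1 -/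
abbrev F1 (i : Fin (w 1)) : (Q21 s t w).Frm := ⟨1, i⟩

abbrev K0 (i : Fin (w 0)) : (Q21 s t w).Fl → ℤ := (Q21 s t w).chr (Sum.inr (F0 s t w i))
abbrev K1 (i : Fin (w 1)) : (Q21 s t w).Fl → ℤ := (Q21 s t w).chr (Sum.inr (F1 s t w i))

theorem lin_K0 (i : Fin (w 0)) : (Q21 s t w).lin (K0 s t w i) = c0 s t w i := lin_chr _
theorem lin_K1 (i : Fin (w 1)) : (Q21 s t w).lin (K1 s t w i) = c1 s t w i := lin_chr _

theorem F0_inj {i j : Fin (w 0)} (h : F0 s t w i = F0 s t w j) : i = j :=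
  eq_of_heq (Sigma.mk.inj_iff.mp h).2
theorem F1_inj {i j : Fin (w 1)} (h : F1 s t w i = F1 s t w j) : i = j :=
  eq_of_heq (Sigma.mk.inj_iff.mp h).2
theorem F01_ne {i : Fin (w 0)} {j : Fin (w 1)} : F0 s t w i ≠ F1 s t w j := by
  intro h
  have h1 : (0 : Fin 2) = 1 := congrArg Sigma.fst h
  exact f01 h1

theorem e00 (i : Fin (w 0)) : K0 s t w i (Sum.inr (F0 s t w i)) = 1 := chr_self _ _ _ _
theorem e11 (i : Fin (w 1)) : K1 s t w i (Sum.inr (F1 s t w i)) = 1 := chr_self _ _ _ _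
theorem e00n {i j : Fin (w 0)} (h : i ≠ j) : K0 s t w j (Sum.inr (F0 s t w i)) = 0 :=
  chr_ne _ _ _ (fun h0 => h (F0_inj s t w (Sum.inr_injective h0)))
theorem e11n {i j : Fin (w 1)} (h : i ≠ j) : K1 s t w j (Sum.inr (F1 s t w i)) = 0 :=
  chr_ne _ _ _ (fun h0 => h (F1_inj s t w (Sum.inr_injective h0)))
theorem e10 (i : Fin (w 0)) (j : Fin (w 1)) : K1 s t w j (Sum.inr (F0 s t w i)) = 0 :=
  chr_ne _ _ _ (fun h0 => F01_ne s t w (Sum.inr_injective h0))
theorem e0l (i : Fin (w 0)) (e : E) : K0 s t w i (Sum.inl e) = 0 :=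
  chr_ne _ _ _ Sum.inl_ne_inr
theorem e1l (i : Fin (w 1)) (e : E) : K1 s t w i (Sum.inl e) = 0 :=
  chr_ne _ _ _ Sum.inl_ne_inr

theorem en_inr (e : PI s t) (l : (Q21 s t w).Frm) : nu s t w e (Sum.inr l) = 0 := by
  unfold nu
  split_ifs
  · exact chr_ne _ _ _ Sum.inr_ne_inl
  · rw [Pi.neg_apply, chr_ne _ _ _ Sum.inr_ne_inl, neg_zero]

theorem en_self (e : PI s t) : nu s t w e (Sum.inl e.1) = 1 ∨ nu s t w e (Sum.inl e.1) = -1 := by
  unfold nu
  split_ifs
  · left
    exact chr_self _ _ _ _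
  · right
    rw [Pi.neg_apply, chr_self]

theorem en_ne (e : PI s t) {e' : E} (h : e' ≠ e.1) : nu s t w e (Sum.inl e') = 0 := by
  unfold nu
  have h1 : (Sum.inl e' : (Q21 s t w).Fl) ≠ Sum.inl e.1 := fun h0 => h (Sum.inl_injective h0)
  split_ifs
  · exact chr_ne _ _ _ h1
  · rw [Pi.neg_apply, chr_ne _ _ _ h1, neg_zero]

theorem ku_ne (k : KI s t ⊕ KI s t) (e : PI s t) : ku s t k ≠ e.1 := by
  intro h
  have h1 := ku_s s t k
  rw [h] at h1
  exact e.2 (h1.1.trans h1.2.symm)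

theorem et_inr (k : KI s t ⊕ KI s t) (l : (Q21 s t w).Frm) : tu s t w k (Sum.inr l) = 0 := by
  rcases k with k | k
  · change (Q21 s t w).chr (Sum.inl k.1) (Sum.inr l) = 0
    exact chr_ne _ _ _ Sum.inr_ne_inl
  · change -(Q21 s t w).chr (Sum.inl k.1) (Sum.inr l) = 0
    rw [chr_ne _ _ _ Sum.inr_ne_inl, neg_zero]

theorem et_self (k : KI s t ⊕ KI s t) : tu s t w k (Sum.inl (ku s t k)) = 1 ∨
    tu s t w k (Sum.inl (ku s t k)) = -1 := by
  rcases k with k | k
  · left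
    exact chr_self _ _ _ _
  · right
    change -(Q21 s t w).chr (Sum.inl k.1) (Sum.inl k.1) = -1
    rw [chr_self]

theorem lin_ne {χ : (Q21 s t w).Fl → ℤ} (h : χ ≠ 0) : (Q21 s t w).lin χ ≠ 0 := by
  intro h0
  rw [← lin_zero] at h0
  exact h (lin_injective h0)

theorem pm_inj : Function.Injective (tu s t w) := by
  intro k k' h
  have hk : ku s t k = ku s t k' := by
    by_contra hne
    have h1 := congrFun h (Sum.inl (ku s t k))
    have h2 : tu s t w k' (Sum.inl (ku s t k)) = 0 := by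
      have h3 : (Sum.inl (ku s t k) : (Q21 s t w).Fl) ≠ Sum.inl (ku s t k') :=
        fun h0 => hne (Sum.inl_injective h0)
      rcases k' with k' | k'
      · exact chr_ne _ _ _ h3
      · change -(Q21 s t w).chr (Sum.inl k'.1) (Sum.inl (ku s t k)) = 0
        rw [neg_eq_zero]
        exact chr_ne _ _ _ h3
    rw [h2] at h1
    rcases et_self s t w k with h4 | h4 <;> rw [h4] at h1 <;> exact absurd h1 (by norm_num)
  have h1 := congrFun h (Sum.inl (ku s t k))
  rcases k with k | k <;> rcases k' with k' | k'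
  · exact congrArg Sum.inl (Subtype.ext hk)
  · exfalso
    have h2 : k.1 = k'.1 := hk
    have h3 : (Q21 s t w).chr (Sum.inl k.1) (Sum.inl k.1)
      = -(Q21 s t w).chr (Sum.inl k'.1) (Sum.inl k.1) := h1
    rw [← h2, chr_self] at h3
    omega
  · exfalso
    have h2 : k.1 = k'.1 := hk
    have h3 : -(Q21 s t w).chr (Sum.inl k.1) (Sum.inl k.1)
      = (Q21 s t w).chr (Sum.inl k'.1) (Sum.inl k.1) := h1
    rw [← h2, chr_self] at h3
    omega
  · exact congrArg Sum.inr (Subtype.ext hk)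

section vanish

variable {ν : Fin 2 → ℤ} (hν : (Q21 s t w).Generic ν) {f : (Q21 s t w).SS}
    (hf : ∀ a, (Q21 s t w).FixedWt ν a → (Q21 s t w).ev a f = 0)

include hν hf

theorem vA1 (i j : Fin (w 0)) (k : Fin (w 1)) (hij : i ≠ j) :
    Alg.at3 (p0 s t w) (p1 s t w) (c0 s t w i) (c0 s t w j) (c1 s t w k) f = 0 := by
  have hxy : K0 s t w i ≠ K0 s t w j := by
    intro h
    have h1 := congrFun h (Sum.inr (F0 s t w i))
    rw [e00, e00n s t w hij] at h1
    exact absurd h1 (by norm_num)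
  have h := van s t w hν hf hxy (z := K1 s t w k) (Sum.inl (F0 s t w i)) (Sum.inl (F0 s t w j))
    (Sum.inl (F1 s t w k)) (ν 0) (ν 0) (ν 1)
    (po_frm0 s t w (F0 s t w i) rfl (col3_p0 ..) (col3_p0 ..))
    (po_frm0 s t w (F0 s t w j) rfl (col3_p1 ..) (col3_p1 ..))
    (po_frm0 s t w (F1 s t w k) rfl (col3_qq ..) (col3_qq ..))
    (fun χ => by
      simp only [Sum.elim_inl]
      ring)
  rw [lin_K0, lin_K0, lin_K1] at h
  exact h

theorem vA2 (i : Fin (w 0)) (e : PI s t) (k : Fin (w 1)) :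
    Alg.at3 (p0 s t w) (p1 s t w) (c0 s t w i) (c1 s t w k + nk s t w e) (c1 s t w k) f = 0 := by
  have hxy : K0 s t w i ≠ K1 s t w k + nu s t w e := by
    intro h
    have h1 := congrFun h (Sum.inr (F0 s t w i))
    rw [Pi.add_apply, e00, e10, en_inr] at h1
    exact absurd h1 (by norm_num)
  have h := van s t w hν hf hxy (z := K1 s t w k) (Sum.inl (F0 s t w i))
    (Sum.inr (qq s t w, e.1))
    (Sum.inl (F1 s t w k)) (ν 0) (ν 0) (ν 0 + ν 1)
    (po_frm0 s t w (F0 s t w i) rfl (col3_p0 ..) (col3_p0 ..))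
    (po_edge0 s t w rfl e (col3_p1 ..) (by rw [col3_p1, col3_qq]) (fun e' => by
      rw [col3_qq]
      exact Sum.inl_ne_inr))
    (po_frm0 s t w (F1 s t w k) rfl (col3_qq ..) (col3_qq ..))
    (fun χ => by
      simp only [Sum.elim_inl, Sum.elim_inr]
      ring)
  rw [lin_add, lin_nu, lin_K0, lin_K1] at h
  exact h

theorem vA3 (e e' : PI s t) (k : Fin (w 1)) (hne : e ≠ e') :
    Alg.at3 (p0 s t w) (p1 s t w) (c1 s t w k + nk s t w e) (c1 s t w k + nk s t w e')
      (c1 s t w k) f = 0 := by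
  have hxy : K1 s t w k + nu s t w e ≠ K1 s t w k + nu s t w e' := by
    intro h
    have h1 := congrFun h (Sum.inl e.1)
    rw [Pi.add_apply, Pi.add_apply, e1l, en_ne s t w e' (fun h0 => hne (Subtype.ext h0))] at h1
    rcases en_self s t w e with h2 | h2 <;> rw [h2] at h1 <;> exact absurd h1 (by norm_num)
  have h := van s t w hν hf hxy (z := K1 s t w k) (Sum.inr (qq s t w, e.1))
    (Sum.inr (qq s t w, e'.1))
    (Sum.inl (F1 s t w k)) (ν 0) (ν 0) (ν 1 + 2 * ν 0)
    (po_edge0 s t w rfl e (col3_p0 ..) (by rw [col3_p0, col3_qq]) (fun e' => by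
      rw [col3_qq]
      exact Sum.inl_ne_inr))
    (po_edge0 s t w rfl e' (col3_p1 ..) (by rw [col3_p1, col3_qq]) (fun e' => by
      rw [col3_qq]
      exact Sum.inl_ne_inr))
    (po_frm0 s t w (F1 s t w k) rfl (col3_qq ..) (col3_qq ..))
    (fun χ => by
      simp only [Sum.elim_inl, Sum.elim_inr]
      ring)
  rw [lin_add, lin_add, lin_nu, lin_nu, lin_K1] at h
  exact h

theorem vA4 (i : Fin (w 0)) (k : KI s t ⊕ KI s t) (j : Fin (w 1)) :
    Alg.at3 (p0 s t w) (p1 s t w) (c0 s t w i) (c0 s t w i + Alg.pm (tk s t w) k)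
      (c1 s t w j) f = 0 := by
  have hxy : K0 s t w i ≠ K0 s t w i + tu s t w k := by
    intro h
    have h1 := congrFun h (Sum.inl (ku s t k))
    rw [Pi.add_apply, e0l] at h1
    rcases et_self s t w k with h2 | h2 <;> rw [h2] at h1 <;> exact absurd h1 (by norm_num)
  have h := van s t w hν hf hxy (z := K1 s t w j) (Sum.inl (F0 s t w i))
    (Sum.inr (p0 s t w, ku s t k))
    (Sum.inl (F1 s t w j)) (2 * ν 0) (ν 0) (ν 1)
    (po_frm0 s t w (F0 s t w i) rfl (col3_p0 ..) (col3_p0 ..))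
    (po_loop s t w rfl rfl k (col3_p1 ..) (by rw [col3_p1, col3_p0]) (fun e' => by
      rw [col3_p0]
      exact Sum.inl_ne_inr))
    (po_frm0 s t w (F1 s t w j) rfl (col3_qq ..) (col3_qq ..))
    (fun χ => by
      simp only [Sum.elim_inl, Sum.elim_inr]
      ring)
  rw [lin_add, lin_tu, lin_K0, lin_K1] at h
  exact h

theorem vA5 (e : PI s t) (k : KI s t ⊕ KI s t) (j : Fin (w 1)) :
    Alg.at3 (p0 s t w) (p1 s t w) (c1 s t w j + nk s t w e)
      (c1 s t w j + nk s t w e + Alg.pm (tk s t w) k) (c1 s t w j) f = 0 := by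
  have hxy : K1 s t w j + nu s t w e ≠ K1 s t w j + nu s t w e + tu s t w k := by
    intro h
    have h1 := congrFun h (Sum.inl (ku s t k))
    rw [Pi.add_apply _ (tu s t w k)] at h1
    rcases et_self s t w k with h2 | h2 <;> rw [h2] at h1 <;> omega
  have h := van s t w hν hf hxy (z := K1 s t w j) (Sum.inr (qq s t w, e.1))
    (Sum.inr (p0 s t w, ku s t k))
    (Sum.inl (F1 s t w j)) (2 * ν 0) (ν 0) (2 * ν 0 + ν 1)
    (po_edge0 s t w rfl e (col3_p0 ..) (by rw [col3_p0, col3_qq]) (fun e' => by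
      rw [col3_qq]
      exact Sum.inl_ne_inr))
    (po_loop s t w rfl rfl k (col3_p1 ..) (by rw [col3_p1, col3_p0]) (fun e' => by
      rw [col3_p0]
      intro h0
      exact qq_ne_p1 s t w (Prod.mk.inj (Sum.inr_injective h0)).1))
    (po_frm0 s t w (F1 s t w j) rfl (col3_qq ..) (col3_qq ..))
    (fun χ => by
      simp only [Sum.elim_inl, Sum.elim_inr]
      ring)
  rw [lin_add (K1 s t w j + nu s t w e) (tu s t w k), lin_add, lin_tu, lin_nu, lin_K1] at h
  exact h

theorem vB1 (i j : Fin (w 0)) (e : PI s t) (hij : i ≠ j) :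
    Alg.at3 (p0 s t w) (p1 s t w) (c0 s t w i) (c0 s t w j) (c0 s t w i - nk s t w e) f = 0 := by
  have hxy : K0 s t w i ≠ K0 s t w j := by
    intro h
    have h1 := congrFun h (Sum.inr (F0 s t w i))
    rw [e00, e00n s t w hij] at h1
    exact absurd h1 (by norm_num)
  have h := van s t w hν hf hxy (z := K0 s t w i - nu s t w e)
    (Sum.inl (F0 s t w i)) (Sum.inl (F0 s t w j))
    (Sum.inr (p0 s t w, e.1)) (ν 0 + ν 1) (ν 0) (ν 1)
    (po_frm0 s t w (F0 s t w i) rfl (col3_p0 ..) (col3_p0 ..))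
    (po_frm0 s t w (F0 s t w j) rfl (col3_p1 ..) (col3_p1 ..))
    (po_edge1 s t w (d := p0 s t w) rfl e (col3_qq ..) (by rw [col3_qq, col3_p0]) (fun e' => by
      rw [col3_p0]
      exact Sum.inl_ne_inr))
    (fun χ => by
      simp only [Sum.elim_inl, Sum.elim_inr]
      ring)
  rw [lin_sub, lin_nu, lin_K0, lin_K0] at h
  exact h

theorem vB2 (i : Fin (w 0)) (e e' : PI s t) (hne : e ≠ e') :
    Alg.at3 (p0 s t w) (p1 s t w) (c0 s t w i) (c0 s t w i - nk s t w e + nk s t w e')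
      (c0 s t w i - nk s t w e) f = 0 := by
  have hxy : K0 s t w i ≠ K0 s t w i - nu s t w e + nu s t w e' := by
    intro h
    have h1 := congrFun h (Sum.inl e.1)
    rw [Pi.add_apply, Pi.sub_apply, e0l, en_ne s t w e' (fun h0 => hne (Subtype.ext h0))] at h1
    rcases en_self s t w e with h2 | h2 <;> rw [h2] at h1 <;> exact absurd h1 (by norm_num)
  have h := van s t w hν hf hxy (z := K0 s t w i - nu s t w e)
    (Sum.inl (F0 s t w i)) (Sum.inr (qq s t w, e'.1))
    (Sum.inr (p0 s t w, e.1)) (2 * ν 0 + ν 1) (ν 0) (ν 0 + ν 1)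
    (po_frm0 s t w (F0 s t w i) rfl (col3_p0 ..) (col3_p0 ..))
    (po_edge0 s t w rfl e' (col3_p1 ..) (by rw [col3_p1, col3_qq]) (fun e' => by
      rw [col3_qq]
      intro h0
      exact p0_ne_p1 s t w (Prod.mk.inj (Sum.inr_injective h0)).1))
    (po_edge1 s t w (d := p0 s t w) rfl e (col3_qq ..) (by rw [col3_qq, col3_p0]) (fun e' => by
      rw [col3_p0]
      exact Sum.inl_ne_inr))
    (fun χ => by
      simp only [Sum.elim_inl, Sum.elim_inr]
      ring)
  rw [lin_add, lin_sub, lin_nu, lin_nu, lin_K0] at h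
  exact h

theorem vB3 (i : Fin (w 0)) (k : KI s t ⊕ KI s t) (e : PI s t) :
    Alg.at3 (p0 s t w) (p1 s t w) (c0 s t w i) (c0 s t w i + Alg.pm (tk s t w) k)
      (c0 s t w i - nk s t w e) f = 0 := by
  have hxy : K0 s t w i ≠ K0 s t w i + tu s t w k := by
    intro h
    have h1 := congrFun h (Sum.inl (ku s t k))
    rw [Pi.add_apply, e0l] at h1
    rcases et_self s t w k with h2 | h2 <;> rw [h2] at h1 <;> exact absurd h1 (by norm_num)
  have h := van s t w hν hf hxy (z := K0 s t w i - nu s t w e)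
    (Sum.inl (F0 s t w i)) (Sum.inr (p0 s t w, ku s t k))
    (Sum.inr (p0 s t w, e.1)) (2 * ν 0 + ν 1) (ν 0) (ν 1)
    (po_frm0 s t w (F0 s t w i) rfl (col3_p0 ..) (col3_p0 ..))
    (po_loop s t w rfl rfl k (col3_p1 ..) (by rw [col3_p1, col3_p0]) (fun e' => by
      rw [col3_p0]
      exact Sum.inl_ne_inr))
    (po_edge1 s t w (d := p0 s t w) rfl e (col3_qq ..) (by rw [col3_qq, col3_p0]) (fun e' => by
      rw [col3_p0]
      exact Sum.inl_ne_inr))
    (fun χ => by
      simp only [Sum.elim_inl, Sum.elim_inr]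
      ring)
  rw [lin_sub, lin_add, lin_tu, lin_nu, lin_K0] at h
  exact h

theorem vB4 (i : Fin (w 0)) (k : KI s t ⊕ KI s t) (e : PI s t) :
    Alg.at3 (p0 s t w) (p1 s t w) (c0 s t w i) (c0 s t w i + Alg.pm (tk s t w) k)
      (c0 s t w i + Alg.pm (tk s t w) k - nk s t w e) f = 0 := by
  have hxy : K0 s t w i ≠ K0 s t w i + tu s t w k := by
    intro h
    have h1 := congrFun h (Sum.inl (ku s t k))
    rw [Pi.add_apply, e0l] at h1
    rcases et_self s t w k with h2 | h2 <;> rw [h2] at h1 <;> exact absurd h1 (by norm_num)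
  have h := van s t w hν hf hxy (z := K0 s t w i + tu s t w k - nu s t w e)
    (Sum.inl (F0 s t w i)) (Sum.inr (p0 s t w, ku s t k))
    (Sum.inr (p1 s t w, e.1)) (2 * ν 0 + ν 1) (ν 0 + ν 1) (ν 1)
    (po_frm0 s t w (F0 s t w i) rfl (col3_p0 ..) (col3_p0 ..))
    (po_loop s t w rfl rfl k (col3_p1 ..) (by rw [col3_p1, col3_p0]) (fun e' => by
      rw [col3_p0]
      exact Sum.inl_ne_inr))
    (po_edge1 s t w (d := p1 s t w) rfl e (col3_qq ..) (by rw [col3_qq, col3_p1]) (fun e' => by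
      rw [col3_p1]
      intro h0
      exact p0_ne_qq s t w (Prod.mk.inj (Sum.inr_injective h0)).1))
    (fun χ => by
      simp only [Sum.elim_inl, Sum.elim_inr]
      ring)
  rw [lin_sub, lin_add, lin_tu, lin_nu, lin_K0] at h
  exact h

end vanish

/-! ### Nondegeneracy -/

theorem n1 (i j : Fin (w 0)) (h : i ≠ j) : c0 s t w i ≠ c0 s t w j := by
  intro h0
  rw [← lin_K0, ← lin_K0] at h0
  have h1 := congrFun (lin_injective h0) (Sum.inr (F0 s t w i))
  rw [e00, e00n s t w h] at h1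
  exact absurd h1 (by norm_num)

theorem n2 (i j : PI s t) (h : i ≠ j) : nk s t w i ≠ nk s t w j := by
  intro h0
  rw [← lin_nu, ← lin_nu] at h0
  have h1 := congrFun (lin_injective h0) (Sum.inl i.1)
  rw [en_ne s t w j (fun h0 => h (Subtype.ext h0))] at h1
  rcases en_self s t w i with h2 | h2 <;> rw [h2] at h1 <;> exact absurd h1 (by norm_num)

theorem n3 : Function.Injective (c1 s t w) := by
  intro i j h0
  by_contra h
  rw [← lin_K1, ← lin_K1] at h0
  have h1 := congrFun (lin_injective h0) (Sum.inr (F1 s t w i))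
  rw [e11, e11n s t w h] at h1
  exact absurd h1 (by norm_num)

theorem n4 (i j : KI s t ⊕ KI s t) (h : i ≠ j) :
    Alg.pm (tk s t w) i ≠ Alg.pm (tk s t w) j := by
  intro h0
  rw [← lin_tu, ← lin_tu] at h0
  exact h (pm_inj s t w (lin_injective h0))

theorem n6 (i j : Fin (w 0)) (k : KI s t ⊕ KI s t) :
    c0 s t w i + Alg.pm (tk s t w) k - c0 s t w j ≠ 0 := by
  intro h0
  rw [← lin_K0, ← lin_K0, ← lin_tu, ← lin_add, ← lin_sub, ← lin_zero] at h0
  have h1 := congrFun (lin_injective h0) (Sum.inl (ku s t k))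
  rw [Pi.sub_apply, Pi.add_apply, e0l, e0l, Pi.zero_apply] at h1
  rcases et_self s t w k with h2 | h2 <;> rw [h2] at h1 <;> exact absurd h1 (by norm_num)

theorem n7 (i j : PI s t) (k : KI s t ⊕ KI s t) :
    nk s t w i + Alg.pm (tk s t w) k - nk s t w j ≠ 0 := by
  intro h0
  rw [← lin_nu, ← lin_nu, ← lin_tu, ← lin_add, ← lin_sub, ← lin_zero] at h0
  have h1 := congrFun (lin_injective h0) (Sum.inl (ku s t k))
  rw [Pi.sub_apply, Pi.add_apply, en_ne s t w i (ku_ne s t k i), en_ne s t w j (ku_ne s t k j),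
    Pi.zero_apply] at h1
  rcases et_self s t w k with h2 | h2 <;> rw [h2] at h1 <;> exact absurd h1 (by norm_num)

theorem n8 (i j : Fin (w 0)) (h : i ≠ j) (e e' : PI s t) :
    (c0 s t w i - nk s t w e) - (c0 s t w j - nk s t w e') ≠ 0 := by
  intro h0
  rw [← lin_K0, ← lin_K0, ← lin_nu, ← lin_nu, ← lin_sub, ← lin_sub, ← lin_sub, ← lin_zero] at h0
  have h1 := congrFun (lin_injective h0) (Sum.inr (F0 s t w i))
  rw [Pi.sub_apply, Pi.sub_apply, Pi.sub_apply, e00, e00n s t w h, en_inr, en_inr,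
    Pi.zero_apply] at h1
  exact absurd h1 (by norm_num)

theorem n9 (i : Fin (w 0)) (j : Fin (w 1)) (e : PI s t) :
    c0 s t w i - c1 s t w j - nk s t w e ≠ 0 := by
  intro h0
  rw [← lin_K0, ← lin_K1, ← lin_nu, ← lin_sub, ← lin_sub, ← lin_zero] at h0
  have h1 := congrFun (lin_injective h0) (Sum.inr (F0 s t w i))
  rw [Pi.sub_apply, Pi.sub_apply, e00, e10, en_inr, Pi.zero_apply] at h1
  exact absurd h1 (by norm_num)

theorem n10 (i : Fin (w 0)) (j : Fin (w 1)) (e : PI s t) (k : KI s t ⊕ KI s t) :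
    c0 s t w i + Alg.pm (tk s t w) k - nk s t w e - c1 s t w j ≠ 0 := by
  intro h0
  rw [← lin_K0, ← lin_K1, ← lin_nu, ← lin_tu, ← lin_add, ← lin_sub, ← lin_sub, ← lin_zero] at h0
  have h1 := congrFun (lin_injective h0) (Sum.inr (F0 s t w i))
  rw [Pi.sub_apply, Pi.sub_apply, Pi.add_apply, e00, e10, en_inr, et_inr, Pi.zero_apply] at h1
  exact absurd h1 (by norm_num)

theorem n10' (i : Fin (w 0)) (j : Fin (w 1)) (e : PI s t) (k : KI s t ⊕ KI s t) :
    c0 s t w i - Alg.pm (tk s t w) k - nk s t w e - c1 s t w j ≠ 0 := by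
  intro h0
  rw [← lin_K0, ← lin_K1, ← lin_nu, ← lin_tu, ← lin_sub, ← lin_sub, ← lin_sub, ← lin_zero] at h0
  have h1 := congrFun (lin_injective h0) (Sum.inr (F0 s t w i))
  rw [Pi.sub_apply, Pi.sub_apply, Pi.sub_apply, e00, e10, en_inr, et_inr, Pi.zero_apply] at h1
  exact absurd h1 (by norm_num)

/-- Every class killed by all fixed point restrictions dies on the fixed scheme. -/
theorem inJ_of_van {ν : Fin 2 → ℤ} (hν : (Q21 s t w).Generic ν) {f : (Q21 s t w).SS}
    (hR : f ∈ (Q21 s t w).RR)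
    (hf : ∀ a, (Q21 s t w).FixedWt ν a → (Q21 s t w).ev a f = 0) : (Q21 s t w).InJ ν f := by
  obtain ⟨κ, z, α, β, x, y, hz, hα, hβ, e⟩ := Alg.T7 (p1_ne_p0 s t w) (qq_ne_p0 s t w)
    (qq_ne_p1 s t w) (col_cases s t w) (c0 s t w) (nk s t w) (c1 s t w) (tk s t w)
    (two_mul_half (Q21 s t w)) (n1 s t w) (n2 s t w) (n3 s t w) (n4 s t w)
    (fun i j k => n6 s t w i j k) (fun i j k => n7 s t w i j k) (n8 s t w) (n9 s t w)
    (n10 s t w) (n10' s t w) f ((mem_RR s t w f).mp hR)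
    (vA1 s t w hν hf) (vA2 s t w hν hf) (vA3 s t w hν hf) (vA4 s t w hν hf) (vA5 s t w hν hf)
    (vB1 s t w hν hf) (vB2 s t w hν hf) (vB3 s t w hν hf) (vB4 s t w hν hf)
  rw [e]
  exact inJ_comb s t w hν κ z α β x y hz hα hβ

theorem multFree_of_fixedWt {ν : Fin 2 → ℤ} {a : (Q21 s t w).Col → (Q21 s t w).Fl → ℤ}
    (ha : (Q21 s t w).FixedWt ν a) : (Q21 s t w).MultFree a := by
  intro c d h1 h2 h3
  have h := fixedWt_ne ha
  rcases col_cases s t w c with rfl | rfl | rfl <;> rcases col_cases s t w d with rfl | rfl | rfl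
  all_goals first
    | exact h2 rfl
    | exact h h3
    | exact h h3.symm
    | (have h4 : (0 : Fin 2) = 1 := h1
       exact f01 h4)
    | (have h4 : (1 : Fin 2) = 0 := h1
       exact f10 h4)

/-- Hikita's statement for dimension vector `(2, 1)`. -/
theorem main21 {ν : Fin 2 → ℤ} (hν : (Q21 s t w).Generic ν) :
    Function.Surjective (algebraMap (Q21 s t w).RR ((Q21 s t w).AF ⧸ (Q21 s t w).J ν)) ∧
    RingHom.ker (algebraMap (Q21 s t w).RR ((Q21 s t w).AF ⧸ (Q21 s t w).J ν))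
      = (Q21 s t w).kerH ν := by
  obtain ⟨h1, h2⟩ := general hν
  refine ⟨h1, ?_⟩
  ext f
  rw [RingHom.mem_ker]
  constructor
  · intro hf a ha
    exact h2 f hf a ha (multFree_of_fixedWt s t w ha)
  · intro hf
    obtain ⟨h3, h4⟩ := inJ_of_van s t w hν f.2 hf
    exact Ideal.Quotient.eq_zero_iff_mem.mpr h4

end QData

end Vale.Agent.P291.H808
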