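import Vale.Agent.P291.H808.TwoOneSign
import Vale.Agent.P291.H808.Forest
import Vale.Agent.P291.H808.NoDouble

/-!
# The fixed points used for dimension vector `(2, 1)`
-/

set_option linter.unusedSectionVars false
set_option linter.unusedSimpArgs false

namespace Vale.Agent.P291.H808

open MvPolynomial

namespace QData

variable {E : Type} [Fintype E] [DecidableEq E] (s t : E → Fin 2) (w : Fin 2 → ℕ)

theorem col3_inj {T : Type} (x y z : T) (h : x ≠ y) :
    ∀ c d : (Q21 s t w).Col, c.1 = d.1 → col3 s t w x y z c = col3 s t w x y z d → c = d := by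
  intro c d h1 h2
  rcases col_cases s t w c with rfl | rfl | rfl <;> rcases col_cases s t w d with rfl | rfl | rfl
  all_goals first
    | rfl
    | (exfalso
       rw [col3_p0, col3_p1] at h2
       exact h h2)
    | (exfalso
       rw [col3_p0, col3_p1] at h2
       exact h h2.symm)
    | (exfalso
       have h3 : (0 : Fin 2) = 1 := h1
       exact f01 h3)
    | (exfalso
       have h3 : (1 : Fin 2) = 0 := h1
       exact f10 h3)

theorem ev_col3 (x y z : (Q21 s t w).Fl → ℤ) (f : (Q21 s t w).SS) :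
    (Q21 s t w).ev (col3 s t w x y z) f
      = Alg.at3 (p0 s t w) (p1 s t w) ((Q21 s t w).lin x) ((Q21 s t w).lin y)
        ((Q21 s t w).lin z) f := by
  unfold ev Alg.at3
  have h : (fun c => (Q21 s t w).lin (col3 s t w x y z c))
      = Alg.tri (p0 s t w) (p1 s t w) ((Q21 s t w).lin x) ((Q21 s t w).lin y)
        ((Q21 s t w).lin z) := by
    funext c
    unfold Alg.tri
    rcases col_cases s t w c with rfl | rfl | rfl
    · rw [col3_p0, if_pos rfl]
    · rw [col3_p1, if_neg (p1_ne_p0 s t w), if_pos rfl]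
    · rw [col3_qq, if_neg (qq_ne_p0 s t w), if_neg (qq_ne_p1 s t w)]
  rw [h]

/-- the condition on the parent of a colour -/
def PO (a : (Q21 s t w).Col → (Q21 s t w).Fl → ℤ)
    (par : (Q21 s t w).Col → (Q21 s t w).Frm ⊕ (Q21 s t w).Col × E) (c : (Q21 s t w).Col) : Prop :=
  (∃ l, par c = Sum.inl l ∧ l.1 = c.1 ∧ (Q21 s t w).chr (Sum.inr l) - a c = 0) ∨
  (∃ d e, par c = Sum.inr (d, e) ∧ ((c.1 = t e ∧ d.1 = s e ∧
      a c - a d + (Q21 s t w).chr (Sum.inl e) = 0) ∨
    (c.1 = s e ∧ d.1 = t e ∧ a d - a c + (Q21 s t w).chr (Sum.inl e) = 0)) ∧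
    ∀ e', par d ≠ Sum.inr (c, e'))

variable {s t w} in
theorem mk_forest {ν : Fin 2 → ℤ} {a : (Q21 s t w).Col → (Q21 s t w).Fl → ℤ}
    {par : (Q21 s t w).Col → (Q21 s t w).Frm ⊕ (Q21 s t w).Col × E}
    {n : (Q21 s t w).Col → ℤ}
    (h0 : PO s t w a par (p0 s t w)) (h1 : PO s t w a par (p1 s t w))
    (h2 : PO s t w a par (qq s t w))
    (hfl : ∀ χ : (Q21 s t w).Col → ℤ,
      χ (p0 s t w) * ν 0 + χ (p1 s t w) * ν 0 + χ (qq s t w) * ν 1
        = (χ (p0 s t w) - pchi par χ (p0 s t w)) * n (p0 s t w)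
          + (χ (p1 s t w) - pchi par χ (p1 s t w)) * n (p1 s t w)
          + (χ (qq s t w) - pchi par χ (qq s t w)) * n (qq s t w)) :
    Forest (Q21 s t w) ν a par n := by
  have hall : ∀ c, PO s t w a par c := by
    intro c
    rcases col_cases s t w c with rfl | rfl | rfl
    · exact h0
    · exact h1
    · exact h2
  refine ⟨?_, ?_, ?_, ?_⟩
  · intro c l hl
    rcases hall c with ⟨l', h1, h2, h3⟩ | ⟨d, e, h1, _⟩
    · rw [h1] at hl
      obtain rfl := Sum.inl_injective hl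
      exact ⟨h2, h3⟩
    · rw [h1] at hl
      exact absurd hl (by simp)
  · intro c d e hl
    rcases hall c with ⟨l', h1, _⟩ | ⟨d', e', h1, h2, _⟩
    · rw [h1] at hl
      exact absurd hl (by simp)
    · rw [h1] at hl
      obtain ⟨rfl, rfl⟩ := Prod.mk.inj (Sum.inr_injective hl)
      exact h2
  · intro c d e e' hl
    rcases hall c with ⟨l', h1, _⟩ | ⟨d', e'', h1, _, h2⟩
    · rw [h1] at hl
      exact absurd hl (by simp)
    · rw [h1] at hl
      obtain ⟨rfl, rfl⟩ := Prod.mk.inj (Sum.inr_injective hl)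
      exact h2 e'
  · intro χ
    rw [sum_col, sum_col]
    exact hfl χ

/-- A function killing all fixed points vanishes at the point described by a forest. -/
theorem van {ν : Fin 2 → ℤ} (hν : (Q21 s t w).Generic ν) {f : (Q21 s t w).SS}
    (hf : ∀ a, (Q21 s t w).FixedWt ν a → (Q21 s t w).ev a f = 0)
    {x y z : (Q21 s t w).Fl → ℤ} (hxy : x ≠ y)
    (px py pz : (Q21 s t w).Frm ⊕ (Q21 s t w).Col × E) (nx ny nz : ℤ)
    (h0 : PO s t w (col3 s t w x y z) (col3 s t w px py pz) (p0 s t w))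
    (h1 : PO s t w (col3 s t w x y z) (col3 s t w px py pz) (p1 s t w))
    (h2 : PO s t w (col3 s t w x y z) (col3 s t w px py pz) (qq s t w))
    (hfl : ∀ χ : (Q21 s t w).Col → ℤ,
      χ (p0 s t w) * ν 0 + χ (p1 s t w) * ν 0 + χ (qq s t w) * ν 1
        = (χ (p0 s t w) - Sum.elim (fun _ => 0) (fun ce => χ ce.1) px) * nx
          + (χ (p1 s t w) - Sum.elim (fun _ => 0) (fun ce => χ ce.1) py) * ny
          + (χ (qq s t w) - Sum.elim (fun _ => 0) (fun ce => χ ce.1) pz) * nz) :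
    Alg.at3 (p0 s t w) (p1 s t w) ((Q21 s t w).lin x) ((Q21 s t w).lin y)
        ((Q21 s t w).lin z) f = 0 := by
  rw [← ev_col3]
  apply hf
  have hF : Forest (Q21 s t w) ν (col3 s t w x y z) (col3 s t w px py pz)
      (col3 s t w nx ny nz) := by
    refine mk_forest h0 h1 h2 ?_
    intro χ
    unfold pchi
    rw [col3_p0, col3_p1, col3_qq, col3_p0, col3_p1, col3_qq]
    exact hfl χ
  exact hF.fixedWt hν (fun c d h1 h2 h3 => h2 (col3_inj s t w x y z hxy c d h1 h3))

/-! ### Parents -/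

/-- the character of an edge, with sign -/
def nu (e : PI s t) : (Q21 s t w).Fl → ℤ :=
  if s e.1 = 0 then (Q21 s t w).chr (Sum.inl e.1) else -(Q21 s t w).chr (Sum.inl e.1)

theorem lin_nu (e : PI s t) : (Q21 s t w).lin (nu s t w e) = nk s t w e := by
  unfold nu nk
  split_ifs
  · rw [lin_chr]
  · rw [lin_neg, lin_chr]

/-- the character of a loop, with sign -/
def tu (k : KI s t ⊕ KI s t) : (Q21 s t w).Fl → ℤ :=
  Sum.elim (fun k => (Q21 s t w).chr (Sum.inl k.1)) (fun k => -(Q21 s t w).chr (Sum.inl k.1)) k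

theorem lin_tu (k : KI s t ⊕ KI s t) : (Q21 s t w).lin (tu s t w k)
    = Alg.pm (tk s t w) k := by
  rcases k with k | k
  · exact lin_chr _
  · change (Q21 s t w).lin (-(Q21 s t w).chr (Sum.inl k.1)) = -tk s t w k
    rw [lin_neg, lin_chr]
    rfl

/-- the underlying arrow of a signed loop -/
def ku (k : KI s t ⊕ KI s t) : E := Sum.elim (fun k => k.1) (fun k => k.1) k

theorem ku_s (k : KI s t ⊕ KI s t) : s (ku s t k) = 0 ∧ t (ku s t k) = 0 := by
  rcases k with k | k
  · exact k.2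
  · exact k.2

/-- a colour of vertex 0 attached to the framing -/
theorem po_frm0 {a : (Q21 s t w).Col → (Q21 s t w).Fl → ℤ}
    {par : (Q21 s t w).Col → (Q21 s t w).Frm ⊕ (Q21 s t w).Col × E} {c : (Q21 s t w).Col}
    (l : (Q21 s t w).Frm) (hc : l.1 = c.1) (h1 : par c = Sum.inl l)
    (h2 : a c = (Q21 s t w).chr (Sum.inr l)) : PO s t w a par c :=
  Or.inl ⟨l, h1, hc, by rw [h2, sub_self]⟩

/-- a colour of vertex 0 attached to the colour of vertex 1 -/
theorem po_edge0 {a : (Q21 s t w).Col → (Q21 s t w).Fl → ℤ}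
    {par : (Q21 s t w).Col → (Q21 s t w).Frm ⊕ (Q21 s t w).Col × E} {c : (Q21 s t w).Col}
    (hc : c.1 = 0) (e : PI s t) (h1 : par c = Sum.inr (qq s t w, e.1))
    (h2 : a c = a (qq s t w) + nu s t w e) (h3 : ∀ e', par (qq s t w) ≠ Sum.inr (c, e')) :
    PO s t w a par c := by
  refine Or.inr ⟨qq s t w, e.1, h1, ?_, h3⟩
  have hq : (qq s t w).1 = 1 := rfl
  have he := e.2
  unfold nu at h2
  rcases fin_cases2 (s e.1) with hs | hs <;> rcases fin_cases2 (t e.1) with ht | ht
  · exact absurd (hs.trans ht.symm) he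
  · right
    refine ⟨hc.trans hs.symm, hq.trans ht.symm, ?_⟩
    rw [if_pos hs] at h2
    rw [h2]
    abel
  · left
    refine ⟨hc.trans ht.symm, hq.trans hs.symm, ?_⟩
    rw [if_neg (by rw [hs]; exact f10)] at h2
    rw [h2]
    abel
  · exact absurd (hs.trans ht.symm) he

/-- the colour of vertex 1 attached to a colour of vertex 0 -/
theorem po_edge1 {a : (Q21 s t w).Col → (Q21 s t w).Fl → ℤ}
    {par : (Q21 s t w).Col → (Q21 s t w).Frm ⊕ (Q21 s t w).Col × E} {d : (Q21 s t w).Col}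
    (hd : d.1 = 0) (e : PI s t) (h1 : par (qq s t w) = Sum.inr (d, e.1))
    (h2 : a (qq s t w) = a d - nu s t w e) (h3 : ∀ e', par d ≠ Sum.inr (qq s t w, e')) :
    PO s t w a par (qq s t w) := by
  refine Or.inr ⟨d, e.1, h1, ?_, h3⟩
  have hq : (qq s t w).1 = 1 := rfl
  have he := e.2
  unfold nu at h2
  rcases fin_cases2 (s e.1) with hs | hs <;> rcases fin_cases2 (t e.1) with ht | ht
  · exact absurd (hs.trans ht.symm) he
  · left
    refine ⟨hq.trans ht.symm, hd.trans hs.symm, ?_⟩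
    rw [if_pos hs] at h2
    rw [h2]
    abel
  · right
    refine ⟨hq.trans hs.symm, hd.trans ht.symm, ?_⟩
    rw [if_neg (by rw [hs]; exact f10)] at h2
    rw [h2]
    abel
  · exact absurd (hs.trans ht.symm) he

/-- a colour of vertex 0 attached to the other one by a loop -/
theorem po_loop {a : (Q21 s t w).Col → (Q21 s t w).Fl → ℤ}
    {par : (Q21 s t w).Col → (Q21 s t w).Frm ⊕ (Q21 s t w).Col × E} {c d : (Q21 s t w).Col}
    (hc : c.1 = 0) (hd : d.1 = 0) (k : KI s t ⊕ KI s t) (h1 : par c = Sum.inr (d, ku s t k))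
    (h2 : a c = a d + tu s t w k) (h3 : ∀ e', par d ≠ Sum.inr (c, e')) :
    PO s t w a par c := by
  refine Or.inr ⟨d, ku s t k, h1, ?_, h3⟩
  obtain ⟨hs, ht⟩ := ku_s s t k
  rcases k with k | k
  · right
    refine ⟨hc.trans hs.symm, hd.trans ht.symm, ?_⟩
    rw [h2]
    change a d - (a d + (Q21 s t w).chr (Sum.inl k.1)) + (Q21 s t w).chr (Sum.inl k.1) = 0
    abel
  · left
    refine ⟨hc.trans ht.symm, hd.trans hs.symm, ?_⟩
    rw [h2]
    change a d + -(Q21 s t w).chr (Sum.inl k.1) - a d + (Q21 s t w).chr (Sum.inl k.1) = 0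
    abel

end QData

end Vale.Agent.P291.H808
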