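import Vale.Agent.P291.H808.TwoOne

/-!
# Products of the factors `r^lam` for dimension vector `(2, 1)`
-/

set_option linter.unusedSectionVars false
set_option linter.unusedSimpArgs false
set_option linter.unnecessarySeqFocus false
set_option linter.unreachableTactic false
set_option linter.unusedTactic false

namespace Vale.Agent.P291.H808

open MvPolynomial

namespace QData

variable {E : Type} [Fintype E] [DecidableEq E] (s t : E → Fin 2) (w : Fin 2 → ℕ)

theorem fin2 (i : Fin 2) : i = 0 ∨ i = 1 := by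
  fin_cases i
  · left; rfl
  · right; rfl

theorem x1 : ((1 : ℤ) - 0).toNat = 1 := rfl
theorem x2 : ((0 : ℤ) - 1).toNat = 0 := rfl
theorem x3 : ((-1 : ℤ) - 0).toNat = 0 := rfl
theorem x4 : ((0 : ℤ) - (-1)).toNat = 1 := rfl
theorem x5 : ((1 : ℤ) - 1).toNat = 0 := rfl
theorem x6 : ((-1 : ℤ) - (-1)).toNat = 0 := rfl
theorem x7 : ((0 : ℤ) - 0).toNat = 0 := rfl
theorem x8 : (1 : ℤ).toNat = 1 := rfl
theorem x9 : (-1 : ℤ).toNat = 0 := rfl
theorem x10 : (0 : ℤ).toNat = 0 := rfl

theorem fin2_01 : ¬ ((0 : Fin 2) = 1) := by decide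
theorem fin2_10 : ¬ ((1 : Fin 2) = 0) := by decide

theorem P1 : (Q21 s t w).rc (lam3 s t w 1 0 0) * (Q21 s t w).rc (lam3 s t w (-1) 0 0)
    = Ot s t w * Pt s t w (U s t w) * Wt s t w (U s t w) := by
  have h : ∀ e, ge s t w (t e) (s e) (me s t w e) (lam3 s t w 1 0 0) *
      ge s t w (t e) (s e) (me s t w e) (lam3 s t w (-1) 0 0)
      = oe s t w e * pe s t w e (U s t w) := by
    intro e
    rcases fin2 (t e) with ht | ht <;> rcases fin2 (s e) with hs | hs <;> rw [ht, hs] <;>
      simp only [ge00, ge01, ge10, ge11, oe, pe, hs, ht, x1, x2, x3, x4, x5, x6, x7, pow_zero,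
        pow_one, mul_one, one_mul, and_self, if_true, fin2_01, fin2_10, false_and, and_false,
        if_false, and_true, true_and] <;> ring

  rw [rc_eq, rc_eq, mul_mul_mul_comm, ← Finset.prod_mul_distrib, Finset.prod_congr rfl
    (fun e _ => h e)]
  simp only [x8, x9, x10, pow_zero, pow_one, mul_one, one_mul, Finset.prod_mul_distrib,
    Finset.prod_const_one, Ot, Pt]
  try ring

theorem P1' : (Q21 s t w).rc (lam3 s t w 0 1 0) * (Q21 s t w).rc (lam3 s t w 0 (-1) 0)
    = Ot s t w * Pt s t w (V s t w) * Wt s t w (V s t w) := by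
  have h : ∀ e, ge s t w (t e) (s e) (me s t w e) (lam3 s t w 0 1 0) *
      ge s t w (t e) (s e) (me s t w e) (lam3 s t w 0 (-1) 0)
      = oe s t w e * pe s t w e (V s t w) := by
    intro e
    rcases fin2 (t e) with ht | ht <;> rcases fin2 (s e) with hs | hs <;> rw [ht, hs] <;>
      simp only [ge00, ge01, ge10, ge11, oe, pe, hs, ht, x1, x2, x3, x4, x5, x6, x7, pow_zero,
        pow_one, mul_one, one_mul, and_self, if_true, fin2_01, fin2_10, false_and, and_false,
        if_false, and_true, true_and] <;> ring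

  rw [rc_eq, rc_eq, mul_mul_mul_comm, ← Finset.prod_mul_distrib, Finset.prod_congr rfl
    (fun e _ => h e)]
  simp only [x8, x9, x10, pow_zero, pow_one, mul_one, one_mul, Finset.prod_mul_distrib,
    Finset.prod_const_one, Ot, Pt]
  try ring

theorem P2 : (Q21 s t w).rc (lam3 s t w 1 0 1) * (Q21 s t w).rc (lam3 s t w (-1) 0 (-1))
    = Ot s t w * Pt s t w (V s t w) * Wt s t w (U s t w) * Bt s t w := by
  have h : ∀ e, ge s t w (t e) (s e) (me s t w e) (lam3 s t w 1 0 1) *
      ge s t w (t e) (s e) (me s t w e) (lam3 s t w (-1) 0 (-1))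
      = oe s t w e * pe s t w e (V s t w) := by
    intro e
    rcases fin2 (t e) with ht | ht <;> rcases fin2 (s e) with hs | hs <;> rw [ht, hs] <;>
      simp only [ge00, ge01, ge10, ge11, oe, pe, hs, ht, x1, x2, x3, x4, x5, x6, x7, pow_zero,
        pow_one, mul_one, one_mul, and_self, if_true, fin2_01, fin2_10, false_and, and_false,
        if_false, and_true, true_and] <;> ring

  rw [rc_eq, rc_eq, mul_mul_mul_comm, ← Finset.prod_mul_distrib, Finset.prod_congr rfl
    (fun e _ => h e)]
  simp only [x8, x9, x10, pow_zero, pow_one, mul_one, one_mul, Finset.prod_mul_distrib,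
    Finset.prod_const_one, Ot, Pt]
  try ring

theorem P2' : (Q21 s t w).rc (lam3 s t w 0 1 1) * (Q21 s t w).rc (lam3 s t w 0 (-1) (-1))
    = Ot s t w * Pt s t w (U s t w) * Wt s t w (V s t w) * Bt s t w := by
  have h : ∀ e, ge s t w (t e) (s e) (me s t w e) (lam3 s t w 0 1 1) *
      ge s t w (t e) (s e) (me s t w e) (lam3 s t w 0 (-1) (-1))
      = oe s t w e * pe s t w e (U s t w) := by
    intro e
    rcases fin2 (t e) with ht | ht <;> rcases fin2 (s e) with hs | hs <;> rw [ht, hs] <;>
      simp only [ge00, ge01, ge10, ge11, oe, pe, hs, ht, x1, x2, x3, x4, x5, x6, x7, pow_zero,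
        pow_one, mul_one, one_mul, and_self, if_true, fin2_01, fin2_10, false_and, and_false,
        if_false, and_true, true_and] <;> ring

  rw [rc_eq, rc_eq, mul_mul_mul_comm, ← Finset.prod_mul_distrib, Finset.prod_congr rfl
    (fun e _ => h e)]
  simp only [x8, x9, x10, pow_zero, pow_one, mul_one, one_mul, Finset.prod_mul_distrib,
    Finset.prod_const_one, Ot, Pt]
  try ring

theorem P4 : (Q21 s t w).rc (lam3 s t w 1 1 0) * (Q21 s t w).rc (lam3 s t w (-1) (-1) 0)
    = Pt s t w (U s t w) * Pt s t w (V s t w) * (Wt s t w (U s t w) * Wt s t w (V s t w)) := by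
  have h : ∀ e, ge s t w (t e) (s e) (me s t w e) (lam3 s t w 1 1 0) *
      ge s t w (t e) (s e) (me s t w e) (lam3 s t w (-1) (-1) 0)
      = pe s t w e (U s t w) * pe s t w e (V s t w) := by
    intro e
    rcases fin2 (t e) with ht | ht <;> rcases fin2 (s e) with hs | hs <;> rw [ht, hs] <;>
      simp only [ge00, ge01, ge10, ge11, oe, pe, hs, ht, x1, x2, x3, x4, x5, x6, x7, pow_zero,
        pow_one, mul_one, one_mul, and_self, if_true, fin2_01, fin2_10, false_and, and_false,
        if_false, and_true, true_and] <;> ring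

  rw [rc_eq, rc_eq, mul_mul_mul_comm, ← Finset.prod_mul_distrib, Finset.prod_congr rfl
    (fun e _ => h e)]
  simp only [x8, x9, x10, pow_zero, pow_one, mul_one, one_mul, Finset.prod_mul_distrib,
    Finset.prod_const_one, Ot, Pt]
  try ring

theorem P5 : (Q21 s t w).rc (lam3 s t w 0 0 1) * (Q21 s t w).rc (lam3 s t w 0 0 (-1))
    = Pt s t w (U s t w) * Pt s t w (V s t w) * Bt s t w := by
  have h : ∀ e, ge s t w (t e) (s e) (me s t w e) (lam3 s t w 0 0 1) *
      ge s t w (t e) (s e) (me s t w e) (lam3 s t w 0 0 (-1))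
      = pe s t w e (U s t w) * pe s t w e (V s t w) := by
    intro e
    rcases fin2 (t e) with ht | ht <;> rcases fin2 (s e) with hs | hs <;> rw [ht, hs] <;>
      simp only [ge00, ge01, ge10, ge11, oe, pe, hs, ht, x1, x2, x3, x4, x5, x6, x7, pow_zero,
        pow_one, mul_one, one_mul, and_self, if_true, fin2_01, fin2_10, false_and, and_false,
        if_false, and_true, true_and] <;> ring

  rw [rc_eq, rc_eq, mul_mul_mul_comm, ← Finset.prod_mul_distrib, Finset.prod_congr rfl
    (fun e _ => h e)]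
  simp only [x8, x9, x10, pow_zero, pow_one, mul_one, one_mul, Finset.prod_mul_distrib,
    Finset.prod_const_one, Ot, Pt]
  try ring

theorem P6 : (Q21 s t w).rc (lam3 s t w 1 1 1) * (Q21 s t w).rc (lam3 s t w (-1) (-1) (-1))
    = Wt s t w (U s t w) * Wt s t w (V s t w) * Bt s t w := by
  have h : ∀ e, ge s t w (t e) (s e) (me s t w e) (lam3 s t w 1 1 1) *
      ge s t w (t e) (s e) (me s t w e) (lam3 s t w (-1) (-1) (-1))
      = (1 : (Q21 s t w).SS) := by
    intro e
    rcases fin2 (t e) with ht | ht <;> rcases fin2 (s e) with hs | hs <;> rw [ht, hs] <;>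
      simp only [ge00, ge01, ge10, ge11, oe, pe, hs, ht, x1, x2, x3, x4, x5, x6, x7, pow_zero,
        pow_one, mul_one, one_mul, and_self, if_true, fin2_01, fin2_10, false_and, and_false,
        if_false, and_true, true_and] <;> ring

  rw [rc_eq, rc_eq, mul_mul_mul_comm, ← Finset.prod_mul_distrib, Finset.prod_congr rfl
    (fun e _ => h e)]
  simp only [x8, x9, x10, pow_zero, pow_one, mul_one, one_mul, Finset.prod_mul_distrib,
    Finset.prod_const_one, Ot, Pt]
  try ring

theorem P3 : (Q21 s t w).rc (lam3 s t w 1 0 0) * (Q21 s t w).rc (lam3 s t w 0 (-1) 0) *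
    Bt s t w = (Q21 s t w).rc (lam3 s t w 1 0 1) * (Q21 s t w).rc (lam3 s t w 0 (-1) (-1)) := by
  have h : ∀ e, ge s t w (t e) (s e) (me s t w e) (lam3 s t w 1 0 0) *
      ge s t w (t e) (s e) (me s t w e) (lam3 s t w 0 (-1) 0)
      = ge s t w (t e) (s e) (me s t w e) (lam3 s t w 1 0 1) *
      ge s t w (t e) (s e) (me s t w e) (lam3 s t w 0 (-1) (-1)) := by
    intro e
    rcases fin2 (t e) with ht | ht <;> rcases fin2 (s e) with hs | hs <;> rw [ht, hs] <;>
      simp only [ge00, ge01, ge10, ge11, oe, pe, hs, ht, x1, x2, x3, x4, x5, x6, x7, pow_zero,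
        pow_one, mul_one, one_mul, and_self, if_true, fin2_01, fin2_10, false_and, and_false,
        if_false, and_true, true_and]

  rw [rc_eq, rc_eq, mul_mul_mul_comm, ← Finset.prod_mul_distrib, Finset.prod_congr rfl
    (fun e _ => h e), rc_eq, rc_eq, mul_mul_mul_comm (∏ e, ge s t w (t e) (s e) (me s t w e)
      (lam3 s t w 1 0 1)), ← Finset.prod_mul_distrib]
  simp only [x8, x9, x10, pow_zero, pow_one, mul_one, one_mul]
  ring

theorem P3' : (Q21 s t w).rc (lam3 s t w 0 1 0) * (Q21 s t w).rc (lam3 s t w (-1) 0 0) *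
    Bt s t w = (Q21 s t w).rc (lam3 s t w 0 1 1) * (Q21 s t w).rc (lam3 s t w (-1) 0 (-1)) := by
  have h : ∀ e, ge s t w (t e) (s e) (me s t w e) (lam3 s t w 0 1 0) *
      ge s t w (t e) (s e) (me s t w e) (lam3 s t w (-1) 0 0)
      = ge s t w (t e) (s e) (me s t w e) (lam3 s t w 0 1 1) *
      ge s t w (t e) (s e) (me s t w e) (lam3 s t w (-1) 0 (-1)) := by
    intro e
    rcases fin2 (t e) with ht | ht <;> rcases fin2 (s e) with hs | hs <;> rw [ht, hs] <;>
      simp only [ge00, ge01, ge10, ge11, oe, pe, hs, ht, x1, x2, x3, x4, x5, x6, x7, pow_zero,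
        pow_one, mul_one, one_mul, and_self, if_true, fin2_01, fin2_10, false_and, and_false,
        if_false, and_true, true_and]

  rw [rc_eq, rc_eq, mul_mul_mul_comm, ← Finset.prod_mul_distrib, Finset.prod_congr rfl
    (fun e _ => h e), rc_eq, rc_eq, mul_mul_mul_comm (∏ e, ge s t w (t e) (s e) (me s t w e)
      (lam3 s t w 0 1 1)), ← Finset.prod_mul_distrib]
  simp only [x8, x9, x10, pow_zero, pow_one, mul_one, one_mul]
  ring

end QData

end Vale.Agent.P291.H808
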