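import Vale.Agent.P291.H808.TwoOneJ

/-!
# Relations for dimension vector `(2, 1)` in normalized form
-/

set_option linter.unusedSectionVars false
set_option linter.unusedSimpArgs false

namespace Vale.Agent.P291.H808

open MvPolynomial

theorem prod_sub {E M : Type} [Fintype E] [CommMonoid M] (p : E → Prop) [DecidablePred p]
    (f : E → M) (g : {e // p e} → M) (h1 : ∀ e, ¬ p e → f e = 1)
    (h2 : ∀ e : {e // p e}, f e.1 = g e) : ∏ e, f e = ∏ e : {e // p e}, g e := by
  have e1 : ∏ e : {e // p e}, g e = ∏ e : {e // p e}, f e.1 :=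
    Finset.prod_congr rfl fun e _ => (h2 e).symm
  rw [e1, ← Finset.prod_subtype (Finset.univ.filter p) (by simp) f]
  symm
  apply Finset.prod_subset (Finset.filter_subset _ _)
  intro e _ he
  apply h1 e
  intro hp
  exact he (Finset.mem_filter.mpr ⟨Finset.mem_univ _, hp⟩)

namespace QData

variable {E : Type} [Fintype E] [DecidableEq E] (s t : E → Fin 2) (w : Fin 2 → ℕ)

/-- arrows between the two vertices -/
abbrev PI : Type := {e : E // s e ≠ t e}
/-- loops at vertex 0 -/
abbrev KI : Type := {e : E // s e = 0 ∧ t e = 0}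

/-- the mass of a loop -/
noncomputable def tk (k : KI s t) : (Q21 s t w).Lam := (Q21 s t w).mass (Sum.inl k.1)

/-- the mass of an edge, with sign -/
noncomputable def nk (e : PI s t) : (Q21 s t w).Lam :=
  if s e.1 = 0 then (Q21 s t w).mass (Sum.inl e.1) else -(Q21 s t w).mass (Sum.inl e.1)

noncomputable abbrev PP21 (z : (Q21 s t w).SS) : (Q21 s t w).SS :=
  Alg.PP (qq s t w) (nk s t w) z
noncomputable abbrev WW21 (z : (Q21 s t w).SS) : (Q21 s t w).SS :=
  Alg.WW (c0 s t w) z
noncomputable abbrev OO21 : (Q21 s t w).SS := Alg.OO (p0 s t w) (p1 s t w) (tk s t w)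
noncomputable abbrev BM21 : (Q21 s t w).SS := Alg.BM (qq s t w) (c1 s t w)

theorem fin_cases2 (i : Fin 2) : i = 0 ∨ i = 1 := by
  fin_cases i
  · left; rfl
  · right; rfl

theorem f10 : ¬ ((1 : Fin 2) = 0) := by decide
theorem f01 : ¬ ((0 : Fin 2) = 1) := by decide

/-- sign of an edge -/
noncomputable def sgnE (e : PI s t) : (Q21 s t w).Lam := if s e.1 = 0 then (-1) else 1

theorem exists_Pt : ∃ ε : (Q21 s t w).Lam, ε * ε = 1 ∧
    ∀ z, Pt s t w z = C ε * PP21 s t w z := by
  refine ⟨∏ e : PI s t, sgnE s t w e, ?_, ?_⟩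
  · rw [← Finset.prod_mul_distrib]
    apply Finset.prod_eq_one
    intro e _
    unfold sgnE
    split_ifs <;> ring
  · intro z
    unfold Pt PP21 Alg.PP
    rw [map_prod, ← Finset.prod_mul_distrib]
    apply prod_sub
    · intro e he
      rw [not_not] at he
      unfold pe
      rw [if_neg, if_neg]
      · rintro ⟨h1, h2⟩
        rw [h1, h2] at he
        exact f10 he
      · rintro ⟨h1, h2⟩
        rw [h1, h2] at he
        exact f01 he
    · rintro ⟨e, he⟩
      unfold pe nk sgnE
      rcases fin_cases2 (s e) with h1 | h1 <;> rcases fin_cases2 (t e) with h2 | h2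
      · exact absurd (h1.trans h2.symm) he
      · rw [if_pos ⟨h1, h2⟩, if_pos h1, if_pos h1, C_neg, C_1]
        ring
      · have h3 : ¬ s e = 0 := by
          rw [h1]
          exact f10
        rw [if_neg (fun h => h3 h.1), if_pos ⟨h1, h2⟩, if_neg h3, if_neg h3, C_neg, C_1]
        ring
      · exact absurd (h1.trans h2.symm) he

theorem exists_Ot : ∃ ε : (Q21 s t w).Lam, ε * ε = 1 ∧ Ot s t w = C ε * OO21 s t w := by
  refine ⟨∏ _e : KI s t, (-1), ?_, ?_⟩
  · rw [← Finset.prod_mul_distrib]
    apply Finset.prod_eq_one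
    intro e _
    ring
  · unfold Ot OO21 Alg.OO
    rw [map_prod, ← Finset.prod_mul_distrib]
    apply prod_sub
    · intro e he
      unfold oe
      rw [if_neg he]
    · rintro ⟨e, he⟩
      unfold oe tk
      rw [if_pos he, C_neg, C_1]
      ring

theorem exists_Wt : ∃ ε : (Q21 s t w).Lam, ε * ε = 1 ∧
    ∀ z, Wt s t w z = C ε * WW21 s t w z := by
  refine ⟨∏ _l : Fin (w 0), (-1), ?_, ?_⟩
  · rw [← Finset.prod_mul_distrib]
    apply Finset.prod_eq_one
    intro e _
    ring
  · intro z
    unfold Wt WW21 Alg.WW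
    rw [map_prod, ← Finset.prod_mul_distrib]
    refine Finset.prod_congr rfl fun l _ => ?_
    rw [C_neg, C_1]
    ring

theorem exists_Bt : ∃ ε : (Q21 s t w).Lam, ε * ε = 1 ∧ Bt s t w = C ε * BM21 s t w := by
  refine ⟨∏ _l : Fin (w 1), (-1), ?_, ?_⟩
  · rw [← Finset.prod_mul_distrib]
    apply Finset.prod_eq_one
    intro e _
    ring
  · unfold Bt BM21 Alg.BM
    rw [map_prod, ← Finset.prod_mul_distrib]
    refine Finset.prod_congr rfl fun l _ => ?_
    rw [C_neg, C_1]
    ring

theorem C_sq {ε : (Q21 s t w).Lam} (h : ε * ε = 1) : (C ε : (Q21 s t w).SS) * C ε = 1 := by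
  rw [← C_mul, h, C_1]

variable {ν : Fin 2 → ℤ} (hν : (Q21 s t w).Generic ν)

theorem sw_OO21 : sw21 s t w (OO21 s t w) = OO21 s t w := by
  obtain ⟨ε, h1, h2⟩ := exists_Ot s t w
  have h3 : OO21 s t w = C ε * Ot s t w := by
    rw [h2, ← mul_assoc, C_sq s t w h1, one_mul]
  rw [h3, map_mul, sw_Ot, sw_CC]

include hν in
/-- Everything in the output format of the algebraic theorem dies on the fixed scheme. -/
theorem inJ_comb (κ z α β x y : (Q21 s t w).SS) (hz : sw21 s t w z = z)
    (hα : sw21 s t w α = α) (hβ : sw21 s t w β = β) :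
    (Q21 s t w).InJ ν (OO21 s t w * dd21 s t w (κ * (WW21 s t w (U s t w) * PP21 s t w (U s t w)))
      + (WW21 s t w (U s t w) * PP21 s t w (U s t w)) *
        (WW21 s t w (V s t w) * PP21 s t w (V s t w)) * z
      + BM21 s t w * (PP21 s t w (U s t w) * PP21 s t w (V s t w) * α
        + WW21 s t w (U s t w) * WW21 s t w (V s t w) * β
        + OO21 s t w * (dd21 s t w (PP21 s t w (U s t w)) * dd21 s t w (x * WW21 s t w (U s t w))
          + dd21 s t w (y * (PP21 s t w (V s t w) * WW21 s t w (U s t w)))))) := by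
  obtain ⟨p, hp, hP⟩ := exists_Pt s t w
  obtain ⟨o, ho, hO⟩ := exists_Ot s t w
  obtain ⟨q, hq, hW⟩ := exists_Wt s t w
  obtain ⟨r, hr, hB⟩ := exists_Bt s t w
  have cp := C_sq s t w hp
  have co := C_sq s t w ho
  have cq := C_sq s t w hq
  have cr := C_sq s t w hr
  have hOs := sw_OO21 s t w
  have ddC : ∀ (e : (Q21 s t w).Lam) g, dd21 s t w (C e * g) = C e * dd21 s t w g :=
    fun e g => Alg.dd_mul_sym (p1_ne_p0 s t w) (Alg.sw_C _ _ e) g
  have ddO : ∀ g, dd21 s t w (OO21 s t w * g) = OO21 s t w * dd21 s t w g :=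
    fun g => Alg.dd_mul_sym (p1_ne_p0 s t w) hOs g
  have g1 : (Q21 s t w).InJ ν (OO21 s t w *
      dd21 s t w (κ * (WW21 s t w (U s t w) * PP21 s t w (U s t w)))) := by
    have h := j1 s t w hν (C o * C p * C q * κ)
    rw [hO, hP, hW] at h
    have e : C o * C p * C q * κ * (C o * OO21 s t w * (C p * PP21 s t w (U s t w)) *
        (C q * WW21 s t w (U s t w)))
        = OO21 s t w * (κ * (WW21 s t w (U s t w) * PP21 s t w (U s t w))) := by
      linear_combination (OO21 s t w * (κ * (WW21 s t w (U s t w) * PP21 s t w (U s t w)))) *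
        (C o * C o * (C p * C p) * cq + C o * C o * cp + co)
    rw [e, ddO] at h
    exact h
  have g2 : (Q21 s t w).InJ ν ((WW21 s t w (U s t w) * PP21 s t w (U s t w)) *
        (WW21 s t w (V s t w) * PP21 s t w (V s t w)) * z) := by
    have h := (j2 s t w hν).mul ((mem_RR s t w z).mpr hz)
    rw [hP, hP, hW, hW] at h
    have e : z * (C p * PP21 s t w (U s t w) * (C p * PP21 s t w (V s t w)) *
        (C q * WW21 s t w (U s t w) * (C q * WW21 s t w (V s t w))))
        = (WW21 s t w (U s t w) * PP21 s t w (U s t w)) *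
        (WW21 s t w (V s t w) * PP21 s t w (V s t w)) * z := by
      linear_combination ((WW21 s t w (U s t w) * PP21 s t w (U s t w)) *
        (WW21 s t w (V s t w) * PP21 s t w (V s t w)) * z) * (C p * C p * cq + cp)
    rw [e] at h
    exact h
  have g3 : (Q21 s t w).InJ ν (BM21 s t w *
      (PP21 s t w (U s t w) * PP21 s t w (V s t w) * α)) := by
    have hs : sw21 s t w (C r * α) = C r * α := by rw [map_mul, hα, sw_CC]
    have h := (j3 s t w hν).mul ((mem_RR s t w _).mpr hs)
    rw [hP, hP, hB] at h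
    have e : C r * α * (C p * PP21 s t w (U s t w) * (C p * PP21 s t w (V s t w)) *
        (C r * BM21 s t w)) = BM21 s t w *
      (PP21 s t w (U s t w) * PP21 s t w (V s t w) * α) := by
      linear_combination (BM21 s t w * (PP21 s t w (U s t w) * PP21 s t w (V s t w) * α)) *
        (C p * C p * cr + cp)
    rw [e] at h
    exact h
  have g4 : (Q21 s t w).InJ ν (BM21 s t w *
      (WW21 s t w (U s t w) * WW21 s t w (V s t w) * β)) := by
    have hs : sw21 s t w (C r * β) = C r * β := by rw [map_mul, hβ, sw_CC]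
    have h := (j4 s t w hν).mul ((mem_RR s t w _).mpr hs)
    rw [hW, hW, hB] at h
    have e : C r * β * (C q * WW21 s t w (U s t w) * (C q * WW21 s t w (V s t w)) *
        (C r * BM21 s t w)) = BM21 s t w *
      (WW21 s t w (U s t w) * WW21 s t w (V s t w) * β) := by
      linear_combination (BM21 s t w * (WW21 s t w (U s t w) * WW21 s t w (V s t w) * β)) *
        (C q * C q * cr + cq)
    rw [e] at h
    exact h
  have g5 : (Q21 s t w).InJ ν (BM21 s t w * (OO21 s t w *
      (dd21 s t w (PP21 s t w (U s t w)) * dd21 s t w (x * WW21 s t w (U s t w))))) := by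
    have h := j5 s t w hν (C o * C p * C q * C r * x)
    rw [hO, hP, hW, hB] at h
    have e1 : C o * C p * C q * C r * x * (C q * WW21 s t w (U s t w))
        = C (o * p * r) * (x * WW21 s t w (U s t w)) := by
      rw [C_mul, C_mul]
      linear_combination (C o * C p * C r * x * WW21 s t w (U s t w)) * cq
    rw [e1, ddC, ddC] at h
    have e : C r * BM21 s t w * (C o * OO21 s t w) * (C p * dd21 s t w (PP21 s t w (U s t w)) *
        (C (o * p * r) * dd21 s t w (x * WW21 s t w (U s t w))))
        = BM21 s t w * (OO21 s t w *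
      (dd21 s t w (PP21 s t w (U s t w)) * dd21 s t w (x * WW21 s t w (U s t w)))) := by
      rw [C_mul, C_mul]
      linear_combination (BM21 s t w * (OO21 s t w * (dd21 s t w (PP21 s t w (U s t w)) *
        dd21 s t w (x * WW21 s t w (U s t w))))) * (C o * C o * (C p * C p) * cr
          + C o * C o * cp + co)
    rw [e] at h
    exact h
  have g6 : (Q21 s t w).InJ ν (BM21 s t w * (OO21 s t w *
      dd21 s t w (y * (PP21 s t w (V s t w) * WW21 s t w (U s t w))))) := by
    have h := j6 s t w hν (C o * C p * C q * C r * y)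
    rw [hO, hP, hW, hB] at h
    have hs : sw21 s t w (BM21 s t w) = BM21 s t w :=
      Alg.sw_BM (qq_ne_p0 s t w) (qq_ne_p1 s t w) _
    have e : C o * C p * C q * C r * y * (C o * OO21 s t w * (C p * PP21 s t w (V s t w)) *
        (C q * WW21 s t w (U s t w)) * (C r * BM21 s t w))
        = BM21 s t w * (OO21 s t w * (y * (PP21 s t w (V s t w) * WW21 s t w (U s t w)))) := by
      linear_combination (BM21 s t w * (OO21 s t w * (y * (PP21 s t w (V s t w) *
        WW21 s t w (U s t w))))) *
        (C o * C o * (C p * C p) * (C q * C q) * cr + C o * C o * (C p * C p) * cq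
          + C o * C o * cp + co)
    have ddB : ∀ g, dd21 s t w (BM21 s t w * g) = BM21 s t w * dd21 s t w g :=
      fun g => Alg.dd_mul_sym (p1_ne_p0 s t w) hs g
    rw [e, ddB, ddO] at h
    exact h
  have e : OO21 s t w * dd21 s t w (κ * (WW21 s t w (U s t w) * PP21 s t w (U s t w)))
      + (WW21 s t w (U s t w) * PP21 s t w (U s t w)) *
        (WW21 s t w (V s t w) * PP21 s t w (V s t w)) * z
      + BM21 s t w * (PP21 s t w (U s t w) * PP21 s t w (V s t w) * α
        + WW21 s t w (U s t w) * WW21 s t w (V s t w) * β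
        + OO21 s t w * (dd21 s t w (PP21 s t w (U s t w)) * dd21 s t w (x * WW21 s t w (U s t w))
          + dd21 s t w (y * (PP21 s t w (V s t w) * WW21 s t w (U s t w)))))
      = OO21 s t w * dd21 s t w (κ * (WW21 s t w (U s t w) * PP21 s t w (U s t w)))
      + (WW21 s t w (U s t w) * PP21 s t w (U s t w)) *
        (WW21 s t w (V s t w) * PP21 s t w (V s t w)) * z
      + BM21 s t w * (PP21 s t w (U s t w) * PP21 s t w (V s t w) * α)
      + BM21 s t w * (WW21 s t w (U s t w) * WW21 s t w (V s t w) * β)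
      + BM21 s t w * (OO21 s t w * (dd21 s t w (PP21 s t w (U s t w)) *
          dd21 s t w (x * WW21 s t w (U s t w))))
      + BM21 s t w * (OO21 s t w *
          dd21 s t w (y * (PP21 s t w (V s t w) * WW21 s t w (U s t w)))) := by ring
  rw [e]
  exact ((((g1.add g2).add g3).add g4).add g5).add g6

end QData

end Vale.Agent.P291.H808
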